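import Crest.Agent.R141.Defs

/-! Row 141: the decoupling statement. -/

set_option autoImplicit false
open Finset Function
open scoped BigOperators

namespace Crest.Agent.R141

/-- Hamiltonian of a perturbed system of `N` sites: a function of the spins at the last level plus
one local perturbation per site -/
noncomputable def sysH (P : Par) {Y : Type} {N : ℕ} (pert : Path (Bool × Y) → ℝ)
    (G : (Fin N → Bool) → ℝ) (ω : Path (Fin N → Bool × Y)) : ℝ :=
  G (fun i => (ω P.r i).1) + ∑ i, pert fun t => ω t i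

/-- the trial read off a system: a uniformly chosen spin of an independent copy of the system,
started at level `j` from the path `ω` -/
def sysTrial (P : Par) (j : ℕ) {Y : Type} [Fintype Y] [Nonempty Y] {N : ℕ} [NeZero N]
    (H : Path (Fin N → Bool × Y) → ℝ) (ω : Path (Fin N → Bool × Y)) : Trial where
  P := P
  a := j
  I := Fin N
  S := Fin N → Bool × Y
  H := fun _ => H
  s := fun i x => (x i).1
  surj := fun _ b => ⟨fun _ => (b, Classical.arbitrary Y), rfl⟩
  ω₀ := ω

/-- after a small local perturbation, uniformly chosen spins of the system behave, seen from a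
typical early level, like spins of independent copies of the system -/
def DecoupleStmt : Prop :=
  ∀ (L₀ : ℕ) (B ε : ℝ), 0 ≤ B → 0 < ε →
    ∃ (P : Par) (J : ℕ) (Y : Type) (_ : Fintype Y) (_ : Nonempty Y)
      (pert : Path (Bool × Y) → ℝ) (N₀ : ℕ),
      0 < J ∧ J ≤ P.r ∧ StrictMonoOn P.m (Set.Iic P.r) ∧ P.m J * B ≤ 1 ∧
      J * (P.m J * B ^ 2) ≤ ε ∧ (∀ ω, |pert ω| ≤ ε) ∧
      ∀ (N : ℕ) [NeZero N], N₀ ≤ N → ∀ (G : (Fin N → Bool) → ℝ)
        (L : Type) [Fintype L] [DecidableEq L], Fintype.card L ≤ L₀ →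
        ∀ v : (L → Bool) → ℝ, (∀ s, |v s| ≤ B) → ∀ ω₀ : Path (Fin N → Bool × Y),
          𝔼 j : Fin J, E P (sysH P pert G) 0 ω₀ (fun ω =>
            |(𝔼 idx : L → Fin N,
                Psi P (sysH P pert G) (fun x => v fun l => (x P.r (idx l)).1) j ω) -
              TV (sysTrial P j (sysH P pert G) ω) L v|) ≤ ε

end Crest.Agent.R141
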