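import Crest.Agent.R141.Up3
import Crest.Agent.R141.Stmts3

/-! Row 141, lower bound: the perturbed free energy. -/

set_option autoImplicit false
open Finset Function
open scoped BigOperators
open Crest.ProbabilityR.Diluted

namespace Crest.Agent.R141.Ass
open Up

/-- energy functions of `N` spins -/
abbrev En (N : ℕ) : Type := (Fin N → Bool) → ℝ

/-- monotone and compatible with constants -/
def Lip {Z : Type} (Ψ : (Z → ℝ) → ℝ) : Prop :=
  ∀ G G' (c : ℝ), (∀ σ, G σ ≤ G' σ + c) → Ψ G ≤ Ψ G' + c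

/-- the properties of the perturbed free energy used by the cavity argument -/
structure Pert (L₀ : ℕ) (B ε : ℝ) (N₀ : ℕ) (Φ : ∀ N, En N → ℝ) : Prop where
  lip : ∀ N, Lip (Φ N)
  up : ∀ N G, Φ N G ≤ Real.log (𝔼 σ, Real.exp (G σ)) + ε * N
  cav : ∀ N (G : En (N + 1)),
    Φ N (fun σ => Real.log (𝔼 e : Bool, Real.exp (G (Fin.snoc σ e)))) - ε ≤ Φ (N + 1) G
  dec : ∀ N, N₀ ≤ N → 0 < N → ∀ G : En N, ∃ (Ξ : Type) (Λ : (Ξ → ℝ) →ₗ[ℝ] ℝ) (T : Ξ → Trial),
    IsP Λ ∧ (∀ ξ, (T ξ).Adm) ∧ ∀ (L : Type) [Fintype L] [DecidableEq L], Fintype.card L ≤ L₀ →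
      ∀ v : (L → Bool) → ℝ, (∀ s, |v s| ≤ B) →
        |(𝔼 idx : L → Fin N, (Φ N (fun σ => G σ + v fun l => σ (idx l)) - Φ N G)) -
          Λ fun ξ => TV (T ξ) L v| ≤ 2 * ε

lemma expect_fst {A Y : Type*} [Fintype A] [Fintype Y] [Nonempty Y] (g : A → ℝ) :
    𝔼 s : A × Y, g s.1 = 𝔼 a, g a := by
  rw [← univ_product_univ, expect_product]; simp

lemma expect_spins {K Y : Type*} [Fintype K] [DecidableEq K] [Fintype Y] [Nonempty Y]
    (g : (K → Bool) → ℝ) : 𝔼 s : K → Bool × Y, g (fun i => (s i).1) = 𝔼 σ, g σ := by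
  rw [← expect_fst (Y := K → Y) g]
  exact Fintype.expect_equiv (Equiv.arrowProdEquivProdArrow K (fun _ => Bool) fun _ => Y) _ _
    fun _ => rfl

theorem exists_pert (hD : DecoupleStmt) (L₀ : ℕ) {B ε : ℝ} (hB : 0 ≤ B) (hε : 0 < ε) :
    ∃ N₀ Φ, Pert L₀ B ε N₀ Φ := by
  obtain ⟨P, J, Y, _, _, pert, N₀, hJ, hJr, hm, hmB, hJB, hp, hdec⟩ := hD L₀ B ε hB hε
  let y₀ : Bool × Y := Classical.arbitrary _
  refine ⟨N₀, fun N G => X P (sysH P pert G) 0 fun _ _ => y₀, fun N G G' c h => ?_, fun N G => ?_,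
    fun N G => ?_, fun N hN hN0 G => ?_⟩
  · rw [← X_add_const]
    refine X_mono P (fun x => ?_) _ _
    have := h fun i => (x P.r i).1
    simp only [sysH]; linarith
  · rw [← expect_spins (Y := Y) fun σ => Real.exp (G σ),
      ← X_last P (fun s : Fin N → Bool × Y => G fun i => (s i).1) 0 (Nat.zero_le _) fun _ _ => y₀,
      ← X_add_const]
    refine X_mono P (fun x => ?_) _ _
    have := sum_le_card_nsmul univ (fun i : Fin N => pert fun t => x t i) ε
      fun i _ => (abs_le.1 (hp _)).2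
    simp only [card_univ, Fintype.card_fin, nsmul_eq_mul] at this
    simp only [sysH]; linarith
  · let e := (Fin.snocEquiv fun _ : Fin (N + 1) => Bool × Y).symm
    let H : Bool × Y → Path (Fin N → Bool × Y) → ℝ := fun a y =>
      G (Fin.snoc (fun i => (y P.r i).1) a.1) + ∑ i, pert fun t => y t i
    have h1 := X_marg P H 0 (Nat.zero_le _) (e ∘ fun _ _ => y₀)
    have h2 := X_unif P (unif_equiv e) (fun x => H (x P.r).1 (Prod.snd ∘ x)) 0 fun _ _ => y₀
    have h3 : (fun y => Real.log (𝔼 a, Real.exp (H a y))) = sysH P pert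
        fun σ => Real.log (𝔼 e : Bool, Real.exp (G (Fin.snoc σ e))) := by
      funext y
      simp only [H, sysH, Real.exp_add, ← expect_mul]
      rw [Real.log_mul (expect_exp_pos _).ne' (Real.exp_pos _).ne', Real.log_exp,
        expect_fst fun b => Real.exp (G (Fin.snoc (fun i => (y P.r i).1) b))]
    rw [h3] at h1
    show X P _ 0 (Prod.snd ∘ e ∘ fun _ _ => y₀) - ε ≤ _
    rw [← h1, ← h2, sub_le_iff_le_add, ← X_add_const]
    refine X_mono P (fun x => ?_) _ _
    have h4 : (Fin.snoc (fun i => (x P.r i.castSucc).1) (x P.r (Fin.last N)).1 :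
        Fin (N + 1) → Bool) = fun i => (x P.r i).1 :=
      Fin.snoc_init_self fun i => (x P.r i).1
    have h5 := (abs_le.1 (hp fun t => x t (Fin.last N))).1
    show G (Fin.snoc (fun i => (x P.r i.castSucc).1) (x P.r (Fin.last N)).1) +
      (∑ i : Fin N, pert fun t => x t i.castSucc) ≤ _
    rw [h4, sysH, Fin.sum_univ_castSucc]
    linarith
  · haveI : NeZero N := ⟨hN0.ne'⟩
    haveI : Nonempty (Fin J) := ⟨⟨0, hJ⟩⟩
    set H := sysH P pert G
    let K : Fin J → (Fin J × Path (Fin N → Bool × Y) → ℝ) →ₗ[ℝ] ℝ := fun j =>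
      E P H 0 (fun _ _ => y₀) ∘ₗ LinearMap.funLeft ℝ ℝ fun ω => (j, ω)
    have hE := E_isP P H 0 fun _ _ => y₀
    refine ⟨Fin J × Path (Fin N → Bool × Y), avg (Fin J) ∘ₗ LinearMap.pi K,
      fun ξ => sysTrial P ξ.1 H ξ.2, (avg_isP _).comp K fun j => ⟨fun f hf => hE.nonneg _
        fun ω => hf _, hE.one⟩, fun ξ => ⟨ξ.1.2.le.trans hJr, hm⟩, fun L _ _ hL v hv => ?_⟩
    have h1 := hdec N hN G L hL v hv fun _ _ => y₀
    have h2 : ∀ idx : L → Fin N, X P (sysH P pert fun σ => G σ + v fun l => σ (idx l)) 0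
        (fun _ _ => y₀) - X P H 0 (fun _ _ => y₀) =
        Psi P H (fun x => v fun l => (x P.r (idx l)).1) 0 fun _ _ => y₀ := by
      intro idx
      rw [Psi]
      congr 2
      funext x
      simp only [H, sysH]; ring
    simp only [h2]
    show |_ - 𝔼 j : Fin J, E P H 0 (fun _ _ => y₀) fun ω => TV (sysTrial P j H ω) L v| ≤ _
    rw [← Fintype.expect_const (ι := Fin J) (𝔼 idx : L → Fin N,
      Psi P H (fun x => v fun l => (x P.r (idx l)).1) 0 fun _ _ => y₀), ← expect_sub_distrib]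
    refine ((avg_isP _).abs_le _).trans (le_trans ((avg_isP _).mono
      (g := fun j : Fin J => ε + E P H 0 (fun _ _ => y₀) fun ω =>
        |(𝔼 idx : L → Fin N, Psi P H (fun x => v fun l => (x P.r (idx l)).1) j ω) -
              TV (sysTrial P j H ω) L v|) fun j => ?_) ?_)
    · refine (abs_sub_le _ (E P H 0 (fun _ _ => y₀) fun ω => 𝔼 idx : L → Fin N,
        Psi P H (fun x => v fun l => (x P.r (idx l)).1) j ω) _).trans (add_le_add ?_ ?_)
      · rw [lin_expect, ← expect_sub_distrib]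
        refine (avg_isP _).abs_le_of fun idx => ?_
        have hmj : P.m j ≤ P.m J := P.mono j.2.le
        have a1 := Psi_ge P H (fun x => v fun l => (x P.r (idx l)).1) (Nat.zero_le j) fun _ _ => y₀
        have a2 := Psi_le P (H := H) (δ := fun x => v fun l => (x P.r (idx l)).1) (fun _ => hv _)
          (Nat.zero_le j) ((mul_le_mul_of_nonneg_right hmj hB).trans hmB) fun _ _ => y₀
        have a3 : ((j : ℕ) : ℝ) * (P.m j * B ^ 2) ≤ J * (P.m J * B ^ 2) :=
          mul_le_mul (by exact_mod_cast j.2.le) (mul_le_mul_of_nonneg_right hmj (sq_nonneg _))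
            (mul_nonneg (P.pos _).le (sq_nonneg _)) (Nat.cast_nonneg _)
        simp only [Nat.cast_zero, sub_zero] at a2
        rw [abs_of_nonneg (sub_nonneg.2 a1)]
        exact sub_le_iff_le_add'.2 (a2.trans (by gcongr; exact a3.trans hJB))
      · rw [← lin_sub]; exact hE.abs_le _
    · rw [lin_add, (avg_isP _).const, avg_apply]
      linarith

end Crest.Agent.R141.Ass
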