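import Crest.Agent.R141.Ass1

/-! Row 141, lower bound: clause-adding operators and Poisson thinning. -/

set_option autoImplicit false
open Finset Function
open scoped BigOperators
open Crest.ProbabilityR.Diluted

namespace Crest.Agent.R141.Ass
open Up

section op
variable {Z : Type}

/-- operators adding a random energy of size at most `B` -/
structure Op (B : ℝ) (T : Module.End ℝ ((Z → ℝ) → ℝ)) : Prop where
  mono : ∀ (Ψ Ψ' : (Z → ℝ) → ℝ) (c : ℝ), (∀ G, Ψ G ≤ Ψ' G + c) → ∀ G, T Ψ G ≤ T Ψ' G + c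
  lip : ∀ Ψ, Lip Ψ → Lip (T Ψ)
  near : ∀ Ψ, Lip Ψ → ∀ G, |T Ψ G - Ψ G| ≤ B

lemma Op.one : Op 0 (1 : Module.End ℝ ((Z → ℝ) → ℝ)) :=
  ⟨fun _ _ _ h => h, fun _ h => h, fun _ _ _ => by simp⟩

lemma Op.mul {B B' : ℝ} {T T' : Module.End ℝ ((Z → ℝ) → ℝ)} (h : Op B T) (h' : Op B' T') :
    Op (B + B') (T * T') :=
  ⟨fun _ _ c hc => h.mono _ _ c (h'.mono _ _ c hc), fun _ hΨ => h.lip _ (h'.lip _ hΨ),
    fun Ψ hΨ G => (abs_sub_le _ (T' Ψ G) _).trans
      (add_le_add (h.near _ (h'.lip _ hΨ) G) (h'.near _ hΨ G))⟩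

lemma Op.pow {B : ℝ} {T : Module.End ℝ ((Z → ℝ) → ℝ)} (h : Op B T) (n : ℕ) :
    Op (n * B) (T ^ n) := by
  induction n with
  | zero => simpa using Op.one
  | succ n ih =>
    have := ih.mul h
    rw [← pow_succ] at this
    convert this using 1
    push_cast; ring

lemma Op.mix {B q : ℝ} {T T' : Module.End ℝ ((Z → ℝ) → ℝ)} (h : Op B T) (h' : Op B T')
    (h0 : 0 ≤ q) (h1 : q ≤ 1) : Op B (q • T + (1 - q) • T') := by
  have h2 : 0 ≤ 1 - q := sub_nonneg.2 h1
  refine ⟨fun Ψ Ψ' c hc G => ?_, fun Ψ hΨ G G' c hc => ?_, fun Ψ hΨ G => ?_⟩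
  · have a1 := mul_le_mul_of_nonneg_left (h.mono _ _ c hc G) h0
    have a2 := mul_le_mul_of_nonneg_left (h'.mono _ _ c hc G) h2
    simp only [LinearMap.add_apply, LinearMap.smul_apply, Pi.add_apply, Pi.smul_apply, smul_eq_mul]
    linarith
  · have a1 := mul_le_mul_of_nonneg_left (h.lip _ hΨ G G' c hc) h0
    have a2 := mul_le_mul_of_nonneg_left (h'.lip _ hΨ G G' c hc) h2
    simp only [LinearMap.add_apply, LinearMap.smul_apply, Pi.add_apply, Pi.smul_apply, smul_eq_mul]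
    linarith
  · have a1 := abs_le.1 (h.near _ hΨ G)
    have a2 := abs_le.1 (h'.near _ hΨ G)
    simp only [LinearMap.add_apply, LinearMap.smul_apply, Pi.add_apply, Pi.smul_apply, smul_eq_mul]
    rw [abs_le]
    constructor <;> nlinarith

lemma Op.pow_ge {B B' η : ℝ} {T T' : Module.End ℝ ((Z → ℝ) → ℝ)} (h : Op B T) (h' : Op B' T')
    (hη : ∀ Ψ, Lip Ψ → ∀ G, T' Ψ G ≤ T Ψ G + η) {Φ : (Z → ℝ) → ℝ} (hΦ : Lip Φ) (n : ℕ)
    (G : Z → ℝ) : (T' ^ n) Φ G ≤ (T ^ n) Φ G + n * η := by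
  induction n generalizing G with
  | zero => simp
  | succ n ih =>
    rw [pow_succ', pow_succ', Module.End.mul_apply, Module.End.mul_apply]
    have h1 := hη _ ((h'.pow n).lip _ hΦ) G
    have h2 := h.mono _ _ _ ih G
    push_cast; linarith

lemma Lip.abs_sub {Ψ : (Z → ℝ) → ℝ} (h : Lip Ψ) {G G' : Z → ℝ} {c : ℝ}
    (hc : ∀ σ, |G σ - G' σ| ≤ c) : |Ψ G - Ψ G'| ≤ c := by
  have h1 := h G G' c fun σ => by linarith [abs_le.1 (hc σ)]
  have h2 := h G' G c fun σ => by linarith [abs_le.1 (hc σ)]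
  rw [abs_le]; constructor <;> linarith

/-- adding a random energy -/
noncomputable def conv {A : Type} [Fintype A] (w : A → ℝ) (g : A → Z → ℝ) :
    Module.End ℝ ((Z → ℝ) → ℝ) where
  toFun Ψ G := wl w fun a => Ψ (G + g a)
  map_add' _ _ := funext fun _ => lin_add _ _ _
  map_smul' _ _ := funext fun _ => lin_mul _ _ _

lemma conv_apply {A : Type} [Fintype A] (w : A → ℝ) (g : A → Z → ℝ) (Ψ : (Z → ℝ) → ℝ)
    (G : Z → ℝ) : conv w g Ψ G = wl w fun a => Ψ (G + g a) := rfl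

lemma conv_comm {A A' : Type} [Fintype A] [Fintype A'] (w : A → ℝ) (g : A → Z → ℝ) (w' : A' → ℝ)
    (g' : A' → Z → ℝ) : Commute (conv w g) (conv w' g') := by
  ext Ψ G
  simp only [Module.End.mul_apply, conv_apply]
  rw [wl_comm]
  simp only [add_right_comm]

lemma conv_op {A : Type} [Fintype A] {w : A → ℝ} (hw : IsP (wl w)) {g : A → Z → ℝ} {B : ℝ}
    (hg : ∀ a σ, |g a σ| ≤ B) : Op B (conv w g) := by
  refine ⟨fun Ψ Ψ' c hc G => ?_, fun Ψ hΨ G G' c hc => ?_, fun Ψ hΨ G => ?_⟩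
  · rw [conv_apply, conv_apply, ← hw.const c, ← lin_add]
    exact hw.mono fun a => hc _
  · rw [conv_apply, conv_apply, ← hw.const c, ← lin_add]
    exact hw.mono fun a => hΨ _ _ c fun σ => by simp only [Pi.add_apply]; linarith [hc σ]
  · rw [conv_apply, ← hw.const (Ψ G)]
    exact hw.abs_sub_le fun a => hΨ.abs_sub fun σ => by simpa using hg a σ

lemma wl_snoc {A : Type} [Fintype A] (w : A → ℝ) (n : ℕ) (F : (Fin (n + 1) → A) → ℝ) :
    wl (Up.pw w (Fin (n + 1))) F =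
      wl w fun y => wl (Up.pw w (Fin n)) fun b => F (Fin.snoc b y) := by
  simp only [wl_apply, mul_sum]
  rw [← Fintype.sum_prod_type', ← (Fin.snocEquiv fun _ => A).sum_comp]
  refine sum_congr rfl fun q _ => ?_
  simp only [Up.pw, Fin.prod_univ_castSucc, Fin.snocEquiv, Equiv.coe_fn_mk, Fin.snoc_castSucc,
    Fin.snoc_last]
  ring

lemma conv_pow {A : Type} [Fintype A] (w : A → ℝ) (g : A → Z → ℝ) (Ψ : (Z → ℝ) → ℝ) (n : ℕ)
    (G : Z → ℝ) : (conv w g ^ n) Ψ G = wl (Up.pw w (Fin n)) fun a => Ψ (G + ∑ k, g (a k)) := by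
  induction n generalizing G with
  | zero => simp [wl_apply, Up.pw]
  | succ n ih =>
    rw [pow_succ', Module.End.mul_apply, conv_apply, wl_snoc]
    simp only [ih, Fin.sum_univ_castSucc, Fin.snoc_castSucc, Fin.snoc_last]
    congr 1; funext y; congr 1; funext b; congr 1; abel

end op

lemma summable_poi_lin {lam C D : ℝ} (h : 0 ≤ lam) {a : ℕ → ℝ} (ha : ∀ k, |a k| ≤ C + D * k) :
    Summable fun k => poissonWeight lam k * a k :=
  (((hasSum_poi lam).summable.mul_right C).add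
    ((hasSum_poi_mul lam).summable.mul_left D)).of_norm_bounded fun k => by
    rw [Real.norm_eq_abs, abs_mul, abs_of_nonneg (poi_nonneg h k)]
    have := mul_le_mul_of_nonneg_left (ha k) (poi_nonneg h k)
    linarith

lemma hasSum_thin₂ {a b C D : ℝ} (ha : 0 ≤ a) (hb : 0 ≤ b) (hC : 0 ≤ C) (hD : 0 ≤ D)
    {g : ℕ → ℕ → ℝ} (hg : ∀ i j, |g i j| ≤ C + D * (i + j)) :
    HasSum (fun n => ∑ q ∈ antidiagonal n, poissonWeight a q.1 * (poissonWeight b q.2 * g q.1 q.2))
      (∑' i, poissonWeight a i * ∑' j, poissonWeight b j * g i j) ∧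
    Summable fun i => poissonWeight a i * ∑' j, poissonWeight b j * g i j := by
  have s1 : Summable fun i : ℕ => poissonWeight a i * (1 + C + D * i) :=
    summable_poi_lin ha fun i => (abs_of_nonneg (by positivity)).le
  have s2 : Summable fun j : ℕ => poissonWeight b j * (1 + D * j) :=
    summable_poi_lin hb fun i => (abs_of_nonneg (by positivity)).le
  have s3 := s1.mul_of_nonneg s2 (fun i => mul_nonneg (poi_nonneg ha i) (by positivity))
    fun j => mul_nonneg (poi_nonneg hb j) (by positivity)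
  have hF : Summable fun q : ℕ × ℕ => poissonWeight a q.1 * (poissonWeight b q.2 * g q.1 q.2) := by
    refine s3.of_norm_bounded fun q => ?_
    rw [Real.norm_eq_abs, abs_mul, abs_mul, abs_of_nonneg (poi_nonneg ha _),
      abs_of_nonneg (poi_nonneg hb _), mul_mul_mul_comm, ← mul_assoc]
    refine mul_le_mul_of_nonneg_left ((hg _ _).trans ?_)
      (mul_nonneg (poi_nonneg ha _) (poi_nonneg hb _))
    have h1 : 0 ≤ D * q.1 := by positivity
    have h2 : 0 ≤ D * q.2 := by positivity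
    nlinarith [mul_nonneg h1 h2, mul_nonneg hC h2]
  constructor
  · have h1 := (Finset.HasAntidiagonal.sigmaAntidiagonalEquivProd.hasSum_iff.2 hF.hasSum).sigma
      fun n => hasSum_fintype _
    rw [hF.tsum_prod] at h1
    simp only [tsum_mul_left] at h1
    refine (funext fun n => ?_ : _ = fun n => ∑ q ∈ antidiagonal n,
      poissonWeight a q.1 * (poissonWeight b q.2 * g q.1 q.2)) ▸ h1
    exact sum_coe_sort (antidiagonal n)
      fun q => poissonWeight a q.1 * (poissonWeight b q.2 * g q.1 q.2)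
  · simpa only [tsum_mul_left] using hF.prod

lemma poi_choose (lam q : ℝ) (i j : ℕ) :
    poissonWeight lam (i + j) * ((i + j).choose i * (q ^ i * (1 - q) ^ j)) =
      poissonWeight (q * lam) i * poissonWeight ((1 - q) * lam) j := by
  have e2 : Real.exp (-lam) = Real.exp (-(q * lam)) * Real.exp (-((1 - q) * lam)) := by
    rw [← Real.exp_add]; congr 1; ring
  simp only [poissonWeight, e2, Nat.cast_add_choose ℝ, mul_pow, pow_add]
  field_simp

lemma thin_op {Z : Type} {A : ((Z → ℝ) → ℝ) →ₗ[ℝ] ℝ} (hA : IsP A) {B lam q : ℝ} (hB : 0 ≤ B)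
    (hl : 0 ≤ lam) (h0 : 0 ≤ q) (h1 : q ≤ 1) {T T' : Module.End ℝ ((Z → ℝ) → ℝ)} (h : Op B T)
    (h' : Op B T') (hc : Commute T T') {Φ : (Z → ℝ) → ℝ} (hΦ : Lip Φ) :
    HasSum (fun n => poissonWeight lam n * A (((q • T + (1 - q) • T') ^ n) Φ))
      (∑' i, poissonWeight (q * lam) i * ∑' j, poissonWeight ((1 - q) * lam) j *
        A ((T ^ i) ((T' ^ j) Φ))) ∧
    Summable fun i => poissonWeight (q * lam) i * ∑' j, poissonWeight ((1 - q) * lam) j *
        A ((T ^ i) ((T' ^ j) Φ)) := by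
  have hg : ∀ i j : ℕ, |A ((T ^ i) ((T' ^ j) Φ))| ≤ |A Φ| + B * (i + j) := by
    intro i j
    have := hA.abs_sub_le (((h.pow i).mul (h'.pow j)).near Φ hΦ)
    have h2 := abs_sub_abs_le_abs_sub (A ((T ^ i) ((T' ^ j) Φ))) (A Φ)
    rw [Module.End.mul_apply] at this
    linarith
  obtain ⟨s1, s2⟩ := hasSum_thin₂ (mul_nonneg h0 hl) (mul_nonneg (sub_nonneg.2 h1) hl)
    (abs_nonneg _) hB hg
  refine ⟨(funext fun n => ?_ : _ = fun n =>
    poissonWeight lam n * A (((q • T + (1 - q) • T') ^ n) Φ)) ▸ s1, s2⟩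
  rw [((hc.smul_left q).smul_right (1 - q)).add_pow', LinearMap.sum_apply, map_sum, mul_sum]
  refine sum_congr rfl fun ij hij => ?_
  obtain ⟨i, j⟩ := ij
  have hn : i + j = n := mem_antidiagonal.1 hij
  subst hn
  rw [← mul_assoc, ← poi_choose]
  rw [← Nat.cast_smul_eq_nsmul ℝ]
  simp only [smul_pow, smul_mul_smul_comm, LinearMap.smul_apply, map_smul,
    Module.End.mul_apply, smul_eq_mul]
  ring

lemma exists_tail {lam B ε : ℝ} (h : 0 ≤ lam) (hε : 0 < ε) : ∀ᶠ K in Filter.atTop,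
    ∀ a : ℕ → ℝ, (∀ k, |a k| ≤ B + B * k) →
      |∑' k, poissonWeight lam k * a k - ∑ k ∈ range K, poissonWeight lam k * a k| ≤ ε := by
  filter_upwards [(tendsto_sum_nat_add fun k => poissonWeight lam k * (B + B * k)).eventually
    (ge_mem_nhds hε)] with K hK a ha
  have s0 : Summable fun k : ℕ => poissonWeight lam k * (B + B * k) :=
    summable_poi_lin h fun k => (abs_of_nonneg ((abs_nonneg _).trans (ha k))).le
  rw [← (summable_poi_lin h ha).sum_add_tsum_nat_add K, add_sub_cancel_left, ← Real.norm_eq_abs]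
  refine (tsum_of_norm_bounded ((summable_nat_add_iff K).2 s0).hasSum fun k => ?_).trans hK
  rw [Real.norm_eq_abs, abs_mul, abs_of_nonneg (poi_nonneg h _)]
  exact mul_le_mul_of_nonneg_left (ha _) (poi_nonneg h _)

end Crest.Agent.R141.Ass
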