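import Crest.Agent.R141.Ass2

/-! Row 141, lower bound: adding one site. -/

set_option autoImplicit false
open Finset Function
open scoped BigOperators
open Crest.ProbabilityR.Diluted

namespace Crest.Agent.R141.Ass
open Up

lemma lin_wl {A Ξ : Type*} [Fintype A] (Λ : (Ξ → ℝ) →ₗ[ℝ] ℝ) (w : A → ℝ) (F : A → Ξ → ℝ) :
    Λ (fun ξ => wl w fun a => F a ξ) = wl w fun a => Λ (F a) := by
  simp only [wl_apply, lin_sum, lin_mul]

lemma wl_pw_prod {C K : Type*} [Fintype C] [Fintype K] [DecidableEq K] (u : C → ℝ)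
    (f : K → C → ℝ) : wl (Up.pw u K) (fun x => ∏ k, f k (x k)) = ∏ k, wl u (f k) := by
  simp only [wl_apply, Up.pw, ← prod_mul_distrib, Fintype.prod_sum]

lemma wl_push {A A' K : Type*} [Fintype A] [Fintype A'] [Fintype K] [DecidableEq K] {w : A → ℝ}
    {w' : A' → ℝ} {φ : A' → A} (h : ∀ f, wl w f = wl w' fun z => f (φ z)) (F : (K → A) → ℝ) :
    wl (Up.pw w K) F = wl (Up.pw w' K) fun z => F fun k => φ (z k) := by
  classical
  have e : ∀ x : K → A, F x = ∑ a : K → A, F a * ∏ k, if x k = a k then 1 else 0 := by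
    intro x
    rw [Finset.sum_eq_single x]
    · simp
    · intro a _ ha
      obtain ⟨k, hk⟩ := Function.ne_iff.1 ha
      rw [Finset.prod_eq_zero (Finset.mem_univ k), mul_zero]
      simp [hk.symm]
    · simp
  rw [show F = fun x => _ from funext e]
  simp only [lin_sum, lin_mul]
  refine sum_congr rfl fun a _ => ?_
  rw [wl_pw_prod w fun k y => if y = a k then 1 else 0,
    wl_pw_prod w' fun k y => if φ y = a k then 1 else 0]
  simp only [h]

/-- Bernoulli weights -/
def bw (δ : ℝ) (b : Bool) : ℝ := if b then δ else 1 - δ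

/-- an index tuple hitting the new site at the slots in `c` -/
def mix {p N : ℕ} (c : Fin p → Bool) (j : Fin p → Fin N) (l : Fin p) : Fin (N + 1) :=
  if c l then Fin.last N else (j l).castSucc

lemma expect_mix {p N : ℕ} [NeZero N] (F : (Fin p → Fin (N + 1)) → ℝ) :
    𝔼 idx, F idx = wl (Up.pw (bw (1 / (N + 1))) (Fin p)) fun c => 𝔼 j, F (mix c j) := by
  rw [← wl_uw, ← pw_uw, wl_push (w' := fun q : Bool × Fin N => bw (1 / (N + 1)) q.1 * uw _ q.2)
    (φ := fun q => if q.1 then Fin.last N else q.2.castSucc), wl_prod]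
  · simp only [pw_uw, wl_uw]; rfl
  · intro f
    have : (N : ℝ) ≠ 0 := by exact_mod_cast NeZero.ne N
    simp only [wl_apply, Fintype.sum_prod_type, Fintype.sum_bool, bw, uw, Fin.sum_univ_castSucc,
      if_true, Bool.false_eq_true, if_false, Fintype.card_fin, sum_const, card_univ, nsmul_eq_mul,
      ← mul_sum]
    push_cast
    field_simp
    ring

lemma cube {p : ℕ} {δ a B : ℝ} (h0 : 0 ≤ δ) (h1 : δ ≤ 1) {ψ : (Fin p → Bool) → ℝ}
    (hψ : ∀ c, |ψ c - a| ≤ B) :
    (1 - p * δ) * ψ (fun _ => false) + δ * ∑ l, ψ (fun l' => decide (l' = l)) ≤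
      wl (Up.pw (bw δ) (Fin p)) ψ + 2 * p ^ 2 * δ ^ 2 * B := by
  have hb : ∀ b, 0 ≤ bw δ b := fun b => by cases b <;> simp [bw, h0, h1]
  have hP := pw_isP (K := Fin p) hb (by simp [bw])
  have hB : 0 ≤ B := (abs_nonneg _).trans (hψ fun _ => false)
  let e : Option (Fin p) → Fin p → Bool := fun o l' => decide (some l' = o)
  have he : Injective e := by
    intro o o' h
    cases o with
    | none =>
      cases o' with
      | none => rfl
      | some l => simpa [e] using congrFun h l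
    | some l => have := congrFun h l; simpa [e] using this
  have h2 : ∑ o, Up.pw (bw δ) (Fin p) (e o) * (ψ (e o) - a + B) ≤
      wl (Up.pw (bw δ) (Fin p)) fun c => ψ c - a + B := by
    rw [wl_apply, ← sum_image (f := fun c => Up.pw (bw δ) (Fin p) c * (ψ c - a + B))
      fun x _ y _ h => he h]
    exact sum_le_sum_of_subset_of_nonneg (subset_univ _) fun c _ _ =>
      mul_nonneg (prod_nonneg fun _ _ => hb _) (by linarith [abs_le.1 (hψ c)])
  rw [lin_add, lin_sub, hP.const, hP.const, Fintype.sum_option] at h2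
  have h3 : 1 - p * δ ≤ Up.pw (bw δ) (Fin p) (e none) := by
    have := one_add_mul_le_pow (a := -δ) (by linarith) p
    simpa [Up.pw, e, bw, sub_eq_add_neg] using this
  have h4 : ∀ l, δ * (1 - p * δ) ≤ Up.pw (bw δ) (Fin p) (e (some l)) := by
    intro l
    rw [Up.pw, ← mul_prod_erase _ _ (mem_univ l), prod_congr rfl (g := fun _ => 1 - δ)
      fun j hj => by simp [e, bw, ne_of_mem_erase hj]]
    simp only [e, decide_true, bw, if_true, prod_const]
    refine mul_le_mul_of_nonneg_left ?_ h0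
    have := one_add_mul_le_pow (a := -δ) (by linarith) p
    refine le_trans (by linarith) (this.trans ?_)
    exact pow_le_pow_of_le_one (by linarith) (by linarith) (by simp)
  have h5 := mul_le_mul_of_nonneg_right h3
    (show 0 ≤ ψ (e none) - a + B by linarith [abs_le.1 (hψ (e none))])
  have h6 := sum_le_sum (s := univ) fun l _ => show δ * (ψ (e (some l)) - a + B) -
      2 * p * δ ^ 2 * B ≤ Up.pw (bw δ) (Fin p) (e (some l)) * (ψ (e (some l)) - a + B) by
    have a1 := abs_le.1 (hψ (e (some l)))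
    have a2 := mul_le_mul_of_nonneg_right (h4 l) (show 0 ≤ ψ (e (some l)) - a + B by linarith)
    have a3 : 0 ≤ p * δ ^ 2 := by positivity
    nlinarith
  have e1 : e none = fun _ => false := by funext l; simp [e]
  have e2 : ∀ l, e (some l) = fun l' => decide (l' = l) := by intro l; funext l'; simp [e]
  simp only [e1, e2, sum_sub_distrib, sum_add_distrib, ← mul_sum, sum_const, card_univ,
    Fintype.card_fin, nsmul_eq_mul] at h2 h5 h6
  nlinarith

variable {p : ℕ} (μ : FLaw (Inter p)) (ν : FLaw ℝ)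

/-- weights of a clause -/
noncomputable def wc (N : ℕ) (q : μ.Θ × (Fin p → Fin N)) : ℝ := μ.w q.1 * uw _ q.2

lemma wl_wc {N : ℕ} (F : μ.Θ × (Fin p → Fin N) → ℝ) :
    wl (wc μ N) F = wl μ.w fun x => 𝔼 j, F (x, j) := by
  simp only [← wl_uw, wl_apply, Fintype.sum_prod_type, wc, mul_sum, mul_assoc]

lemma wl_pw_wc {N : ℕ} {K : Type} [Fintype K] [DecidableEq K]
    (F : (K → μ.Θ × (Fin p → Fin N)) → ℝ) :
    wl (Up.pw (wc μ N) K) F = wl (Up.pw μ.w K) fun a => 𝔼 j : K → Fin p → Fin N,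
      F fun k => (a k, j k) := by
  refine (wl_prod (w := μ.w) (uw (Fin p → Fin N)) F).trans ?_
  simp only [pw_uw, wl_uw]

lemma wc_isP (N : ℕ) [NeZero N] : IsP (wl (wc μ N)) :=
  ⟨fun f hf => sum_nonneg fun b _ => mul_nonneg (mul_nonneg (μ.w0 _) (uw_nonneg _)) (hf b), by
    rw [wl_wc]; simp [wl_apply, μ.w1]⟩

/-- adding a clause -/
noncomputable def Tc (N : ℕ) : Module.End ℝ (En N → ℝ) :=
  conv (wc μ N) fun q σ => μ.val q.1 fun l => σ (q.2 l)

/-- adding a clause that hits the new site at the slots in `c` -/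
noncomputable def Tm (N : ℕ) (c : Fin p → Bool) : Module.End ℝ (En (N + 1) → ℝ) :=
  conv (wc μ N) fun q σ => μ.val q.1 fun l => σ (mix c q.2 l)

/-- averaging over the fields -/
noncomputable def AA (N : ℕ) : (En N → ℝ) →ₗ[ℝ] ℝ :=
  wl (Up.pw ν.w (Fin N)) ∘ₗ LinearMap.funLeft ℝ ℝ
    fun (b : Fin N → ν.Θ) (σ : Fin N → Bool) => ∑ i, ν.val (b i) * spinVal (σ i)

lemma AA_apply (N : ℕ) (Ψ : En N → ℝ) : AA ν N Ψ =
    wl (Up.pw ν.w (Fin N)) fun b => Ψ fun σ => ∑ i, ν.val (b i) * spinVal (σ i) := rfl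

lemma AA_isP (N : ℕ) : IsP (AA ν N) :=
  ⟨fun _ hf => (pw_isP ν.w0 ν.w1).nonneg _ fun _ => hf _, (pw_isP ν.w0 ν.w1).one⟩

lemma Tc_succ (N : ℕ) [NeZero N] (Ψ : En (N + 1) → ℝ) (G : En (N + 1)) :
    Tc μ (N + 1) Ψ G = wl (Up.pw (bw (1 / (N + 1))) (Fin p)) fun c => Tm μ N c Ψ G := by
  simp only [Tc, Tm, conv_apply, wl_wc, expect_mix]
  rw [wl_comm]

lemma Tm_symm (hs : ∀ (π : Equiv.Perm (Fin p)) (g : Inter p → ℝ),
      μ.ex (fun θ => g fun s => θ (s ∘ π)) = μ.ex g) (N : ℕ) [NeZero N] (l l' : Fin p)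
    (Ψ : En (N + 1) → ℝ) (G : En (N + 1)) :
    Tm μ N (fun j => decide (j = l)) Ψ G = Tm μ N (fun j => decide (j = l')) Ψ G := by
  simp only [Tm, conv_apply, wl_wc]
  refine Eq.trans ?_ (hs (Equiv.swap l l') fun θ =>
    𝔼 j : Fin p → Fin N, Ψ (G + fun σ => θ fun i => σ (mix (fun j => decide (j = l')) j i)))
  rw [wl_apply, FLaw.ex]
  refine sum_congr rfl fun x _ => ?_
  congr 1
  rw [← expect_comp (e := Equiv.swap l l') (Equiv.injective _)]
  refine expect_congr rfl fun j _ => congrArg Ψ (congrArg (G + ·) (funext fun σ => ?_))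
  refine congrArg (μ.val x) (funext fun i => ?_)
  simp [mix, Equiv.swap_apply_eq_iff]

/-- an energy of `N` spins seen in the system of `N + 1` spins -/
def lift {N : ℕ} (G : En N) : En (N + 1) := fun σ => G fun i => σ i.castSucc

lemma Tm_pow (N i : ℕ) (Ψ : En (N + 1) → ℝ) (G : En N) (D : En (N + 1)) :
    (Tm μ N (fun _ => false) ^ i) Ψ (lift G + D) =
      (Tc μ N ^ i) (fun G' => Ψ (lift G' + D)) G := by
  simp only [Tm, Tc, conv_pow]
  congr 1; funext a; congr 1; funext σ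
  simp only [lift, mix, Pi.add_apply, Finset.sum_apply, Bool.false_eq_true, if_false]
  ring

lemma AA_succ (N : ℕ) (Ψ : En (N + 1) → ℝ) : AA ν (N + 1) Ψ =
    wl ν.w fun y => AA ν N fun G => Ψ (lift G + fun σ => ν.val y * spinVal (σ (Fin.last N))) := by
  simp only [AA_apply, wl_snoc]
  congr 1; funext y; congr 1; funext b; congr 1; funext σ
  simp [lift, Fin.sum_univ_castSucc]

lemma expect_uncurry {K Y : Type*} [Fintype K] [DecidableEq K] [Fintype Y] [Nonempty Y] {n : ℕ}
    (F : (K × Fin n → Y) → ℝ) :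
    𝔼 j : K → Fin (n + 1) → Y, F (fun q => j q.1 q.2.castSucc) = 𝔼 i, F i := by
  rw [← expect_comp (K := K × Fin (n + 1)) (e := fun q : K × Fin n => (q.1, q.2.castSucc))
    (fun q q' h => by
      simp only [Prod.mk.injEq, Fin.castSucc_inj] at h
      exact Prod.ext h.1 h.2)]
  exact Fintype.expect_equiv (Equiv.curry _ _ _).symm _ _ fun ι => rfl

/-- the increment due to a new site with `k` clauses -/
noncomputable def site {N : ℕ} (Φ : En N → ℝ) (k : ℕ) (G : En N) : ℝ :=
  wl (Up.pw μ.w (Fin k)) fun a => wl ν.w fun y => 𝔼 idx : Fin k × Fin (p - 1) → Fin N,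
    (Φ (fun σ => G σ + siteV (ν.val y) (fun j => μ.val (a j)) fun q => σ (idx q)) - Φ G)

/-- the increment due to `k` new clauses -/
noncomputable def edge {N : ℕ} (Φ : En N → ℝ) (k : ℕ) (G : En N) : ℝ :=
  wl (Up.pw μ.w (Fin k)) fun a => 𝔼 idx : Fin k × Fin p → Fin N,
    (Φ (fun σ => G σ + ∑ j, μ.val (a j) fun l => σ (idx (j, l))) - Φ G)

lemma Tc_pow {N : ℕ} [NeZero N] (Φ : En N → ℝ) (k : ℕ) (G : En N) :
    (Tc μ N ^ k) Φ G = Φ G + edge μ Φ k G := by
  simp only [Tc, conv_pow, wl_pw_wc, edge, expect_sub_distrib, Fintype.expect_const, lin_sub,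
    (pw_isP μ.w0 μ.w1).const, add_sub_cancel]
  congr 1; funext a
  refine Fintype.expect_equiv (Equiv.curry _ _ _).symm _ _ fun j => ?_
  congr 1; funext σ
  simp

lemma T1_pow {n : ℕ} (μ : FLaw (Crest.ProbabilityR.Diluted.Inter (n + 1))) {N : ℕ} [NeZero N]
    {Φ : En N → ℝ} {Φ' : En (N + 1) → ℝ} {ε : ℝ}
    (hc : ∀ G : En (N + 1),
      Φ (fun σ => Real.log (𝔼 e : Bool, Real.exp (G (Fin.snoc σ e)))) - ε ≤ Φ' G) (k : ℕ)
    (G : En N) : Φ G + site μ ν Φ k G - ε ≤ wl ν.w fun y =>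
      (Tm μ N (fun j => decide (j = Fin.last n)) ^ k) Φ'
        (lift G + fun σ => ν.val y * spinVal (σ (Fin.last N))) := by
  have h1 := pw_isP (K := Fin k) μ.w0 μ.w1
  have h2 := wl_isP ν.w0 ν.w1
  simp only [Tm, conv_pow, wl_pw_wc, site, expect_sub_distrib, Fintype.expect_const, lin_sub,
    h1.const, h2.const, add_sub_cancel]
  rw [wl_comm, ← h2.const ε, ← lin_sub]
  refine h2.mono fun y => ?_
  rw [← h1.const ε, ← lin_sub]
  refine h1.mono fun a => ?_
  erw [← expect_uncurry (n := n)]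
  rw [← Fintype.expect_const (ι := Fin k → Fin (n + 1) → Fin N) ε, ← expect_sub_distrib]
  refine expect_le_expect fun j _ => le_trans (le_of_eq ?_) (hc _)
  congr 2
  funext σ
  simp only [lift, Pi.add_apply, Finset.sum_apply, Fin.snoc_castSucc, Fin.snoc_last, add_assoc,
    Real.exp_add (G σ), ← mul_expect]
  rw [Real.log_mul (Real.exp_pos _).ne' (expect_exp_pos _).ne', Real.log_exp, siteV,
    Fintype.expect_eq_sum_div_card, Fintype.card_bool, one_div, div_eq_inv_mul]
  congr 3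
  refine sum_congr rfl fun e _ => ?_
  congr 2
  refine sum_congr rfl fun i _ => congrArg (μ.val (a i)) (funext fun l => ?_)
  refine Fin.lastCases ?_ (fun l => ?_) l
  · simp [mix]
  · simp [mix]

lemma TV_sum (T : Trial) {k : ℕ} (θ : Fin k → Inter p) :
    TV T (Fin k × Fin p) (fun s => ∑ j, θ j fun l => s (j, l)) = ∑ j, TV T (Fin p) (θ j) := by
  have hπ : Indep fun (j : Fin k) (s : Fin k × Fin p → T.S) (l : Fin p) => s (j, l) := by
    intro g
    rw [← indep_pi (T := fun _ : Fin k => Fin p → T.S) g]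
    exact Fintype.expect_equiv (Equiv.curry _ _ _) _ _ fun _ => rfl
  have e : ∀ ι : Fin k × Fin p → T.I, tv T (fun s => ∑ j, θ j fun l => s (j, l)) ι =
      ∑ j, tv T (θ j) fun l => ι (j, l) := by
    intro ι
    simp only [tv, Psi, X_labels, sum_sub_distrib, Fintype.sum_prod_type, ← sum_add_distrib]
    congr 1
    · exact X_pi T.P hπ (fun j (x : Path (Fin p → T.S)) => (∑ l, T.H (ι (j, l)) fun t => x t l) +
        θ j fun l => T.s (ι (j, l)) (x T.P.r l)) T.a fun t _ => T.ω₀ t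
    · have := X_labels T ι
      simpa only [Fintype.sum_prod_type] using this
  simp only [TV_eq, e, expect_sum_comm]
  exact sum_congr rfl fun j _ => expect_comp (e := fun l => (j, l)) (Prod.mk_right_injective j) _

end Crest.Agent.R141.Ass
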