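import Crest.Agent.R141.Ass3

/-! Row 141, lower bound: the cavity argument. -/

set_option autoImplicit false
open Finset Function
open scoped BigOperators
open Crest.ProbabilityR.Diluted

namespace Crest.Agent.R141.Ass
open Up

lemma Op.isP {Z : Type} {A : ((Z → ℝ) → ℝ) →ₗ[ℝ] ℝ} (hA : IsP A) {B : ℝ}
    {T : Module.End ℝ ((Z → ℝ) → ℝ)} (h : Op B T) : IsP (A ∘ₗ T) := by
  refine ⟨fun f hf => hA.nonneg _ fun G => ?_, ?_⟩
  · simpa using h.mono 0 f 0 (by simpa using hf) G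
  · have : T (fun _ => 1) = fun _ => 1 := funext fun G => by
      have h1 := h.mono (fun _ => 1) 0 1 (by simp) G
      have h2 := h.mono 0 (fun _ => 1) (-1) (by simp) G
      simp only [map_zero, Pi.zero_apply] at h1 h2
      linarith
    rw [LinearMap.comp_apply, this, hA.one]

variable {p : ℕ} {μ : FLaw (Inter p)} {ν : FLaw ℝ} {B : ℝ}

lemma siteV_bd (hμ : ∀ x s, |μ.val x s| ≤ B) (hν : ∀ x, |ν.val x| ≤ B) {k : ℕ} (a : Fin k → μ.Θ)
    (y : ν.Θ) (s : Fin k × Fin (p - 1) → Bool) :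
    |siteV (ν.val y) (fun j => μ.val (a j)) s| ≤ B + B * k := by
  refine (siteV_abs (c := fun _ => B) (fun j s => hμ _ _) s).trans ?_
  have := hν y
  simp only [Finset.sum_const, Finset.card_univ, Fintype.card_fin, nsmul_eq_mul]
  linarith

lemma edgeV_bd (hμ : ∀ x s, |μ.val x s| ≤ B) (hB : 0 ≤ B) {k : ℕ} (a : Fin k → μ.Θ)
    (s : Fin k → Fin p → Bool) : |∑ j, μ.val (a j) (s j)| ≤ B + B * k := by
  refine (abs_sum_le_sum_abs _ _).trans ((sum_le_card_nsmul _ _ B fun j _ => hμ _ _).trans ?_)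
  simp only [Finset.card_univ, Fintype.card_fin, nsmul_eq_mul]
  linarith

lemma site_bd (hμ : ∀ x s, |μ.val x s| ≤ B) (hν : ∀ x, |ν.val x| ≤ B) {N : ℕ} [NeZero N]
    {Φ : En N → ℝ} (hΦ : Lip Φ) (k : ℕ) (G : En N) : |site μ ν Φ k G| ≤ B + B * k :=
  (pw_isP μ.w0 μ.w1).abs_le_of fun a => (wl_isP ν.w0 ν.w1).abs_le_of fun y =>
    (avg_isP _).abs_le_of fun _ => hΦ.abs_sub fun σ => by simpa using siteV_bd hμ hν a y _

lemma edge_bd (hμ : ∀ x s, |μ.val x s| ≤ B) (hB : 0 ≤ B) {N : ℕ} [NeZero N]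
    {Φ : En N → ℝ} (hΦ : Lip Φ) (k : ℕ) (G : En N) : |edge μ Φ k G| ≤ B + B * k :=
  (pw_isP μ.w0 μ.w1).abs_le_of fun a =>
    (avg_isP _).abs_le_of fun _ => hΦ.abs_sub fun σ => by simpa using edgeV_bd hμ hB a _

lemma sum_poi_le {lam : ℝ} (h : 0 ≤ lam) (K : ℕ) : ∑ k ∈ range K, poissonWeight lam k ≤ 1 :=
  sum_le_hasSum _ (fun k _ => poi_nonneg h k) (hasSum_poi lam)

/-- truncation property -/
def Tail (lam B ε : ℝ) (K : ℕ) : Prop := ∀ a : ℕ → ℝ, (∀ k, |a k| ≤ B + B * k) →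
  |∑' k, poissonWeight lam k * a k - ∑ k ∈ range K, poissonWeight lam k * a k| ≤ ε

lemma core (hp : 1 ≤ p) {α c ε : ℝ} (hα : 0 < α) (hε : 0 < ε) (hμ : ∀ x s, |μ.val x s| ≤ B)
    (hν : ∀ x, |ν.val x| ≤ B) (hB : 0 ≤ B) (hc : ∀ T : Trial, T.Adm → c ≤ finTrial p α μ ν T)
    {K N₀ : ℕ} (t1 : Tail (α * p) B ε K) (t2 : Tail (α * (p - 1)) B ε K) {Φ : ∀ N, En N → ℝ}
    (hΦ : Pert (K * p) (B + B * K) ε N₀ Φ) {N : ℕ} (hN : N₀ ≤ N) (hN0 : 0 < N) (G : En N) :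
    c - Real.log 2 - 6 * ε ≤ ∑ k ∈ range K, poissonWeight (α * p) k * site μ ν (Φ N) k G -
      ∑ k ∈ range K, poissonWeight (α * (p - 1)) k * edge μ (Φ N) k G := by
  obtain ⟨Ξ, Λ, T, hΛ, hT, hd⟩ := hΦ.dec N hN hN0 G
  have hp' : (1 : ℝ) ≤ p := by exact_mod_cast hp
  have l1 : 0 ≤ α * p := by positivity
  have l2 : 0 ≤ α * (p - 1) := mul_nonneg hα.le (by linarith)
  have hBk : ∀ k ∈ range K, B + B * k ≤ B + B * K := fun k hk => by
    have : (k : ℝ) ≤ K := by exact_mod_cast (mem_range.1 hk).le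
    nlinarith
  have h1 : ∀ k ∈ range K, Λ (fun ξ => SS (T ξ) μ ν k) - 2 * ε ≤ site μ ν (Φ N) k G := by
    intro k hk
    have : |site μ ν (Φ N) k G - Λ fun ξ => SS (T ξ) μ ν k| ≤ 2 * ε := by
      erw [lin_wl]
      refine (pw_isP μ.w0 μ.w1).abs_sub_le fun a => ?_
      erw [lin_wl]
      refine (wl_isP ν.w0 ν.w1).abs_sub_le fun y => hd _ ?_ _
        fun s => (siteV_bd hμ hν a y s).trans (hBk k hk)
      simp only [Fintype.card_prod, Fintype.card_fin]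
      exact Nat.mul_le_mul (mem_range.1 hk).le (Nat.sub_le _ _)
    linarith [abs_le.1 this]
  have h2 : ∀ k ∈ range K, edge μ (Φ N) k G ≤
      Λ (fun ξ => k * μ.ex fun θ => TV (T ξ) (Fin p) θ) + 2 * ε := by
    intro k hk
    have e : ∀ ξ, (k * μ.ex fun θ => TV (T ξ) (Fin p) θ) = wl (Up.pw μ.w (Fin k)) fun a =>
        TV (T ξ) (Fin k × Fin p) fun s => ∑ j, μ.val (a j) fun l => s (j, l) := by
      intro ξ
      simp only [TV_sum, lin_sum, wl_eval μ.w1 _ fun x => TV (T ξ) (Fin p) (μ.val x), sum_const,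
        card_univ, Fintype.card_fin, nsmul_eq_mul]
      rfl
    have : |edge μ (Φ N) k G - Λ fun ξ => k * μ.ex fun θ => TV (T ξ) (Fin p) θ| ≤ 2 * ε := by
      simp only [e, lin_wl]
      refine (pw_isP μ.w0 μ.w1).abs_sub_le fun a => hd (Fin k × Fin p) ?_
        (fun s => ∑ j, μ.val (a j) fun l => s (j, l))
        fun s => (edgeV_bd hμ hB a _).trans (hBk k hk)
      simp only [Fintype.card_prod, Fintype.card_fin]
      exact Nat.mul_le_mul (mem_range.1 hk).le le_rfl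
    linarith [abs_le.1 this]
  have h3 : ∀ ξ, c - Real.log 2 - 2 * ε ≤
      ∑ k ∈ range K, poissonWeight (α * p) k * SS (T ξ) μ ν k -
      ∑ k ∈ range K, poissonWeight (α * (p - 1)) k * (k * μ.ex fun θ => TV (T ξ) (Fin p) θ) := by
    intro ξ
    have a1 := abs_le.1 (t1 (SS (T ξ) μ ν) fun k => μ.exPi_abs fun a => ν.ex_abs fun y =>
      TV_abs _ (siteV_bd hμ hν a y))
    have a0 : |μ.ex fun θ => TV (T ξ) (Fin p) θ| ≤ B := μ.ex_abs fun x => TV_abs _ (hμ x)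
    have a2 := abs_le.1 (t2 (fun k => k * μ.ex fun θ => TV (T ξ) (Fin p) θ) fun k => by
      rw [abs_mul, Nat.abs_cast]
      have := mul_le_mul_of_nonneg_left a0 (Nat.cast_nonneg (α := ℝ) k)
      linarith)
    have a3 := ((hasSum_poi_mul (α * (p - 1))).mul_right
      (μ.ex fun θ => TV (T ξ) (Fin p) θ)).tsum_eq
    simp only [mul_assoc] at a2 a3 ⊢
    rw [a3] at a2
    have a4 : c ≤ Real.log 2 + ∑' k, poissonWeight (α * p) k * SS (T ξ) μ ν k -
      α * (p - 1) * μ.ex fun θ => TV (T ξ) (Fin p) θ := hc _ (hT ξ)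
    linarith
  have h4 := hΛ.ge h3
  simp only [lin_sub, lin_sum, lin_mul Λ (poissonWeight _ _)] at h4
  have h5 := sum_le_sum fun k hk => mul_le_mul_of_nonneg_left (h1 k hk) (poi_nonneg l1 k)
  have h6 := sum_le_sum fun k hk => mul_le_mul_of_nonneg_left (h2 k hk) (poi_nonneg l2 k)
  simp only [mul_sub, mul_add, sum_sub_distrib, sum_add_distrib, ← sum_mul] at h5 h6
  have h7 := mul_le_mul_of_nonneg_right (sum_poi_le l1 K) (show 0 ≤ 2 * ε by linarith)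
  have h8 := mul_le_mul_of_nonneg_right (sum_poi_le l2 K) (show 0 ≤ 2 * ε by linarith)
  simp only [mul_sub] at h4 h8 ⊢
  linarith

/-- the averaged perturbed free energy -/
noncomputable def ff (α : ℝ) (μ : FLaw (Inter p)) (ν : FLaw ℝ) (Φ : ∀ N, En N → ℝ) (N : ℕ) : ℝ :=
  ∑' M, poissonWeight (α * N) M * AA ν N ((Tc μ N ^ M) (Φ N))

lemma summable_op {Z : Type} {A : ((Z → ℝ) → ℝ) →ₗ[ℝ] ℝ} (hA : IsP A) {lam : ℝ} (hl : 0 ≤ lam)
    {T : Module.End ℝ ((Z → ℝ) → ℝ)} (h : Op B T) {Φ : (Z → ℝ) → ℝ} (hΦ : Lip Φ) :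
    Summable fun M => poissonWeight lam M * A ((T ^ M) Φ) :=
  summable_poi_lin (C := |A Φ|) (D := B) hl fun M => by
    have h1 := hA.abs_sub_le ((h.pow M).near Φ hΦ)
    have h2 := abs_sub_abs_le_abs_sub (A ((T ^ M) Φ)) (A Φ)
    linarith

lemma Tc_op (hμ : ∀ x s, |μ.val x s| ≤ B) (N : ℕ) [NeZero N] : Op B (Tc μ N) :=
  conv_op (wc_isP μ N) fun _ _ => hμ _ _

lemma Tm_op (hμ : ∀ x s, |μ.val x s| ≤ B) (N : ℕ) [NeZero N] (c : Fin p → Bool) :
    Op B (Tm μ N c) :=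
  conv_op (wc_isP μ N) fun _ _ => hμ _ _

lemma step {n : ℕ} {μ : FLaw (Crest.ProbabilityR.Diluted.Inter (n + 1))} {α c ε : ℝ} (hα : 0 < α)
    (hε : 0 < ε) (hμ : ∀ x s, |μ.val x s| ≤ B) (hν : ∀ x, |ν.val x| ≤ B) (hB : 0 ≤ B)
    (hs : ∀ (π : Equiv.Perm (Fin (n + 1))) (g : Crest.ProbabilityR.Diluted.Inter (n + 1) → ℝ),
      μ.ex (fun θ => g fun s => θ (s ∘ π)) = μ.ex g)
    (hc : ∀ T : Trial, T.Adm → c ≤ finTrial (n + 1) α μ ν T)
    {K N₀ : ℕ} (t1 : Tail (α * (n + 1 : ℕ)) B ε K) (t2 : Tail (α * ((n + 1 : ℕ) - 1)) B ε K)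
    {Φ : ∀ N, En N → ℝ} (hΦ : Pert (K * (n + 1)) (B + B * K) ε N₀ Φ) {N : ℕ} (hN : N₀ ≤ N)
    (hn : n < N) : ff α μ ν Φ N + (c - Real.log 2 - 9 * ε) ≤
      ff α μ ν Φ (N + 1) + α * (2 * (n + 1) ^ 2 * B) / (N + 1) := by
  haveI : NeZero N := ⟨by omega⟩
  have hN1 : (n : ℝ) + 1 ≤ N := by exact_mod_cast hn
  have hn0 : (0 : ℝ) ≤ n := Nat.cast_nonneg n
  set δ : ℝ := 1 / (N + 1) with hδ
  have hδ0 : 0 ≤ δ := by positivity
  have hpδ : (n + 1) * δ ≤ 1 := by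
    rw [hδ, mul_one_div, div_le_one (by linarith)]; linarith
  set T0 := Tm μ N fun _ => false
  set T1 := Tm μ N fun j => decide (j = Fin.last n)
  have o0 : Op B T0 := Tm_op hμ N _
  have o1 : Op B T1 := Tm_op hμ N _
  have oc := Tc_op hμ N
  have q0 : 0 ≤ 1 - (n + 1) * δ := by linarith
  have q1 : 1 - (n + 1) * δ ≤ 1 := by nlinarith
  have l0 : 0 ≤ α * (N - n) := mul_nonneg hα.le (by linarith)
  have l1 : 0 ≤ α * (n + 1 : ℕ) := by positivity
  have l2 : 0 ≤ α * ((n + 1 : ℕ) - 1) := mul_nonneg hα.le (by simp)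
  obtain ⟨s1, s2⟩ := thin_op (AA_isP ν (N + 1)) (lam := α * (N + 1 : ℕ)) hB (by positivity) q0 q1
    o0 o1 (conv_comm _ _ _ _) (hΦ.lip (N + 1))
  have r0 : 0 ≤ ((N : ℝ) - n) / N := div_nonneg (by linarith) (by linarith)
  have r1 : ((N : ℝ) - n) / N ≤ 1 := by rw [div_le_one (by linarith)]; linarith
  obtain ⟨s3, s4⟩ := thin_op (AA_isP ν N) (lam := α * N) hB (by positivity) r0 r1
    oc oc (Commute.refl _) (hΦ.lip N)
  have hN0 : (N : ℝ) ≠ 0 := by linarith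
  rw [show (1 - (n + 1) * δ) * (α * (N + 1 : ℕ)) = α * (N - n) by
      rw [hδ]; push_cast; field_simp; ring,
    show (1 - (1 - (n + 1) * δ)) * (α * (N + 1 : ℕ)) = α * (n + 1 : ℕ) by
      rw [hδ]; push_cast; field_simp; ring] at s1 s2
  rw [show ((N : ℝ) - n) / N * (α * N) = α * (N - n) by field_simp,
    show (1 - ((N : ℝ) - n) / N) * (α * N) = α * ((n + 1 : ℕ) - 1) by
      push_cast; field_simp; ring] at s3 s4
  rw [← add_smul, add_sub_cancel, one_smul] at s3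
  have hη : ∀ Ψ, Lip Ψ → ∀ G, ((1 - (n + 1) * δ) • T0 + (1 - (1 - (n + 1) * δ)) • T1) Ψ G ≤
      Tc μ (N + 1) Ψ G + 2 * (n + 1) ^ 2 * δ ^ 2 * B := by
    intro Ψ hΨ G
    have h1 := cube (p := n + 1) hδ0 (by nlinarith) (ψ := fun c => Tm μ N c Ψ G)
      fun c => (Tm_op hμ N c).near Ψ hΨ G
    simp only [Tm_symm μ hs N _ (Fin.last n), sum_const, card_univ, Fintype.card_fin,
      nsmul_eq_mul] at h1
    rw [Tc_succ]
    simp only [LinearMap.add_apply, LinearMap.smul_apply, Pi.add_apply, Pi.smul_apply, smul_eq_mul]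
    push_cast at h1
    linarith
  have h1 := hasSum_le (fun M => ?_) s1
    ((summable_op (AA_isP ν (N + 1)) (lam := α * (N + 1 : ℕ)) (by positivity) (Tc_op hμ (N + 1))
      (hΦ.lip (N + 1))).hasSum.add 
      ((hasSum_poi_mul (α * (N + 1 : ℕ))).mul_right (2 * (n + 1) ^ 2 * δ ^ 2 * B)))
  swap
  · have := (AA_isP ν (N + 1)).mono ((Tc_op hμ (N + 1)).pow_ge (o0.mix o1 q0 q1) hη
      (hΦ.lip (N + 1)) M)
    rw [lin_add, (AA_isP ν (N + 1)).const] at this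
    have h2 := mul_le_mul_of_nonneg_left this
      (poi_nonneg (lam := α * (N + 1 : ℕ)) (by positivity) M)
    show _ ≤ _ + _
    linarith
  have h2 := hasSum_le (fun i => ?_)
    (s4.hasSum.add ((hasSum_poi (α * (N - n))).mul_right (c - Real.log 2 - 9 * ε))) s2.hasSum
  · rw [← s3.tsum_eq] at h2
    have e : α * (N + 1 : ℕ) * (2 * (n + 1) ^ 2 * δ ^ 2 * B) =
        α * (2 * (n + 1) ^ 2 * B) / (N + 1) := by
      rw [hδ]; push_cast; field_simp
    rw [e] at h1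
    rw [ff, ff]
    linarith
  · show _ + _ ≤ _
    rw [← mul_add]
    refine mul_le_mul_of_nonneg_left ?_ (poi_nonneg l0 i)
    set Λ := AA ν N ∘ₗ (Tc μ N ^ i)
    have hΛ : IsP Λ := Op.isP (AA_isP ν N) (oc.pow i)
    have b1 : ∀ k, |Λ (site μ ν (Φ N) k)| ≤ B + B * k := fun k =>
      hΛ.abs_le_of (site_bd hμ hν (hΦ.lip N) k)
    have b2 : ∀ k, |Λ (edge μ (Φ N) k)| ≤ B + B * k := fun k =>
      hΛ.abs_le_of (edge_bd hμ hB (hΦ.lip N) k)
    have e1 : ∀ k, AA ν N ((Tc μ N ^ i) ((Tc μ N ^ k) (Φ N))) =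
        Λ (Φ N) + Λ (edge μ (Φ N) k) := by
      intro k
      rw [← lin_add, ← funext (Tc_pow μ (Φ N) k)]
      rfl
    have e2 : ∀ k, Λ (Φ N) - ε + Λ (site μ ν (Φ N) k) ≤
        AA ν (N + 1) ((T0 ^ i) ((T1 ^ k) (Φ (N + 1)))) := by
      intro k
      have := hΛ.mono (T1_pow ν μ (hΦ.cav N) k)
      rw [lin_sub, lin_add, hΛ.const, lin_wl] at this
      rw [AA_succ]
      simp only [T0, Tm_pow]
      exact le_trans (le_of_eq (by ring)) this
    have a0 := ((hasSum_poi (α * (n + 1 : ℕ))).mul_right (Λ (Φ N) - ε)).add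
        (summable_poi_lin l1 b1).hasSum
    simp only [← mul_add] at a0
    have a1 := hasSum_le (fun k => mul_le_mul_of_nonneg_left (e2 k) (poi_nonneg l1 k)) a0
      (summable_op (Op.isP (AA_isP ν (N + 1)) (o0.pow i)) l1 o1 (hΦ.lip (N + 1))).hasSum
    have a2 := (((hasSum_poi (α * ((n + 1 : ℕ) - 1))).mul_right (Λ (Φ N))).add
        (summable_poi_lin l2 b2).hasSum).tsum_eq
    simp only [← mul_add, ← e1] at a2
    have a3 := abs_le.1 (t1 _ b1)
    have a4 := abs_le.1 (t2 _ b2)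
    have a5 := hΛ.ge (core (Nat.succ_pos n) hα hε hμ hν hB hc t1 t2 hΦ hN (by omega))
    simp only [lin_sub, lin_sum, lin_mul] at a5
    rw [a2]
    refine le_trans ?_ a1
    linarith

lemma ff_le {α ε : ℝ} (hα : 0 < α) (hμ : ∀ x s, |μ.val x s| ≤ B) {L₀ N₀ : ℕ} {B' : ℝ}
    {Φ : ∀ N, En N → ℝ} (hΦ : Pert L₀ B' ε N₀ Φ) (N : ℕ) [NeZero N] :
    ff α μ ν Φ N ≤ N * finPressure p α μ ν N - N * Real.log 2 + ε * N := by
  have hN : (0 : ℝ) < N := by exact_mod_cast Nat.pos_of_neZero N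
  let L : En N → ℝ := fun G => Real.log (∑ σ, Real.exp (G σ))
  have hpos : ∀ G : En N, 0 < ∑ σ, Real.exp (G σ) := fun G =>
    sum_pos (fun _ _ => Real.exp_pos _) univ_nonempty
  have hL : Lip L := by
    intro G G' c h
    have := Real.log_le_log (hpos G) (sum_le_sum fun σ _ => Real.exp_le_exp.2 (h σ))
    simp only [Real.exp_add, ← sum_mul] at this
    rwa [Real.log_mul (hpos _).ne' (Real.exp_pos _).ne', Real.log_exp] at this
  have h1 : ∀ G, Φ N G ≤ L G + (ε * N - N * Real.log 2) := by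
    intro G
    have := hΦ.up N G
    rw [Fintype.expect_eq_sum_div_card, Real.log_div (hpos G).ne' (by positivity)] at this
    simp only [Fintype.card_pi, Fintype.card_bool, prod_const, card_univ, Fintype.card_fin,
      Nat.cast_pow, Nat.cast_ofNat, Real.log_pow] at this
    linarith
  have e : ∀ M, AA ν N ((Tc μ N ^ M) L) = FF μ ν N M := by
    intro M
    simp only [AA_apply, Tc, conv_pow, wl_pw_wc]
    rw [wl_comm]
    simp only [L, Pi.add_apply, Finset.sum_apply, add_comm (∑ i, ν.val _ * spinVal _)]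
    rfl
  have oc := Tc_op hμ N
  have hl : 0 ≤ α * N := by positivity
  have h2 := hasSum_le (fun M => ?_) (summable_op (AA_isP ν N) hl oc (hΦ.lip N)).hasSum
    ((summable_op (AA_isP ν N) hl oc hL).hasSum.add
      ((hasSum_poi (α * N)).mul_right (ε * N - N * Real.log 2)))
  · simp only [e] at h2
    have e1 : finPressure p α μ ν N = 1 / N * ∑' a, poissonWeight (α * N) a * FF μ ν N a := rfl
    rw [e1, ← mul_assoc, mul_one_div_cancel hN.ne', ff]
    linarith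
  · have := (AA_isP ν N).mono ((oc.pow M).mono _ _ _ h1)
    rw [lin_add, (AA_isP ν N).const] at this
    have h3 := mul_le_mul_of_nonneg_left this (poi_nonneg hl M)
    show _ ≤ _ + _
    linarith

end Crest.Agent.R141.Ass

namespace Crest.Agent.R141
open Ass Filter

theorem finLower_of (hD : DecoupleStmt) : FinLowerStmt := by
  intro p hp α hα μ ν hs c hc ε hε
  obtain ⟨n, rfl⟩ : ∃ n, p = n + 1 := ⟨p - 1, by omega⟩
  obtain ⟨B₁, hB₁⟩ : ∃ B, ∀ q : μ.Θ × (Fin (n + 1) → Bool), |μ.val q.1 q.2| ≤ B :=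
    (Set.finite_range fun q : μ.Θ × (Fin (n + 1) → Bool) => |μ.val q.1 q.2|).bddAbove.imp
      fun _ h q => h ⟨q, rfl⟩
  obtain ⟨B₂, hB₂⟩ : ∃ B, ∀ x, |ν.val x| ≤ B :=
    (Set.finite_range fun x => |ν.val x|).bddAbove.imp fun _ h q => h ⟨q, rfl⟩
  set B := max (max B₁ B₂) 0
  have hB : 0 ≤ B := le_max_right _ _
  have hμ : ∀ x s, |μ.val x s| ≤ B := fun x s =>
    (hB₁ (x, s)).trans ((le_max_left _ _).trans (le_max_left _ _))
  have hν : ∀ x, |ν.val x| ≤ B := fun x =>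
    (hB₂ x).trans ((le_max_right _ _).trans (le_max_left _ _))
  have hη : 0 < ε / 12 := by positivity
  set η := ε / 12 with hηdef
  obtain ⟨K, t1, t2⟩ := ((exists_tail (lam := α * (n + 1 : ℕ)) (B := B) (by positivity) hη).and
    (exists_tail (lam := α * ((n + 1 : ℕ) - 1)) (B := B) (mul_nonneg hα.le (by simp)) hη)).exists
  obtain ⟨N₀, Φ, hΦ⟩ := exists_pert hD (K * (n + 1)) (B := B + B * K) (by positivity) hη
  have hlim : ∀ C : ℝ, ∀ᶠ N : ℕ in atTop, C ≤ η * N := fun C =>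
    (tendsto_natCast_atTop_atTop.const_mul_atTop hη).eventually_ge_atTop C
  obtain ⟨N₁, hN₁⟩ := eventually_atTop.1 ((hlim (α * (2 * (n + 1) ^ 2 * B))).and
    ((eventually_ge_atTop N₀).and (eventually_gt_atTop n)))
  set d := c - Real.log 2 - 10 * η with hd
  have hstep : ∀ N, N₁ ≤ N → ff α μ ν Φ N + d ≤ ff α μ ν Φ (N + 1) := by
    intro N hN
    obtain ⟨h1, h2, h3⟩ := hN₁ N hN
    have h4 := step hα hη hμ hν hB hs hc t1 t2 hΦ h2 h3
    have h5 : α * (2 * (n + 1) ^ 2 * B) / (N + 1) ≤ η := by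
      rw [div_le_iff₀ (by positivity)]; linarith
    linarith
  have htel : ∀ N, N₁ ≤ N → ff α μ ν Φ N₁ + (N - N₁) * d ≤ ff α μ ν Φ N := by
    intro N hN
    induction N, hN using Nat.le_induction with
    | base => simp
    | succ N hN ih =>
      have := hstep N hN
      push_cast
      linarith
  filter_upwards [eventually_ge_atTop N₁, eventually_gt_atTop 0,
    hlim (N₁ * d - ff α μ ν Φ N₁)] with N h1 h2 h3
  haveI : NeZero N := ⟨h2.ne'⟩
  have h4 := (htel N h1).trans (ff_le hα hμ hΦ N)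
  have hN : (0 : ℝ) < N := by exact_mod_cast h2
  refine le_of_mul_le_mul_left ?_ hN
  have : ε = 12 * η := by rw [hηdef]; ring
  rw [this]
  nlinarith

end Crest.Agent.R141
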