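import Crest.Agent.R141.Tree

/-! Row 141: domination of the replica tree laws by product weights and averaging over levels. -/

set_option autoImplicit false
open Finset Function
open scoped BigOperators

namespace Crest.Agent.R141

open BT

variable (P : Par)

noncomputable def qw (a k : ℕ) : ℝ := if k = a then 1 else pw P k

lemma qw_nonneg (a k : ℕ) : 0 ≤ qw P a k := by
  unfold qw; split_ifs
  · exact zero_le_one
  · exact pw_nonneg P k

lemma pw_le_one (k : ℕ) : pw P k ≤ 1 := by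
  have := P.le_one k
  have := P.pos (k - 1)
  unfold pw; linarith

lemma pw_le_qw (a k : ℕ) : pw P k ≤ qw P a k := by
  unfold qw; split_ifs
  · exact pw_le_one P k
  · exact le_rfl

lemma sum_qw {a : ℕ} (ha : a ≤ P.r) (f : ℕ → ℝ) :
    ∑ k ∈ Icc a P.r, qw P a k * f k = f a + ∑ k ∈ Ioc a P.r, pw P k * f k := by
  rw [← Ioc_insert_left ha, sum_insert (by simp), qw, if_pos rfl, one_mul]
  congr 1
  exact sum_congr rfl fun k hk => by rw [qw, if_neg (mem_Ioc.1 hk).1.ne']

/-- sum over all trees of depth at most `d` -/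
noncomputable def W : ℕ → ℕ → (BT → ℝ) →ₗ[ℝ] ℝ
  | 0, _ => LinearMap.proj leaf
  | d + 1, a => LinearMap.proj leaf + ∑ k ∈ Icc a P.r, qw P a k •
      (W d k ∘ₗ LinearMap.pi fun l => W d k ∘ₗ LinearMap.funLeft ℝ ℝ fun r => node k l r)

lemma W_zero (a : ℕ) (Φ : BT → ℝ) : W P 0 a Φ = Φ leaf := rfl

lemma W_succ (d a : ℕ) (Φ : BT → ℝ) : W P (d + 1) a Φ =
    Φ leaf + ∑ k ∈ Icc a P.r, qw P a k * W P d k fun l => W P d k fun r => Φ (node k l r) := by
  simp only [W, LinearMap.add_apply, LinearMap.sum_apply, LinearMap.smul_apply,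
    LinearMap.proj_apply, smul_eq_mul]
  rfl

lemma W_nonneg (d a : ℕ) {Φ : BT → ℝ} (h : ∀ A, 0 ≤ Φ A) : 0 ≤ W P d a Φ := by
  induction d generalizing a Φ with
  | zero => exact h _
  | succ d ih =>
    rw [W_succ]
    exact add_nonneg (h _) (sum_nonneg fun k _ => mul_nonneg (qw_nonneg P a k)
      (ih _ fun l => ih _ fun r => h _))

lemma W_mono (d a : ℕ) {Φ Φ' : BT → ℝ} (h : ∀ A, Φ A ≤ Φ' A) : W P d a Φ ≤ W P d a Φ' := by
  have := W_nonneg P d a (Φ := fun A => Φ' A - Φ A) fun A => sub_nonneg.2 (h A)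
  rwa [lin_sub, sub_nonneg] at this

lemma W_leaf (d a : ℕ) {Φ : BT → ℝ} (h : ∀ A, 0 ≤ Φ A) : Φ leaf ≤ W P d a Φ := by
  cases d with
  | zero => exact le_rfl
  | succ d =>
    rw [W_succ]
    exact le_add_of_nonneg_right (sum_nonneg fun k _ => mul_nonneg (qw_nonneg P a k)
      (W_nonneg P _ _ fun l => W_nonneg P _ _ fun r => h _))

lemma W_le_succ (d a : ℕ) {Φ : BT → ℝ} (h : ∀ A, 0 ≤ Φ A) : W P d a Φ ≤ W P (d + 1) a Φ := by
  induction d generalizing a Φ with
  | zero => exact W_leaf P _ _ h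
  | succ d ih =>
    rw [W_succ, W_succ P (d + 1)]
    refine add_le_add le_rfl (sum_le_sum fun k _ => mul_le_mul_of_nonneg_left ?_ (qw_nonneg P a k))
    exact (W_mono P _ _ fun l => ih k fun r => h _).trans
      (ih k fun l => W_nonneg P _ _ fun r => h _)

/-- total mass -/
def wc : ℕ → ℝ
  | 0 => 1
  | d + 1 => 1 + 2 * wc d ^ 2

lemma wc_nonneg (d : ℕ) : 0 ≤ wc d := by
  cases d with
  | zero => exact zero_le_one
  | succ d => unfold wc; positivity

lemma W_const (d a : ℕ) {c : ℝ} (hc : 0 ≤ c) : W P d a (fun _ => c) ≤ wc d * c := by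
  induction d generalizing a c with
  | zero => simp [W_zero, wc]
  | succ d ih =>
    have h0 := wc_nonneg d
    have h1 : ∀ k, W P d k (fun _ => W P d k fun _ => c) ≤ wc d ^ 2 * c := fun k =>
      (W_mono P _ _ fun _ => ih k hc).trans ((ih k (by positivity)).trans_eq (by ring))
    rw [W_succ, wc, add_mul, one_mul]
    refine add_le_add le_rfl ((sum_le_sum fun k _ =>
      mul_le_mul_of_nonneg_left (h1 k) (qw_nonneg P a k)).trans ?_)
    by_cases ha : a ≤ P.r
    · rw [sum_qw P ha, ← sum_mul, sum_pw P ha]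
      have := P.le_one P.r
      have := P.pos a
      have : 0 ≤ wc d ^ 2 * c := by positivity
      nlinarith
    · rw [Icc_eq_empty ha, sum_empty]; positivity

lemma Gr_nonneg (a : ℕ) (A : BT) {Φ : BT → ℝ} (h : ∀ A, 0 ≤ Φ A) : 0 ≤ Gr P a A Φ := by
  induction A generalizing a Φ with
  | leaf => rw [Gr_leaf]; exact sum_nonneg fun t _ => mul_nonneg (pw_nonneg P t) (h _)
  | node k l r ih1 ih2 =>
    rw [Gr_node]
    exact add_nonneg (add_nonneg (add_nonneg (sum_nonneg fun t _ => mul_nonneg (pw_nonneg P t)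
      (h _)) (mul_nonneg (P.pos k).le (h _))) (ih1 _ fun _ => h _)) (ih2 _ fun _ => h _)

lemma W_node_le (d a : ℕ) {Φ : BT → ℝ} (h : ∀ A, 0 ≤ Φ A) :
    ∑ k ∈ Icc a P.r, qw P a k * W P d k (fun l => W P d k fun r => Φ (node k l r)) ≤
      W P (d + 1) a Φ := by
  rw [W_succ]; exact le_add_of_nonneg_left (h _)

lemma W_graft (d a : ℕ) {Φ : BT → ℝ} (h : ∀ A, 0 ≤ Φ A) :
    ∑ k ∈ Icc a P.r, qw P a k * W P d k (fun l => Φ (node k l leaf)) ≤ W P (d + 1) a Φ :=
  le_trans (sum_le_sum fun k _ => mul_le_mul_of_nonneg_left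
    (W_mono P _ _ fun _ => W_leaf P d k (Φ := fun r => Φ (node k _ r)) fun _ => h _)
    (qw_nonneg P a k)) (W_node_le P d a h)

lemma W_Gr (d : ℕ) (a : ℕ) {Φ : BT → ℝ} (h : ∀ A, 0 ≤ Φ A) :
    W P d a (fun A => Gr P a A Φ) ≤ 5 ^ d * W P (d + 1) a Φ := by
  have leafb : ∀ (d a : ℕ) {Φ : BT → ℝ}, (∀ A, 0 ≤ Φ A) → Gr P a leaf Φ ≤ W P (d + 1) a Φ := by
    intro d a Φ h
    refine le_trans ?_ (W_graft P d a h)
    rw [Gr_leaf]
    refine le_trans (sum_le_sum fun t _ => mul_le_mul (pw_le_qw P a t)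
      (W_leaf P d t (Φ := fun l => Φ (node t l leaf)) fun _ => h _) (h _) (qw_nonneg P a t)) ?_
    exact sum_le_sum_of_subset_of_nonneg Ioc_subset_Icc_self fun t _ _ =>
      mul_nonneg (qw_nonneg P a t) (W_nonneg P _ _ fun _ => h _)
  induction d generalizing a Φ with
  | zero => simpa [W_zero] using leafb 0 a h
  | succ d ih =>
    have hW := W_nonneg P (d + 2) a h
    have h5 : (1 : ℝ) ≤ 5 ^ d := one_le_pow₀ (by norm_num)
    rw [W_succ]
    simp only [Gr_node, lin_add, mul_add, sum_add_distrib]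
    have t1 : ∑ k ∈ Icc a P.r, qw P a k * W P d k (fun l => W P d k fun r =>
        ∑ t ∈ Ioc a k, pw P t * Φ (node t (node k l r) leaf)) ≤ W P (d + 2) a Φ := by
      refine le_trans ?_ (W_graft P (d + 1) a h)
      simp only [lin_sum, lin_mul, mul_sum]
      rw [sum_sigma', ← sum_filter_add_sum_filter_not (Icc a P.r) (· = a)]
      refine le_add_of_nonneg_of_le (sum_nonneg fun t _ => mul_nonneg (qw_nonneg P a t)
        (W_nonneg P _ _ fun _ => h _)) ?_
      refine le_trans ?_ (sum_le_sum fun t _ => mul_le_mul_of_nonneg_left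
        (W_node_le P d t (Φ := fun l => Φ (node t l leaf)) fun _ => h _) (qw_nonneg P a t))
      simp only [mul_sum]
      rw [sum_sigma']
      refine le_trans (sum_le_sum (g := fun x => qw P a x.2 * (qw P x.2 x.1 * W P d x.1 fun l =>
        W P d x.1 fun r => Φ (node x.2 (node x.1 l r) leaf))) fun x hx => ?_) (le_of_eq ?_)
      · simp only [mem_sigma, mem_Icc, mem_Ioc] at hx
        rw [mul_left_comm]
        refine mul_le_mul (pw_le_qw P _ _) (mul_le_mul_of_nonneg_right ?_
          (W_nonneg P _ _ fun _ => W_nonneg P _ _ fun _ => h _)) (mul_nonneg (qw_nonneg P _ _)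
          (W_nonneg P _ _ fun _ => W_nonneg P _ _ fun _ => h _)) (qw_nonneg P _ _)
        rw [qw, if_neg (by omega)]
        exact pw_le_qw P _ _
      · refine sum_bij' (fun x _ => ⟨x.2, x.1⟩) (fun x _ => ⟨x.2, x.1⟩) ?_ ?_ (fun _ _ => rfl)
          (fun _ _ => rfl) fun _ _ => rfl
        · intro x hx
          simp only [mem_sigma, mem_Icc, mem_Ioc, mem_filter] at hx ⊢
          omega
        · intro x hx
          simp only [mem_sigma, mem_Icc, mem_Ioc, mem_filter] at hx ⊢
          omega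
    have t2 : ∑ k ∈ Icc a P.r, qw P a k * W P d k (fun l => W P d k fun r =>
        P.m k * Φ (node k (node k l r) leaf)) ≤ W P (d + 2) a Φ := by
      refine le_trans (sum_le_sum fun k hk => mul_le_mul_of_nonneg_left ?_ (qw_nonneg P a k))
        (W_graft P (d + 1) a h)
      refine le_trans ?_ (W_node_le P d k (Φ := fun l => Φ (node k l leaf)) fun _ => h _)
      rw [sum_qw P (mem_Icc.1 hk).2]
      refine le_add_of_le_of_nonneg (W_mono P _ _ fun l => W_mono P _ _ fun r =>
        mul_le_of_le_one_left (h _) (P.le_one k)) (sum_nonneg fun t _ => mul_nonneg (pw_nonneg P t)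
        (W_nonneg P _ _ fun _ => W_nonneg P _ _ fun _ => h _))
    have t3 : ∑ k ∈ Icc a P.r, qw P a k * W P d k (fun l => W P d k fun r =>
        Gr P k l fun Y => Φ (node k Y r)) ≤ 5 ^ d * W P (d + 2) a Φ := by
      refine le_trans ?_ (mul_le_mul_of_nonneg_left (W_node_le P (d + 1) a h) (by positivity))
      rw [mul_sum]
      refine sum_le_sum fun k _ => ?_
      rw [mul_left_comm]
      refine mul_le_mul_of_nonneg_left ?_ (qw_nonneg P a k)
      simp only [Gr_lin P (W P d k) k _ fun Y r => Φ (node k Y r)]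
      exact (ih k fun _ => W_nonneg P _ _ fun _ => h _).trans (mul_le_mul_of_nonneg_left
        (W_mono P _ _ fun _ => W_le_succ P _ _ fun _ => h _) (by positivity))
    have t4 : ∑ k ∈ Icc a P.r, qw P a k * W P d k (fun l => W P d k fun r =>
        Gr P k r fun Y => Φ (node k l Y)) ≤ 5 ^ d * W P (d + 2) a Φ := by
      refine le_trans ?_ (mul_le_mul_of_nonneg_left (W_node_le P (d + 1) a h) (by positivity))
      rw [mul_sum]
      refine sum_le_sum fun k _ => ?_
      rw [mul_left_comm]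
      refine mul_le_mul_of_nonneg_left ?_ (qw_nonneg P a k)
      refine (W_mono P _ _ fun l => ih k fun _ => h _).trans ?_
      rw [lin_mul]
      exact mul_le_mul_of_nonneg_left (W_le_succ P _ _ fun _ => W_nonneg P _ _ fun _ => h _)
        (by positivity)
    have t0 := leafb (d + 1) a h
    rw [pow_succ]
    nlinarith

lemma Q_le_W (n : ℕ) : ∃ C : ℝ, 0 ≤ C ∧ ∀ (P : Par) (a : ℕ), a ≤ P.r → ∀ Φ : BT → ℝ,
    (∀ A, 0 ≤ Φ A) → Q P a n Φ ≤ C * W P n a Φ := by
  induction n with
  | zero => exact ⟨1, zero_le_one, fun P a _ Φ _ => by simp [Q_zero, W_zero]⟩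
  | succ n ih =>
    obtain ⟨C, hC, ih⟩ := ih
    refine ⟨C * (5 ^ n + 1), by positivity, fun P a ha Φ h => ?_⟩
    have hm := P.pos a
    rw [Q_succ, mul_assoc]
    refine (ih P a ha _ fun A => mul_nonneg (by positivity) (add_nonneg (Gr_nonneg P a A h)
      (mul_nonneg hm.le (h _)))).trans (mul_le_mul_of_nonneg_left ?_ hC)
    refine (W_mono P _ _ (Φ' := fun A => Gr P a A Φ + Φ (node a A leaf)) fun A => ?_).trans ?_
    · refine (mul_le_of_le_one_left (add_nonneg (Gr_nonneg P a A h) (mul_nonneg hm.le (h _)))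
        (inv_le_one_of_one_le₀ (by simp))).trans ?_
      exact add_le_add le_rfl (mul_le_of_le_one_left (h _) (P.le_one a))
    · rw [lin_add, add_mul, one_mul]
      refine add_le_add (W_Gr P n a h) (le_trans ?_ (W_graft P n a h))
      rw [sum_qw P ha]
      exact le_add_of_nonneg_right (sum_nonneg fun t _ => mul_nonneg (pw_nonneg P t)
        (W_nonneg P _ _ fun _ => h _))

/-- sum of `g` over the edges of the tree along which the level changes -/
noncomputable def FF (g : ℕ → BT → ℝ) : ℕ → BT → ℝ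
  | a, .leaf => g a leaf
  | a, .node k l r => (if k = a then 0 else g a (node k l r)) + FF g k l + FF g k r

lemma FF_nonneg {g : ℕ → BT → ℝ} (hg : ∀ a A, 0 ≤ g a A) (a : ℕ) (A : BT) : 0 ≤ FF g a A := by
  induction A generalizing a with
  | leaf => exact hg _ _
  | node k l r ih1 ih2 =>
    refine add_nonneg (add_nonneg ?_ (ih1 _)) (ih2 _)
    split_ifs
    · exact le_rfl
    · exact hg _ _

lemma W_FF (d : ℕ) : ∃ C : ℝ, 0 ≤ C ∧ ∀ P : Par, (∀ k, pw P k ≤ 1 / (P.r + 1)) →
    ∀ (g : ℕ → BT → ℝ) (τ β : ℝ), 0 ≤ τ → 0 ≤ β → (∀ a A, 0 ≤ g a A) →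
    (∀ A, ∀ I ⊆ range (P.r + 1), ∑ k ∈ I, g k A ≤ #I * τ + β) →
    ∀ I ⊆ range (P.r + 1), ∑ a ∈ I, W P d a (FF g a) ≤ C * (#I * τ + β) := by
  induction d with
  | zero => exact ⟨1, zero_le_one, fun P _ g τ β _ _ _ hs I hI => by
      simpa [W_zero, FF] using hs leaf I hI⟩
  | succ d ih =>
    obtain ⟨C, hC, ih⟩ := ih
    have hw := wc_nonneg d
    refine ⟨1 + wc d ^ 2 + 2 * wc d * (2 * C), by positivity,
      fun P hp g τ β hτ hβ hg hs I hI => ?_⟩
    have hr : (0 : ℝ) < P.r + 1 := by positivity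
    have hf : ∀ k, 0 ≤ W P d k (FF g k) := fun k => W_nonneg P _ _ (FF_nonneg hg k)
    have hcard : (#I : ℝ) ≤ P.r + 1 := by exact_mod_cast (card_le_card hI).trans_eq (card_range _)
    have hsub : ∀ a, Ioc a P.r ⊆ range (P.r + 1) := fun a k hk =>
      mem_range.2 (Nat.lt_succ_of_le (mem_Ioc.1 hk).2)
    have h1 : ∀ a ∈ I, W P (d + 1) a (FF g a) ≤ g a leaf + ∑ k ∈ range (P.r + 1),
        1 / (P.r + 1) * W P d k (fun l => W P d k fun r => g a (node k l r)) +
        2 * wc d * (W P d a (FF g a) + ∑ k ∈ range (P.r + 1), 1 / (P.r + 1) * W P d k (FF g k)) := by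
      intro a ha
      have ha' : a ≤ P.r := Nat.lt_succ_iff.1 (mem_range.1 (hI ha))
      rw [W_succ]
      simp only [FF, add_assoc, lin_add, mul_add, sum_add_distrib]
      refine add_le_add le_rfl (add_le_add ?_ ?_)
      · rw [sum_qw P ha']
        simp only [if_true, lin_zero, zero_add]
        refine le_trans (sum_le_sum fun k hk => ?_) (sum_le_sum_of_subset_of_nonneg (hsub a)
          fun k _ _ => mul_nonneg (by positivity)
            (W_nonneg P _ _ fun _ => W_nonneg P _ _ fun _ => hg _ _))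
        simp only [if_neg (mem_Ioc.1 hk).1.ne']
        exact mul_le_mul_of_nonneg_right (hp k)
          (W_nonneg P _ _ fun _ => W_nonneg P _ _ fun _ => hg _ _)
      · have a1 : ∀ k, W P d k (fun l => W P d k fun _ => FF g k l) ≤ wc d * W P d k (FF g k) :=
          fun k => (W_mono P _ _ fun l => W_const P d k (FF_nonneg hg k l)).trans_eq (lin_mul _ _ _)
        have a2 : ∀ k, W P d k (fun _ => W P d k fun r => FF g k r) ≤ wc d * W P d k (FF g k) :=
          fun k => W_const P d k (hf k)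
        have a3 : ∑ k ∈ Icc a P.r, qw P a k * (wc d * W P d k (FF g k)) ≤ wc d *
            (W P d a (FF g a) + ∑ k ∈ range (P.r + 1), 1 / (P.r + 1) * W P d k (FF g k)) := by
          simp only [mul_left_comm (qw P a _)]
          rw [← mul_sum, sum_qw P ha']
          refine mul_le_mul_of_nonneg_left (add_le_add le_rfl ?_) hw
          exact le_trans (sum_le_sum fun k _ => mul_le_mul_of_nonneg_right (hp k) (hf k))
            (sum_le_sum_of_subset_of_nonneg (hsub a) fun k _ _ => mul_nonneg (by positivity) (hf k))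
        have a4 := (sum_le_sum fun k _ => mul_le_mul_of_nonneg_left (a1 k) (qw_nonneg P a k)).trans a3
        have a5 := (sum_le_sum fun k _ => mul_le_mul_of_nonneg_left (a2 k) (qw_nonneg P a k)).trans a3
        linarith
    refine (sum_le_sum h1).trans ?_
    have hb : 0 ≤ #I * τ + β := by positivity
    simp only [sum_add_distrib, ← mul_sum, sum_const, nsmul_eq_mul]
    have b1 := hs leaf I hI
    have b2 : ∑ a ∈ I, ∑ k ∈ range (P.r + 1), W P d k (fun l => W P d k fun r =>
        g a (node k l r)) ≤ (P.r + 1) * (wc d ^ 2 * (#I * τ + β)) := by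
      rw [sum_comm]
      refine (sum_le_card_nsmul _ _ (wc d ^ 2 * (#I * τ + β)) fun k _ => ?_).trans (by simp)
      simp only [← lin_sum]
      refine (W_mono P _ _ fun l => (W_mono P _ _ fun r => hs _ I hI).trans
        (W_const P d k hb)).trans ((W_const P d k (by positivity)).trans_eq (by ring))
    have b3 := ih P hp g τ β hτ hβ hg hs I hI
    have b4 := ih P hp g τ β hτ hβ hg hs _ Subset.rfl
    rw [card_range] at b4
    push_cast at b4
    have b5 : #I * (1 / (P.r + 1) * ∑ k ∈ range (P.r + 1), W P d k (FF g k)) ≤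
        C * (#I * τ + β) := by
      calc _ ≤ #I * (1 / (P.r + 1) * (C * ((P.r + 1) * τ + β))) := by gcongr
        _ = C * (#I * τ + #I / (P.r + 1) * β) := by field_simp
        _ ≤ C * (#I * τ + 1 * β) := by gcongr; exact (div_le_one hr).2 hcard
        _ = _ := by rw [one_mul]
    have b6 : 1 / (P.r + 1) * ∑ a ∈ I, ∑ k ∈ range (P.r + 1), W P d k (fun l => W P d k fun r =>
        g a (node k l r)) ≤ wc d ^ 2 * (#I * τ + β) := by
      refine (mul_le_mul_of_nonneg_left b2 (by positivity)).trans_eq ?_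
      field_simp
    have b7 := mul_le_mul_of_nonneg_left (add_le_add b3 b5) (by positivity : 0 ≤ 2 * wc d)
    nlinarith

theorem Q_FF (n : ℕ) : ∃ C : ℝ, 0 ≤ C ∧ ∀ P : Par, (∀ k, pw P k ≤ 1 / (P.r + 1)) →
    ∀ (g : ℕ → BT → ℝ) (τ β : ℝ), 0 ≤ τ → 0 ≤ β → (∀ a A, 0 ≤ g a A) →
    (∀ A, ∀ I ⊆ range (P.r + 1), ∑ k ∈ I, g k A ≤ #I * τ + β) →
    ∀ I ⊆ range (P.r + 1), ∑ a ∈ I, Q P a n (FF g a) ≤ C * (#I * τ + β) := by
  obtain ⟨C, hC, h1⟩ := Q_le_W n
  obtain ⟨C', hC', h2⟩ := W_FF n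
  refine ⟨C * C', by positivity, fun P hp g τ β hτ hβ hg hs I hI => ?_⟩
  refine (sum_le_sum fun a ha => h1 P a (Nat.lt_succ_iff.1 (mem_range.1 (hI ha))) _
    (FF_nonneg hg a)).trans ?_
  rw [← mul_sum, mul_assoc]
  exact mul_le_mul_of_nonneg_left (h2 P hp g τ β hτ hβ hg hs I hI) hC

end Crest.Agent.R141
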