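import Mathlib

/-! Row 141: finite cascades (nested power means over a uniform product space), the tilted
conditional expectations, and their basic properties. -/

set_option autoImplicit false
open Finset Function
open scoped BigOperators

namespace Crest.Agent.R141

/-- exponents of a cascade: levels `0, …, r`; the last level has exponent one -/
structure Par where
  r : ℕ
  m : ℕ → ℝ
  pos : ∀ t, 0 < m t
  mono : Monotone m
  top : ∀ t, r ≤ t → m t = 1

lemma Par.le_one (P : Par) (t : ℕ) : P.m t ≤ 1 := by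
  rcases le_total t P.r with h | h
  · exact (P.mono h).trans (P.top _ le_rfl).le
  · exact (P.top _ h).le

lemma Par.down (P : Par) {p : ℕ → Prop} (h0 : ∀ t, P.r < t → p t)
    (hs : ∀ t, t ≤ P.r → p (t + 1) → p t) (t : ℕ) : p t := by
  by_cases ht : P.r < t
  · exact h0 t ht
  · obtain ⟨d, hd⟩ : ∃ d, t + d = P.r + 1 := ⟨P.r + 1 - t, by omega⟩
    induction d generalizing t with
    | zero => exact h0 t (by omega)
    | succ d ih =>
      refine hs t (by omega) ?_
      by_cases h1 : P.r < t + 1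
      · exact h0 _ h1
      · exact ih (t + 1) h1 (by omega)

abbrev Path (S : Type) := ℕ → S

/-- positive normalised linear functionals -/
structure IsP {A : Type*} (Λ : (A → ℝ) →ₗ[ℝ] ℝ) : Prop where
  nonneg : ∀ f, (∀ x, 0 ≤ f x) → 0 ≤ Λ f
  one : Λ (fun _ => 1) = 1

section IsP
variable {A : Type*} {Λ : (A → ℝ) →ₗ[ℝ] ℝ}

lemma lin_add (Λ : (A → ℝ) →ₗ[ℝ] ℝ) (f g : A → ℝ) : Λ (fun x => f x + g x) = Λ f + Λ g :=
  map_add Λ f g

lemma lin_sub (Λ : (A → ℝ) →ₗ[ℝ] ℝ) (f g : A → ℝ) : Λ (fun x => f x - g x) = Λ f - Λ g :=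
  map_sub Λ f g

lemma lin_neg (Λ : (A → ℝ) →ₗ[ℝ] ℝ) (f : A → ℝ) : Λ (fun x => -f x) = -Λ f :=
  map_neg Λ f

lemma lin_mul (Λ : (A → ℝ) →ₗ[ℝ] ℝ) (c : ℝ) (f : A → ℝ) : Λ (fun x => c * f x) = c * Λ f :=
  map_smul Λ c f

lemma lin_mul' (Λ : (A → ℝ) →ₗ[ℝ] ℝ) (c : ℝ) (f : A → ℝ) : Λ (fun x => f x * c) = Λ f * c := by
  simp only [mul_comm _ c, lin_mul]

lemma lin_zero (Λ : (A → ℝ) →ₗ[ℝ] ℝ) : Λ (fun _ => 0) = 0 := map_zero Λ

lemma lin_sum {B : Type*} (Λ : (A → ℝ) →ₗ[ℝ] ℝ) (s : Finset B) (f : B → A → ℝ) :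
    Λ (fun x => ∑ b ∈ s, f b x) = ∑ b ∈ s, Λ (f b) := by
  rw [← map_sum]; congr 1; funext x; simp

lemma lin_expect {B : Type*} (Λ : (A → ℝ) →ₗ[ℝ] ℝ) (s : Finset B) (f : B → A → ℝ) :
    Λ (fun x => 𝔼 b ∈ s, f b x) = 𝔼 b ∈ s, Λ (f b) := by
  simp only [expect_eq_sum_div_card, div_eq_mul_inv, lin_mul', lin_sum]

lemma IsP.const (h : IsP Λ) (c : ℝ) : Λ (fun _ => c) = c := by
  have := lin_mul Λ c fun _ => 1
  simpa [h.one] using this

lemma IsP.mono (h : IsP Λ) {f g : A → ℝ} (hfg : ∀ x, f x ≤ g x) : Λ f ≤ Λ g := by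
  have := h.nonneg (fun x => g x - f x) fun x => sub_nonneg.2 (hfg x)
  rwa [lin_sub, sub_nonneg] at this

lemma IsP.le (h : IsP Λ) {f : A → ℝ} {c : ℝ} (hf : ∀ x, f x ≤ c) : Λ f ≤ c :=
  (h.mono hf).trans_eq (h.const c)

lemma IsP.ge (h : IsP Λ) {f : A → ℝ} {c : ℝ} (hf : ∀ x, c ≤ f x) : c ≤ Λ f :=
  (h.const c).symm.trans_le (h.mono hf)

lemma IsP.abs_le (h : IsP Λ) (f : A → ℝ) : |Λ f| ≤ Λ fun x => |f x| := by
  rw [_root_.abs_le, ← lin_neg]
  exact ⟨h.mono fun x => neg_abs_le _, h.mono fun x => le_abs_self _⟩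

lemma IsP.abs_le_of (h : IsP Λ) {f : A → ℝ} {c : ℝ} (hf : ∀ x, |f x| ≤ c) : |Λ f| ≤ c :=
  (h.abs_le f).trans (h.le hf)

lemma IsP.abs_sub_le (h : IsP Λ) {f g : A → ℝ} {c : ℝ} (hf : ∀ x, |f x - g x| ≤ c) :
    |Λ f - Λ g| ≤ c := by
  rw [← lin_sub]; exact h.abs_le_of hf

lemma IsP.cs (h : IsP Λ) (f g : A → ℝ) :
    Λ (fun x => f x * g x) ^ 2 ≤ Λ (fun x => f x ^ 2) * Λ fun x => g x ^ 2 := by
  have key : ∀ t : ℝ, 0 ≤ Λ (fun x => f x ^ 2) * (t * t) + 2 * Λ (fun x => f x * g x) * t +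
      Λ fun x => g x ^ 2 := by
    intro t
    have := h.nonneg (fun x => (t * t) * f x ^ 2 + (2 * t) * (f x * g x) + g x ^ 2)
      fun x => by nlinarith [sq_nonneg (t * f x + g x)]
    rw [lin_add, lin_add, lin_mul, lin_mul] at this
    linarith
  have := discrim_le_zero key
  rw [discrim] at this
  nlinarith

lemma IsP.sq_le (h : IsP Λ) (f : A → ℝ) : Λ f ^ 2 ≤ Λ fun x => f x ^ 2 := by
  have := h.cs f fun _ => 1
  simpa [h.one] using this

lemma IsP.comp {B : Type*} (h : IsP Λ) (K : A → (B → ℝ) →ₗ[ℝ] ℝ) (hK : ∀ x, IsP (K x)) :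
    IsP (Λ ∘ₗ LinearMap.pi K) :=
  ⟨fun f hf => h.nonneg _ fun x => (hK x).nonneg f hf, by
    have : (LinearMap.pi K) (fun _ => (1 : ℝ)) = fun _ => 1 := funext fun x => (hK x).one
    rw [LinearMap.comp_apply, this, h.one]⟩

end IsP

/-- uniform average as a functional -/
noncomputable def avg (S : Type*) [Fintype S] : (S → ℝ) →ₗ[ℝ] ℝ where
  toFun g := 𝔼 s, g s
  map_add' f g := expect_add_distrib _ _ _
  map_smul' c f := by simp [mul_expect]

lemma avg_apply {S : Type*} [Fintype S] (g : S → ℝ) : avg S g = 𝔼 s, g s := rfl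

lemma avg_isP (S : Type*) [Fintype S] [Nonempty S] : IsP (avg S) :=
  ⟨fun _ hf => expect_nonneg fun x _ => hf x, Fintype.expect_const _⟩

variable {S : Type} [Fintype S] (P : Par)

/-- one power-mean step, in logarithmic form -/
noncomputable def stepX (μ : ℝ) (t : ℕ) (Y : Path S → ℝ) : Path S → ℝ :=
  fun ω => Real.log (𝔼 s, Real.exp (μ * Y (update ω t s))) / μ

noncomputable def XX (H : Path S → ℝ) : ℕ → Path S → ℝ
  | 0 => H
  | d + 1 => stepX (P.m (P.r - d)) (P.r - d) (XX H d)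

/-- the nested functional at time `t` (coordinates `< t` are revealed) -/
noncomputable def X (H : Path S → ℝ) (t : ℕ) : Path S → ℝ := XX P H (P.r + 1 - t)

lemma X_top (H : Path S → ℝ) {t : ℕ} (ht : P.r < t) : X P H t = H := by
  rw [X, show P.r + 1 - t = 0 by omega]; rfl

lemma X_step (H : Path S → ℝ) {t : ℕ} (ht : t ≤ P.r) :
    X P H t = stepX (P.m t) t (X P H (t + 1)) := by
  rw [X, X, show P.r + 1 - t = (P.r + 1 - (t + 1)) + 1 by omega, XX,
    show P.r - (P.r + 1 - (t + 1)) = t by omega]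

/-- the tilting density of step `t` -/
noncomputable def rho (H : Path S → ℝ) (t : ℕ) (ω : Path S) : ℝ :=
  Real.exp (P.m t * (X P H (t + 1) ω - X P H t ω))

/-- the one-step kernel -/
noncomputable def KK (H : Path S → ℝ) (t : ℕ) (ω : Path S) : (Path S → ℝ) →ₗ[ℝ] ℝ where
  toFun g := 𝔼 s, rho P H t (update ω t s) * g (update ω t s)
  map_add' f g := by simp [mul_add, expect_add_distrib]
  map_smul' c f := by simp [mul_expect, mul_left_comm]

lemma KK_apply (H : Path S → ℝ) (t : ℕ) (ω : Path S) (g : Path S → ℝ) :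
    KK P H t ω g = 𝔼 s, rho P H t (update ω t s) * g (update ω t s) := rfl

noncomputable def EE (H : Path S → ℝ) : ℕ → Path S → (Path S → ℝ) →ₗ[ℝ] ℝ
  | 0 => fun ω => LinearMap.proj ω
  | d + 1 => fun ω => KK P H (P.r - d) ω ∘ₗ LinearMap.pi (EE H d)

/-- tilted conditional expectation at time `t` -/
noncomputable def E (H : Path S → ℝ) (t : ℕ) (ω : Path S) : (Path S → ℝ) →ₗ[ℝ] ℝ :=
  EE P H (P.r + 1 - t) ω

lemma E_top (H : Path S → ℝ) {t : ℕ} (ht : P.r < t) (ω : Path S) (f : Path S → ℝ) :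
    E P H t ω f = f ω := by
  rw [E, show P.r + 1 - t = 0 by omega]; rfl

lemma E_step (H : Path S → ℝ) {t : ℕ} (ht : t ≤ P.r) (ω : Path S) (f : Path S → ℝ) :
    E P H t ω f = KK P H t ω fun ω' => E P H (t + 1) ω' f := by
  rw [E, show P.r + 1 - t = (P.r + 1 - (t + 1)) + 1 by omega, EE,
    show P.r - (P.r + 1 - (t + 1)) = t by omega]
  rfl

/-- measurability at time `t` -/
def Meas (t : ℕ) (f : Path S → ℝ) : Prop :=
  ∀ u, t ≤ u → u ≤ P.r → ∀ ω s, f (update ω u s) = f ω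

variable {P}

omit [Fintype S] in
lemma Meas.mono {t t' : ℕ} {f : Path S → ℝ} (h : Meas P t f) (ht : t ≤ t') : Meas P t' f :=
  fun u hu => h u (ht.trans hu)

omit [Fintype S] in
lemma Meas.const (t : ℕ) (c : ℝ) : Meas P t fun _ : Path S => c := fun _ _ _ _ _ => rfl

omit [Fintype S] in
lemma Meas.map₂ {t : ℕ} {f g : Path S → ℝ} (F : ℝ → ℝ → ℝ) (hf : Meas P t f) (hg : Meas P t g) :
    Meas P t fun ω => F (f ω) (g ω) := fun u h1 h2 ω s => by
  simp only [hf u h1 h2, hg u h1 h2]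

omit [Fintype S] in
lemma Meas.map {t : ℕ} {f : Path S → ℝ} (F : ℝ → ℝ) (hf : Meas P t f) :
    Meas P t fun ω => F (f ω) := fun u h1 h2 ω s => by simp only [hf u h1 h2]

omit [Fintype S] in
lemma Meas.sum {t : ℕ} {B : Type*} (s : Finset B) {f : B → Path S → ℝ}
    (hf : ∀ b, Meas P t (f b)) : Meas P t fun ω => ∑ b ∈ s, f b ω := fun u h1 h2 ω s => by
  simp only [hf _ u h1 h2]

omit [Fintype S] in
lemma Meas.coord {t u : ℕ} (hu : u < t) (g : S → ℝ) : Meas P t fun ω => g (ω u) :=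
  fun v h1 _ ω s => by
    show g (update ω v s u) = g (ω u)
    rw [update_of_ne (by omega)]

omit [Fintype S] in
lemma meas_step {t : ℕ} {F : Path S → ℝ} (G : (S → ℝ) → ℝ) (hF : Meas P (t + 1) F) :
    Meas P t fun ω => G fun s => F (update ω t s) := by
  intro u h1 h2 ω s
  rcases h1.eq_or_lt with rfl | h
  · simp
  · show G (fun s' => F (update (update ω u s) t s')) = G fun s' => F (update ω t s')
    congr 1
    funext s'
    rw [update_comm (by omega), hF u h h2]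

variable (P)

lemma X_meas (H : Path S → ℝ) (t : ℕ) : Meas P t (X P H t) := by
  induction t using P.down with
  | h0 t ht => intro u h1 h2; omega
  | hs t ht ih =>
    rw [X_step P H ht]
    exact meas_step (fun g => Real.log (𝔼 s, Real.exp (P.m t * g s)) / P.m t) ih

lemma rho_meas (H : Path S → ℝ) (t : ℕ) : Meas P (t + 1) (rho P H t) :=
  Meas.map₂ (fun a b => Real.exp (P.m t * (a - b))) (X_meas P H _)
    ((X_meas P H t).mono (Nat.le_succ t))

lemma E_meas (H : Path S → ℝ) (t : ℕ) (f : Path S → ℝ) : Meas P t fun ω => E P H t ω f := by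
  induction t using P.down with
  | h0 t ht => intro u h1 h2; omega
  | hs t ht ih =>
    simp only [E_step P H ht, KK_apply]
    exact meas_step (fun g => 𝔼 s, g s) (Meas.map₂ (· * ·) (rho_meas P H t) ih)

variable [Nonempty S]

lemma expect_exp_pos (g : S → ℝ) : 0 < 𝔼 s, Real.exp (g s) :=
  expect_pos (fun _ _ => Real.exp_pos _) univ_nonempty

lemma exp_X (H : Path S → ℝ) {t : ℕ} (ht : t ≤ P.r) (ω : Path S) :
    Real.exp (P.m t * X P H t ω) = 𝔼 s, Real.exp (P.m t * X P H (t + 1) (update ω t s)) := by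
  rw [X_step P H ht, stepX, mul_div_cancel₀ _ (P.pos t).ne', Real.exp_log (expect_exp_pos _)]

lemma KK_eq (H : Path S → ℝ) {t : ℕ} (ht : t ≤ P.r) (ω : Path S) (g : Path S → ℝ) :
    KK P H t ω g = (𝔼 s, Real.exp (P.m t * X P H (t + 1) (update ω t s)) * g (update ω t s)) /
      𝔼 s, Real.exp (P.m t * X P H (t + 1) (update ω t s)) := by
  rw [← exp_X P H ht, KK_apply, expect_div]
  refine expect_congr rfl fun s _ => ?_
  rw [rho, X_meas P H t t le_rfl ht, mul_sub, Real.exp_sub]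
  ring

lemma KK_isP (H : Path S → ℝ) {t : ℕ} (ht : t ≤ P.r) (ω : Path S) : IsP (KK P H t ω) :=
  ⟨fun f hf => expect_nonneg fun s _ => mul_nonneg (Real.exp_pos _).le (hf _), by
    rw [KK_eq P H ht]; simp only [mul_one]; exact div_self (expect_exp_pos _).ne'⟩

lemma E_isP (H : Path S → ℝ) (t : ℕ) (ω : Path S) : IsP (E P H t ω) := by
  induction t using P.down generalizing ω with
  | h0 t ht => exact ⟨fun f hf => by rw [E_top P H ht]; exact hf ω, by rw [E_top P H ht]⟩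
  | hs t ht ih =>
    have : E P H t ω = KK P H t ω ∘ₗ LinearMap.pi (E P H (t + 1)) :=
      LinearMap.ext fun f => E_step P H ht ω f
    rw [this]
    exact (KK_isP P H ht ω).comp _ ih

omit [Nonempty S] in
lemma E_mul_meas (H : Path S → ℝ) {t : ℕ} {f : Path S → ℝ} (hf : Meas P t f) (g : Path S → ℝ)
    (ω : Path S) : E P H t ω (fun x => f x * g x) = f ω * E P H t ω g := by
  induction t using P.down generalizing ω with
  | h0 t ht => simp only [E_top P H ht]
  | hs t ht ih =>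
    simp only [E_step P H ht, ih (hf.mono (Nat.le_succ t)), KK_apply, hf t le_rfl ht, mul_expect]
    exact expect_congr rfl fun s _ => by ring

lemma E_of_meas (H : Path S → ℝ) {t : ℕ} {f : Path S → ℝ} (hf : Meas P t f) (ω : Path S) :
    E P H t ω f = f ω := by
  have := E_mul_meas P H hf (fun _ => 1) ω
  simpa [(E_isP P H t ω).one] using this

lemma E_E (H : Path S → ℝ) {s t : ℕ} (hst : s ≤ t) (f : Path S → ℝ) (ω : Path S) :
    E P H s ω (fun x => E P H t x f) = E P H s ω f := by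
  induction s using P.down generalizing ω with
  | h0 s hs => simp only [E_top P H hs, E_top P H (hs.trans_le hst)]
  | hs s hs ih =>
    rcases hst.eq_or_lt with rfl | h
    · exact E_of_meas P H (E_meas P H s f) ω
    · simp only [E_step P H hs, ih h]

lemma E_mul_E (H : Path S → ℝ) {s t : ℕ} (hst : s ≤ t) {f : Path S → ℝ} (hf : Meas P t f)
    (g : Path S → ℝ) (ω : Path S) :
    E P H s ω (fun x => f x * E P H t x g) = E P H s ω fun x => f x * g x := by
  rw [← E_E P H hst (fun x => f x * g x)]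
  simp only [E_mul_meas P H hf]

lemma E_eq_KK (H : Path S → ℝ) {t : ℕ} (ht : t ≤ P.r) {f : Path S → ℝ} (hf : Meas P (t + 1) f)
    (ω : Path S) : E P H t ω f = KK P H t ω f := by
  simp only [E_step P H ht, E_of_meas P H hf]

/-! ### monotonicity, shifts -/

lemma X_mono {H H' : Path S → ℝ} (h : ∀ ω, H ω ≤ H' ω) (t : ℕ) (ω : Path S) :
    X P H t ω ≤ X P H' t ω := by
  induction t using P.down generalizing ω with
  | h0 t ht => simp only [X_top P _ ht, h]
  | hs t ht ih =>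
    simp only [X_step P _ ht, stepX]
    refine div_le_div_of_nonneg_right (Real.log_le_log (expect_exp_pos _) ?_) (P.pos t).le
    exact expect_le_expect fun s _ => Real.exp_le_exp.2
      (mul_le_mul_of_nonneg_left (ih _) (P.pos t).le)

lemma X_add_const (H : Path S → ℝ) (c : ℝ) (t : ℕ) (ω : Path S) :
    X P (fun x => H x + c) t ω = X P H t ω + c := by
  induction t using P.down generalizing ω with
  | h0 t ht => simp only [X_top P _ ht]
  | hs t ht ih =>
    simp only [X_step P _ ht, stepX, ih, mul_add, Real.exp_add, ← expect_mul]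
    rw [Real.log_mul (expect_exp_pos _).ne' (Real.exp_pos _).ne', Real.log_exp]
    field_simp [(P.pos t).ne']

lemma X_const (c : ℝ) (t : ℕ) (ω : Path S) : X P (fun _ => c) t ω = c := by
  induction t using P.down generalizing ω with
  | h0 t ht => simp only [X_top P _ ht]
  | hs t ht ih =>
    simp only [X_step P _ ht, stepX, ih, Fintype.expect_const, Real.log_exp]
    field_simp [(P.pos t).ne']

lemma X_lip {H H' : Path S → ℝ} {c : ℝ} (h : ∀ ω, |H ω - H' ω| ≤ c) (t : ℕ) (ω : Path S) :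
    |X P H t ω - X P H' t ω| ≤ c := by
  have h1 := X_mono P (H := H) (H' := fun x => H' x + c)
    (fun x => by linarith [(abs_le.1 (h x)).2]) t ω
  have h2 := X_mono P (H := H') (H' := fun x => H x + c)
    (fun x => by linarith [(abs_le.1 (h x)).1]) t ω
  rw [X_add_const] at h1 h2
  rw [abs_le]; constructor <;> linarith

/-! ### tilting -/

/-- increment of the nested functional -/
noncomputable def Psi (H δ : Path S → ℝ) (t : ℕ) (ω : Path S) : ℝ :=
  X P (fun x => H x + δ x) t ω - X P H t ω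

omit [Nonempty S] in
lemma Psi_meas (H δ : Path S → ℝ) (t : ℕ) : Meas P t (Psi P H δ t) :=
  Meas.map₂ (· - ·) (X_meas P _ t) (X_meas P _ t)

omit [Nonempty S] in
lemma Psi_top (H δ : Path S → ℝ) {t : ℕ} (ht : P.r < t) (ω : Path S) : Psi P H δ t ω = δ ω := by
  simp [Psi, X_top P _ ht]

lemma Psi_abs {H δ : Path S → ℝ} {c : ℝ} (h : ∀ ω, |δ ω| ≤ c) (t : ℕ) (ω : Path S) :
    |Psi P H δ t ω| ≤ c := X_lip P (fun x => by simpa using h x) t ω

lemma exp_Psi (H δ : Path S → ℝ) {t : ℕ} (ht : t ≤ P.r) (ω : Path S) :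
    Real.exp (P.m t * Psi P H δ t ω) =
      E P H t ω fun x => Real.exp (P.m t * Psi P H δ (t + 1) x) := by
  rw [E_eq_KK P H ht ((Psi_meas P H δ _).map fun y => Real.exp (P.m t * y)), KK_eq P H ht, Psi,
    mul_sub, Real.exp_sub, exp_X P _ ht, exp_X P _ ht]
  congr 1
  refine expect_congr rfl fun s _ => ?_
  rw [← Real.exp_add, Psi]; congr 1; ring

lemma Psi_step_ge (H δ : Path S → ℝ) {t : ℕ} (ht : t ≤ P.r) (ω : Path S) :
    E P H t ω (Psi P H δ (t + 1)) ≤ Psi P H δ t ω := by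
  set c := E P H t ω (Psi P H δ (t + 1)) with hc
  have h1 := (E_isP P H t ω).mono (f := fun x => Real.exp (P.m t * c) *
      (P.m t * (Psi P H δ (t + 1) x - c) + 1))
    (g := fun x => Real.exp (P.m t * Psi P H δ (t + 1) x)) fun x => by
      have := Real.add_one_le_exp (P.m t * (Psi P H δ (t + 1) x - c))
      refine (mul_le_mul_of_nonneg_left this (Real.exp_pos _).le).trans (le_of_eq ?_)
      rw [← Real.exp_add]; congr 1; ring
  rw [← exp_Psi P H δ ht, lin_mul, lin_add, lin_mul, lin_sub, (E_isP P H t ω).const,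
    (E_isP P H t ω).const] at h1
  simp only [← hc, sub_self, mul_zero, zero_add, mul_one] at h1
  exact le_of_mul_le_mul_left (Real.exp_le_exp.1 h1) (P.pos t)

lemma Psi_step_le {H δ : Path S → ℝ} {B : ℝ} (hB : ∀ ω, |δ ω| ≤ B) {t : ℕ} (ht : t ≤ P.r)
    (hm : P.m t * B ≤ 1) (ω : Path S) :
    Psi P H δ t ω ≤ E P H t ω (Psi P H δ (t + 1)) + P.m t * B ^ 2 := by
  have hp := P.pos t
  have h1 := (E_isP P H t ω).mono (f := fun x => Real.exp (P.m t * Psi P H δ (t + 1) x))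
    (g := fun x => P.m t * Psi P H δ (t + 1) x + (1 + (P.m t * B) ^ 2)) fun x => by
      have h2 : |P.m t * Psi P H δ (t + 1) x| ≤ P.m t * B := by
        rw [abs_mul, abs_of_pos hp]
        exact mul_le_mul_of_nonneg_left (Psi_abs P hB _ _) hp.le
      have h3 := (abs_le.1 (Real.abs_exp_sub_one_sub_id_le (h2.trans hm))).2
      have h4 : (P.m t * Psi P H δ (t + 1) x) ^ 2 ≤ (P.m t * B) ^ 2 := by
        rw [← sq_abs]; exact pow_le_pow_left₀ (abs_nonneg _) h2 2
      linarith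
  rw [← exp_Psi P H δ ht, lin_add, lin_mul, (E_isP P H t ω).const] at h1
  have h2 := Real.add_one_le_exp (P.m t * Psi P H δ t ω)
  refine le_of_mul_le_mul_left ?_ hp
  nlinarith

lemma Psi_ge (H δ : Path S → ℝ) {a j : ℕ} (h : a ≤ j) (ω : Path S) :
    E P H a ω (Psi P H δ j) ≤ Psi P H δ a ω := by
  induction j, h using Nat.le_induction with
  | base => exact (E_of_meas P H (Psi_meas P H δ a) ω).le
  | succ j haj ih =>
    refine le_trans ?_ ih
    by_cases hj : j ≤ P.r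
    · rw [← E_E P H haj]
      exact (E_isP P H a ω).mono fun x => Psi_step_ge P H δ hj x
    · refine le_of_eq ?_
      congr 1; funext x
      rw [Psi_top P H δ (by omega), Psi_top P H δ (by omega)]

lemma Psi_le {H δ : Path S → ℝ} {B : ℝ} (hB : ∀ ω, |δ ω| ≤ B) {a j : ℕ} (h : a ≤ j)
    (hm : P.m j * B ≤ 1) (ω : Path S) :
    Psi P H δ a ω ≤ E P H a ω (Psi P H δ j) + (j - a : ℝ) * (P.m j * B ^ 2) := by
  have hB0 : 0 ≤ B := (abs_nonneg _).trans (hB ω)
  induction j, h using Nat.le_induction with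
  | base => simp [E_of_meas P H (Psi_meas P H δ a) ω]
  | succ j haj ih =>
    have hmj : P.m j ≤ P.m (j + 1) := P.mono (Nat.le_succ j)
    have hm' : P.m j * B ≤ 1 := (mul_le_mul_of_nonneg_right hmj hB0).trans hm
    have h1 : E P H a ω (Psi P H δ j) ≤ E P H a ω (Psi P H δ (j + 1)) + P.m j * B ^ 2 := by
      by_cases hj : j ≤ P.r
      · rw [← E_E P H haj (Psi P H δ (j + 1)), ← (E_isP P H a ω).const (P.m j * B ^ 2), ← lin_add]
        exact (E_isP P H a ω).mono fun x => Psi_step_le P hB hj hm' x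
      · have : Psi P H δ j = Psi P H δ (j + 1) := funext fun x => by
          rw [Psi_top P H δ (by omega), Psi_top P H δ (by omega)]
        rw [this]
        have := P.pos j
        nlinarith [sq_nonneg B]
    have h2 : (0 : ℝ) ≤ j - a := by
      have : (a : ℝ) ≤ j := by exact_mod_cast haj
      linarith
    have h3 : P.m j * B ^ 2 ≤ P.m (j + 1) * B ^ 2 := mul_le_mul_of_nonneg_right hmj (sq_nonneg B)
    have h4 := mul_le_mul_of_nonneg_left h3 h2
    have := ih hm'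
    push_cast
    nlinarith

/-- the density of the tilted law -/
noncomputable def dens (H δ : Path S → ℝ) (t : ℕ) (ω : Path S) : ℝ :=
  Real.exp (∑ u ∈ Ico t (P.r + 1), P.m u * (Psi P H δ (u + 1) ω - Psi P H δ u ω))

omit [Nonempty S] in
lemma E_tilt (H δ : Path S → ℝ) (t : ℕ) (f : Path S → ℝ) (ω : Path S) :
    E P (fun x => H x + δ x) t ω f = E P H t ω fun x => dens P H δ t x * f x := by
  induction t using P.down generalizing ω with
  | h0 t ht => simp [E_top P _ ht, dens, Ico_eq_empty_of_le (show P.r + 1 ≤ t by omega)]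
  | hs t ht ih =>
    simp only [E_step P _ ht, ih, KK_apply]
    refine expect_congr rfl fun s _ => ?_
    have hm : Meas P (t + 1) fun x => Real.exp (P.m t * (Psi P H δ (t + 1) x - Psi P H δ t x)) :=
      Meas.map₂ (fun a b => Real.exp (P.m t * (a - b))) (Psi_meas P H δ _)
        ((Psi_meas P H δ t).mono (Nat.le_succ t))
    have e : (fun x => dens P H δ t x * f x) = fun x =>
        Real.exp (P.m t * (Psi P H δ (t + 1) x - Psi P H δ t x)) * (dens P H δ (t + 1) x * f x) := by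
      funext x
      rw [dens, dens, sum_eq_sum_Ico_succ_bot (by omega), Real.exp_add, mul_assoc]
    rw [e, E_mul_meas P H hm, ← mul_assoc]
    congr 1
    rw [rho, rho, ← Real.exp_add, Psi, Psi]; congr 1; ring

/-- first-order response -/
noncomputable def Lin (H : Path S → ℝ) (t : ℕ) (δ : Path S → ℝ) (ω : Path S) : ℝ :=
  ∑ u ∈ Ico t (P.r + 1), P.m u * (E P H (u + 1) ω δ - E P H u ω δ)

/-- the basic constant -/
def kap : ℝ := 2 * (P.r + 1)

lemma one_le_kap : 1 ≤ kap P := by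
  have : (0 : ℝ) ≤ P.r := Nat.cast_nonneg _
  unfold kap; linarith

omit [Fintype S] [Nonempty S] in
lemma sum_step_abs {t : ℕ} {g : ℕ → ℝ} {c : ℝ} (hc : 0 ≤ c) (hg : ∀ u, |g u| ≤ c) :
    |∑ u ∈ Ico t (P.r + 1), P.m u * (g (u + 1) - g u)| ≤ kap P * c := by
  refine (abs_sum_le_sum_abs _ _).trans ((sum_le_card_nsmul _ _ (2 * c) fun u _ => ?_).trans ?_)
  · rw [abs_mul, abs_of_pos (P.pos u)]
    have h1 : |g (u + 1) - g u| ≤ 2 * c := (abs_sub _ _).trans (by linarith [hg u, hg (u + 1)])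
    have := P.le_one u
    nlinarith [abs_nonneg (g (u + 1) - g u)]
  · rw [Nat.card_Ico, nsmul_eq_mul, kap]
    have : ((P.r + 1 - t : ℕ) : ℝ) ≤ P.r + 1 := by exact_mod_cast Nat.sub_le _ _
    nlinarith

lemma Psi_sub_E {H δ : Path S → ℝ} {η : ℝ} (hη : ∀ ω, |δ ω| ≤ η) (h1 : η ≤ 1) (t : ℕ)
    (ω : Path S) : |Psi P H δ t ω - E P H t ω δ| ≤ kap P * η ^ 2 := by
  have hk := one_le_kap P
  by_cases ht : t ≤ P.r + 1
  · have e : Psi P H δ (P.r + 1) = δ := funext (Psi_top P H δ (Nat.lt_succ_self _))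
    have a1 := Psi_ge P H δ ht ω
    have a2 := Psi_le P (H := H) hη ht (by rw [P.top _ (Nat.le_succ _)]; linarith) ω
    rw [e] at a1 a2
    rw [P.top _ (Nat.le_succ _)] at a2
    rw [abs_of_nonneg (by linarith)]
    have : (0 : ℝ) ≤ t := Nat.cast_nonneg _
    have : (0 : ℝ) ≤ P.r := Nat.cast_nonneg _
    push_cast at a2
    unfold kap
    nlinarith [sq_nonneg η]
  · rw [Psi_top P H δ (by omega), E_top P H (by omega), sub_self, abs_zero]
    positivity

lemma dens_sub_one {H δ : Path S → ℝ} {η : ℝ} (hη : ∀ ω, |δ ω| ≤ η) (h1 : kap P * η ≤ 1) (t : ℕ)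
    (ω : Path S) : |dens P H δ t ω - 1| ≤ 2 * kap P * η := by
  have h0 : 0 ≤ η := (abs_nonneg _).trans (hη ω)
  have h2 := sum_step_abs P (t := t) h0 fun u => Psi_abs P (H := H) hη u ω
  refine (Real.abs_exp_sub_one_le (h2.trans h1)).trans ?_
  linarith

lemma dens_sub_lin {H δ : Path S → ℝ} {η : ℝ} (hη : ∀ ω, |δ ω| ≤ η) (h1 : kap P * η ≤ 1) (t : ℕ)
    (ω : Path S) : |dens P H δ t ω - 1 - Lin P H t δ ω| ≤ 2 * kap P ^ 2 * η ^ 2 := by
  have hk := one_le_kap P
  have h0 : 0 ≤ η := (abs_nonneg _).trans (hη ω)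
  have h2 := sum_step_abs P (t := t) h0 fun u => Psi_abs P (H := H) hη u ω
  have h3 := Real.abs_exp_sub_one_sub_id_le (h2.trans h1)
  have h4 := sum_step_abs P (t := t) (g := fun u => Psi P H δ u ω - E P H u ω δ)
    (c := kap P * η ^ 2) (by positivity) fun u => Psi_sub_E P hη (by nlinarith) u ω
  set y := ∑ u ∈ Ico t (P.r + 1), P.m u * (Psi P H δ (u + 1) ω - Psi P H δ u ω) with hy
  have e : y - Lin P H t δ ω = ∑ u ∈ Ico t (P.r + 1), P.m u *
      ((Psi P H δ (u + 1) ω - E P H (u + 1) ω δ) - (Psi P H δ u ω - E P H u ω δ)) := by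
    rw [hy, Lin, ← sum_sub_distrib]
    exact sum_congr rfl fun u _ => by ring
  rw [← e] at h4
  have h5 : y ^ 2 ≤ (kap P * η) ^ 2 := by
    rw [← sq_abs]; exact pow_le_pow_left₀ (abs_nonneg _) h2 2
  have : dens P H δ t ω - 1 - Lin P H t δ ω = (Real.exp y - 1 - y) + (y - Lin P H t δ ω) := by
    rw [dens, ← hy]; ring
  rw [this]
  refine (abs_add_le _ _).trans ?_
  nlinarith

/-- stability of the tilted expectation -/
lemma E_stab {H δ : Path S → ℝ} {η : ℝ} (hη : ∀ ω, |δ ω| ≤ η) (h1 : kap P * η ≤ 1) (t : ℕ)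
    (f : Path S → ℝ) (ω : Path S) :
    |E P (fun x => H x + δ x) t ω f - E P H t ω f| ≤ 2 * kap P * η * E P H t ω fun x => |f x| := by
  rw [E_tilt, ← lin_sub, ← lin_mul]
  refine ((E_isP P H t ω).abs_le _).trans ((E_isP P H t ω).mono fun x => ?_)
  rw [← sub_one_mul, abs_mul]
  exact mul_le_mul_of_nonneg_right (dens_sub_one P hη h1 t x) (abs_nonneg _)

/-- first-order response of the tilted expectation -/
lemma E_resp {H δ : Path S → ℝ} {η : ℝ} (hη : ∀ ω, |δ ω| ≤ η) (h1 : kap P * η ≤ 1) (t : ℕ)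
    (f : Path S → ℝ) (ω : Path S) :
    |E P (fun x => H x + δ x) t ω f - E P H t ω f - E P H t ω (fun x => Lin P H t δ x * f x)| ≤
      2 * kap P ^ 2 * η ^ 2 * E P H t ω fun x => |f x| := by
  rw [E_tilt, ← lin_sub, ← lin_sub, ← lin_mul]
  refine ((E_isP P H t ω).abs_le _).trans ((E_isP P H t ω).mono fun x => ?_)
  rw [← sub_one_mul, ← sub_mul, abs_mul]
  exact mul_le_mul_of_nonneg_right (dens_sub_lin P hη h1 t x) (abs_nonneg _)

/-! ### products and transfer -/

section prod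
variable {L : Type} [Fintype L] {T : L → Type} [∀ l, Fintype (T l)] [∀ l, Nonempty (T l)]

/-- the maps `π l` are independent and uniform -/
def Indep (π : ∀ l, S → T l) : Prop :=
  ∀ g : ∀ l, T l → ℝ, 𝔼 s, ∏ l, g l (π l s) = ∏ l, 𝔼 y, g l y

omit [Nonempty S] in
lemma X_pi {π : ∀ l, S → T l} (hπ : Indep π) (H : ∀ l, Path (T l) → ℝ) (t : ℕ) (ω : Path S) :
    X P (fun x => ∑ l, H l (π l ∘ x)) t ω = ∑ l, X P (H l) t (π l ∘ ω) := by
  induction t using P.down generalizing ω with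
  | h0 t ht => simp only [X_top P _ ht]
  | hs t ht ih =>
    simp only [X_step P _ ht, stepX, ih, mul_sum, Real.exp_sum, comp_update]
    rw [hπ fun l y => Real.exp (P.m t * X P (H l) (t + 1) (update (π l ∘ ω) t y)),
      Real.log_prod fun l _ => (expect_exp_pos _).ne', sum_div]

omit [Nonempty S] in
lemma E_pi {π : ∀ l, S → T l} (hπ : Indep π) (H : ∀ l, Path (T l) → ℝ) (f : ∀ l, Path (T l) → ℝ)
    (t : ℕ) (ω : Path S) :
    E P (fun x => ∑ l, H l (π l ∘ x)) t ω (fun x => ∏ l, f l (π l ∘ x)) =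
      ∏ l, E P (H l) t (π l ∘ ω) (f l) := by
  induction t using P.down generalizing ω with
  | h0 t ht => simp only [E_top P _ ht]
  | hs t ht ih =>
    simp only [E_step P _ ht, ih, KK_apply, rho, X_pi P hπ, ← sum_sub_distrib, mul_sum,
      Real.exp_sum, ← prod_mul_distrib, comp_update]
    exact hπ fun l y => Real.exp (P.m t * (X P (H l) (t + 1) (update (π l ∘ ω) t y) -
      X P (H l) t (update (π l ∘ ω) t y))) * E P (H l) (t + 1) (update (π l ∘ ω) t y) (f l)

omit [Nonempty S] [∀ l, Nonempty (T l)] in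
lemma indep_pi [DecidableEq L] : Indep fun (l : L) (s : ∀ l, T l) => s l := by
  intro g
  simp only [Fintype.expect_eq_sum_div_card, prod_div_distrib, Fintype.prod_sum, Fintype.card_pi,
    Nat.cast_prod]

end prod

section prod2
variable {S₁ S₂ : Type} [Fintype S₁] [Fintype S₂] [Nonempty S₁] [Nonempty S₂]

/-- two independent uniform maps -/
def Indep₂ (π₁ : S → S₁) (π₂ : S → S₂) : Prop :=
  ∀ (g₁ : S₁ → ℝ) (g₂ : S₂ → ℝ), 𝔼 s, g₁ (π₁ s) * g₂ (π₂ s) = (𝔼 y, g₁ y) * 𝔼 y, g₂ y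

omit [Nonempty S] in
lemma X_prod {π₁ : S → S₁} {π₂ : S → S₂} (hπ : Indep₂ π₁ π₂) (H₁ : Path S₁ → ℝ)
    (H₂ : Path S₂ → ℝ) (t : ℕ) (ω : Path S) :
    X P (fun x => H₁ (π₁ ∘ x) + H₂ (π₂ ∘ x)) t ω = X P H₁ t (π₁ ∘ ω) + X P H₂ t (π₂ ∘ ω) := by
  induction t using P.down generalizing ω with
  | h0 t ht => simp only [X_top P _ ht]
  | hs t ht ih =>
    simp only [X_step P _ ht, stepX, ih, mul_add, Real.exp_add, comp_update]
    rw [hπ (fun y => Real.exp (P.m t * X P H₁ (t + 1) (update (π₁ ∘ ω) t y)))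
      (fun y => Real.exp (P.m t * X P H₂ (t + 1) (update (π₂ ∘ ω) t y))),
      Real.log_mul (expect_exp_pos _).ne' (expect_exp_pos _).ne', add_div]

omit [Nonempty S] in
lemma E_prod {π₁ : S → S₁} {π₂ : S → S₂} (hπ : Indep₂ π₁ π₂) (H₁ : Path S₁ → ℝ)
    (H₂ : Path S₂ → ℝ) (f₁ : Path S₁ → ℝ) (f₂ : Path S₂ → ℝ) (t : ℕ) (ω : Path S) :
    E P (fun x => H₁ (π₁ ∘ x) + H₂ (π₂ ∘ x)) t ω (fun x => f₁ (π₁ ∘ x) * f₂ (π₂ ∘ x)) =
      E P H₁ t (π₁ ∘ ω) f₁ * E P H₂ t (π₂ ∘ ω) f₂ := by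
  induction t using P.down generalizing ω with
  | h0 t ht => simp only [E_top P _ ht]
  | hs t ht ih =>
    simp only [E_step P _ ht, ih, KK_apply, rho, X_prod P hπ, comp_update]
    rw [← hπ (fun y => Real.exp (P.m t * (X P H₁ (t + 1) (update (π₁ ∘ ω) t y) -
      X P H₁ t (update (π₁ ∘ ω) t y))) * E P H₁ (t + 1) (update (π₁ ∘ ω) t y) f₁)
      (fun y => Real.exp (P.m t * (X P H₂ (t + 1) (update (π₂ ∘ ω) t y) -
      X P H₂ t (update (π₂ ∘ ω) t y))) * E P H₂ (t + 1) (update (π₂ ∘ ω) t y) f₂)]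
    refine expect_congr rfl fun s _ => ?_
    rw [add_sub_add_comm, mul_add, Real.exp_add]
    ring

omit [Nonempty S] [Nonempty S₁] [Nonempty S₂] in
lemma indep_prod : Indep₂ (Prod.fst : S₁ × S₂ → S₁) Prod.snd := by
  intro g₁ g₂
  rw [Fintype.expect_mul_expect, ← univ_product_univ, expect_product]

/-- a map preserving the uniform law -/
def Unif (π : S → S₁) : Prop := ∀ g : S₁ → ℝ, 𝔼 s, g (π s) = 𝔼 y, g y

omit [Nonempty S] [Nonempty S₁] in
lemma Unif.indep {π : S → S₁} (h : Unif π) : Indep₂ π fun _ => () := by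
  intro g₁ g₂
  rw [← expect_mul, h]; simp

omit [Nonempty S] [Nonempty S₁] in
lemma unif_equiv (e : S ≃ S₁) : Unif e := fun _ => Fintype.expect_equiv e _ _ fun _ => rfl

omit [Nonempty S] [Nonempty S₁] in
lemma Indep₂.unif {π₁ : S → S₁} {π₂ : S → S₂} (hπ : Indep₂ π₁ π₂) : Unif π₁ := fun g => by
  simpa using hπ g fun _ => 1

omit [Nonempty S] in
lemma X_unif {π : S → S₁} (hπ : Unif π) (H : Path S₁ → ℝ) (t : ℕ) (ω : Path S) :
    X P (fun x => H (π ∘ x)) t ω = X P H t (π ∘ ω) := by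
  simpa [X_const] using X_prod P hπ.indep H (fun _ => 0) t ω

omit [Nonempty S] in
lemma E_unif {π : S → S₁} (hπ : Unif π) (H f : Path S₁ → ℝ) (t : ℕ) (ω : Path S) :
    E P (fun x => H (π ∘ x)) t ω (fun x => f (π ∘ x)) = E P H t (π ∘ ω) f := by
  simpa [(E_isP P _ t _).one] using E_prod P hπ.indep H (fun _ => 0) f (fun _ => 1) t ω

end prod2

end Crest.Agent.R141
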