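import Crest.Agent.R141.Var2

/-! Row 141: the decoupling theorem. -/

set_option autoImplicit false
open Finset Function
open scoped BigOperators

namespace Crest.Agent.R141

open BT

lemma finite_SW (R s : ℕ) : {B : BT | SW R B ∧ B.size ≤ s}.Finite := by
  induction s with
  | zero => exact Set.finite_empty.subset fun B hB => absurd hB.2 (not_le.2 B.size_pos)
  | succ s ih =>
    refine ((((Set.finite_Iic R).prod (ih.prod ih)).image
      fun q => node q.1 q.2.1 q.2.2).insert leaf).subset ?_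
    rintro (_ | ⟨k, l, r⟩) ⟨h1, h2⟩
    · exact Or.inl rfl
    · have a1 := l.size_pos
      have a2 := r.size_pos
      simp only [size] at h2
      exact Or.inr ⟨(k, l, r), ⟨h1.2.1, ⟨h1.2.2.2.2.1, by simp only; omega⟩,
        ⟨h1.2.2.2.2.2, by simp only; omega⟩⟩, rfl⟩

lemma exists_pos_le {T : Type} [Fintype T] {f : T → ℝ} (hf : ∀ τ, 0 < f τ) :
    ∃ η > 0, ∀ τ, η ≤ f τ := by
  have h0 : 0 ≤ ∑ τ, (f τ)⁻¹ := sum_nonneg fun τ _ => (inv_pos.2 (hf τ)).le
  refine ⟨(∑ τ, (f τ)⁻¹ + 1)⁻¹, by positivity, fun τ => inv_le_of_inv_le₀ (hf τ) ?_⟩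
  have := single_le_sum (f := fun τ => (f τ)⁻¹) (fun τ _ => (inv_pos.2 (hf τ)).le) (mem_univ τ)
  linarith

theorem sys_dec (P : Par) (hp : ∀ k, 1 ≤ k → k ≤ P.r → 0 < pw P k) (hm : ∀ a, 1 ≤ kap P * P.m a)
    (s : ℕ) {ε : ℝ} (hε : 0 < ε) :
    ∃ (Λ : Type) (_ : Fintype Λ) (_ : DecidableEq Λ) (pert : Path (Z Λ) → ℝ) (N₀ : ℕ),
      (∀ ω, |pert ω| ≤ ε) ∧ ∀ (N : ℕ) [NeZero N], N₀ ≤ N → ∀ G ω₀ B x, SW P.r B → B.size ≤ s →
        Dec1 P (sysH P pert G) ω₀ (fun (i : Fin N) b ω => ind P.r b ((fun s => s i) ∘ ω))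
          4 ε B x := by
  classical
  have := (finite_SW P.r s).to_subtype
  let T := Σ B : {B : BT | SW P.r B ∧ B.size ≤ s}, (B.1.Lf → Bool)
  let _ : Fintype T := Fintype.ofFinite T
  let Λ := Σ τ : T, Option τ.1.1.Nd
  have hκ := one_le_kap P
  obtain ⟨ε₁, hε₁⟩ : ∃ ε₁ : ℝ, ε₁ = min ε 1 / (13 + 48 * kap P * s + 2 * Fintype.card T) := ⟨_, rfl⟩
  have hε₁0 : 0 < ε₁ := by rw [hε₁]; positivity
  have hε₁1 : (13 + 48 * kap P * s + 2 * Fintype.card T) * ε₁ = min ε 1 := by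
    rw [hε₁]; field_simp
  have hm1 := min_le_left ε 1
  have hm2 := min_le_right ε 1
  have q1 : 0 ≤ kap P * s * ε₁ := by positivity
  have q2 : 0 ≤ Fintype.card T * ε₁ := by positivity
  have hG := fun τ : T => gadget P (Λ := Λ) hp τ.1.1 τ.1.2.1 τ.2 (fun v => ⟨τ, some v⟩)
    (fun a b hab => by simpa [Λ] using hab) hε₁0
  choose h δ c G using hG
  obtain ⟨η, hη, hη'⟩ := exists_pos_le (f := fun τ => min (ε₁ / kap P)
    (min (c τ * ε₁ / kap P ^ 2) (c τ ^ 2 * ε₁ / (58 * kap P ^ 3)))) fun τ => by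
      have := (G τ).cpos
      positivity
  simp only [le_min_iff] at hη'
  have η1 : ∀ τ : T, kap P * η ≤ ε₁ := fun τ => (le_div_iff₀' (by positivity)).1 (hη' τ).1
  have η2 : ∀ τ : T, kap P ^ 2 * η ≤ c τ * ε₁ := fun τ =>
    (le_div_iff₀' (by positivity)).1 (hη' τ).2.1
  have η3 : ∀ τ : T, 58 * kap P ^ 3 * η ≤ c τ ^ 2 * ε₁ := fun τ =>
    (le_div_iff₀' (by positivity)).1 (hη' τ).2.2
  obtain ⟨q, hq⟩ : ∃ q : T → Path (Z Λ) → ℝ, q = fun τ ω => δ τ ω +
    ∑ t ∈ range (P.r + 1), η * sgnZ (⟨τ, none⟩ : Λ) (ω t) * h τ ω := ⟨_, rfl⟩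
  obtain ⟨N₀, hN₀⟩ := exists_nat_ge (17 / η ^ 4)
  refine ⟨Λ, inferInstance, inferInstance, fun ω => ∑ τ, q τ ω, N₀, fun ω => ?_, ?_⟩
  · refine (abs_sum_le_sum_abs _ _).trans ((sum_le_card_nsmul _ _ (2 * ε₁) fun τ _ => ?_).trans ?_)
    · rw [hq]
      refine (abs_add_le _ _).trans ?_
      have a1 : |∑ t ∈ range (P.r + 1), η * sgnZ (⟨τ, none⟩ : Λ) (ω t) * h τ ω| ≤
          kap P * η / 2 := by
        refine (abs_sum_le_sum_abs _ _).trans ((sum_le_card_nsmul _ _ η fun t _ => ?_).trans_eq ?_)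
        · rw [abs_mul, abs_mul, sgnZ_abs, abs_of_pos hη, mul_one]
          exact mul_le_of_le_one_right hη.le ((G τ).hh _)
        · rw [card_range, nsmul_eq_mul, kap]; push_cast; ring
      linarith [(G τ).hδ ω, η1 τ]
    · rw [card_univ, nsmul_eq_mul]; nlinarith
  intro N _ hN F ω₀ B x hB hs
  let τ : T := ⟨⟨B, hB, hs⟩, x⟩
  have hπ : ∀ (i : Fin N) (v : Λ) (s : Fin N → Z Λ), update s i (flipZ v (s i)) i = flipZ v (s i) :=
    fun i v s => update_self _ _ _
  have hπ' : ∀ (i i' : Fin N), i' ≠ i → ∀ (v : Λ) (s : Fin N → Z Λ),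
      update s i (flipZ v (s i)) i' = s i' := fun i i' hi v s => update_of_ne hi _ _
  obtain ⟨Inc, a1, a2, a3⟩ := dec_one P (π := fun (i : Fin N) (s : Fin N → Z Λ) => s i)
    (φ := fun i v s => update s i (flipZ v (s i)))
    (fun i v => unif_equiv (Involutive.toPerm (fun s : Fin N → Z Λ => update s i (flipZ v (s i)))
      fun s => by simp [flipZ])) hπ hπ' hB (G τ)
    (v₀ := ⟨τ, none⟩) (by rintro ⟨v, hv⟩; simp [Λ] at hv) (H := sysH P (fun ω => ∑ τ, q τ ω) F)
    (fun i v hv u => by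
      have hv1 : v.1 = τ := by
        rcases hv with ⟨v, rfl⟩ | rfl <;> rfl
      have e : (fun ω : Path (Fin N → Z Λ) => sysH P (fun ω => ∑ τ, q τ ω) F ω -
          (δ τ ((fun s => s i) ∘ ω) + ∑ t ∈ range (P.r + 1),
            η * sgnZ (⟨τ, none⟩ : Λ) (ω t i) * h τ ((fun s => s i) ∘ ω))) = fun ω =>
          F (fun i => (ω P.r i).1) + ∑ i' ∈ univ.erase i, ∑ τ', q τ' ((fun s => s i') ∘ ω) +
            ∑ τ' ∈ univ.erase τ, q τ' ((fun s => s i) ∘ ω) := by
        funext ω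
        rw [sysH, ← add_sum_erase _ _ (mem_univ i), ← add_sum_erase _ _ (mem_univ τ)]
        simp only [hq, comp_def]
        ring
      rw [e]
      refine Inv.add (Inv.add (fun ω => ?_) (Inv.sum _ fun i' hi' ω => ?_))
        (Inv.sum _ fun τ' hτ' => Inv.lift (hπ i v) ?_)
      · congr 1; funext i'
        by_cases hu : P.r = u
        · subst hu
          rw [fl_apply_self]
          by_cases hi : i' = i
          · subst hi; rw [hπ]; rfl
          · rw [hπ' i i' hi]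
        · rw [fl_apply_ne hu]
      · simp only [fl, comp_update, hπ' i i' (ne_of_mem_erase hi')]
        rw [show ω u i' = ((fun s => s i') ∘ ω) u from rfl, update_eq_self]
      · have b1 : v ∉ Set.range fun v => (⟨τ', some v⟩ : Λ) := by
          rintro ⟨v, rfl⟩; exact ne_of_mem_erase hτ' hv1
        have b2 : (⟨τ', none⟩ : Λ) ≠ v := by
          rintro rfl; exact ne_of_mem_erase hτ' hv1
        rw [hq]
        exact ((G τ').invδ v b1 u).add (Inv.sum _ fun t _ =>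
          ((Inv.const η).mul (inv_sgn_ne b2 u t)).mul ((G τ').invh v b1 u)))
    hη (η2 τ) (η1 τ) (η3 τ) hs (by linarith) hm (by
      rw [Fintype.card_fin]
      exact (div_le_iff₀' (by positivity)).1 (hN₀.trans (by exact_mod_cast hN))) ω₀
  exact ⟨Inc, a1, a2, fun a h1 h2 w hw ω => (a3 a h1 h2 w hw ω).trans (by linarith)⟩

lemma abs_prod_sub_prod_dc {L : Type} (s : Finset L) {a b : L → ℝ} (ha : ∀ l, |a l| ≤ 1)
    (hb : ∀ l, |b l| ≤ 1) : |∏ l ∈ s, a l - ∏ l ∈ s, b l| ≤ ∑ l ∈ s, |a l - b l| := by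
  classical
  induction s using Finset.induction_on with
  | empty => simp
  | insert l s hl ih =>
    rw [prod_insert hl, prod_insert hl, sum_insert hl]
    refine (abs_mul_sub_mul ?_ (hb l)).trans (add_le_add le_rfl ih)
    rw [abs_prod]
    exact prod_le_one (fun _ _ => abs_nonneg _) fun _ _ => ha _

lemma Vr_nonneg {A : Type*} {Λ : (A → ℝ) →ₗ[ℝ] ℝ} (h : IsP Λ) (f : A → ℝ) : 0 ≤ Vr Λ f :=
  sub_nonneg.2 (h.sq_le f)

lemma prod_decouple {A : Type*} {Λ : (A → ℝ) →ₗ[ℝ] ℝ} (h : IsP Λ) {L : Type} [Fintype L]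
    {Y : L → A → ℝ} (hY : ∀ l x, |Y l x| ≤ 1) {θ : ℝ} (hθ : 0 < θ) :
    |Λ (fun x => ∏ l, Y l x) - ∏ l, Λ (Y l)| ≤ ∑ l, (θ + θ⁻¹ * Vr Λ (Y l)) := by
  rw [← h.const (∏ l, Λ (Y l)), ← lin_sub]
  refine (h.abs_le _).trans ((h.mono (g := fun x => ∑ l, (θ + θ⁻¹ * (Y l x - Λ (Y l)) ^ 2))
    fun x => (abs_prod_sub_prod_dc _ (fun l => hY l x) fun l => h.abs_le_of (hY l)).trans
      (sum_le_sum fun l _ => abs_le_theta _ hθ)).trans_eq ?_)
  simp only [lin_sum, lin_add, lin_mul, h.const, sub_sq, lin_sub, lin_mul', Vr]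
  exact sum_congr rfl fun l _ => by ring

lemma pat_expand {J L : Type} [Fintype J] [DecidableEq J] [Fintype L] [DecidableEq L]
    (F : (J → L → Bool) → ℝ) (σ : J → L → Bool) :
    F σ = ∑ x : J → L → Bool, F x * ∏ l, ∏ j, if σ j l = x j l then 1 else 0 := by
  rw [sum_eq_single σ]
  · simp
  · intro x _ hx
    obtain ⟨j, hj⟩ := ne_iff.1 hx
    obtain ⟨l, hl⟩ := ne_iff.1 hj
    rw [prod_eq_zero (mem_univ l) (prod_eq_zero (mem_univ j) (if_neg (Ne.symm hl))), mul_zero]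
  · simp

lemma tree_decouple (P : Par) {Λ : Type} [Fintype Λ] [DecidableEq Λ] {N : ℕ} [NeZero N]
    (H : Path (Fin N → Z Λ) → ℝ) {L : Type} [Fintype L] [DecidableEq L] {D : (L → Bool) → ℝ}
    (hD : ∀ s, |D s| ≤ 1) (a : ℕ) (A : BT) (ω : Path (Fin N → Z Λ)) {θ : ℝ} (hθ : 0 < θ) :
    |(𝔼 idx : L → Fin N, E P H a ω (mom P H A fun _ x => D fun l => (x P.r (idx l)).1)) -
      𝔼 ι : L → Fin N, E P (fun x : Path (L → Fin N → Z Λ) => ∑ l, H fun t => x t l) a
        (fun t _ => ω t) (mom P (fun x : Path (L → Fin N → Z Λ) => ∑ l, H fun t => x t l) A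
          fun _ x => D fun l => (x P.r l (ι l)).1)| ≤
      2 ^ (A.size * Fintype.card L) * (Fintype.card L * (θ + θ⁻¹ * ∑ x, Vr (nuE P H a A ω)
        (YY (fun (i : Fin N) b ω => ind P.r b ((fun s => s i) ∘ ω)) A x fun _ => 1))) := by
  obtain ⟨y, hy⟩ : ∃ y : Fin N → Bool → Path (Fin N → Z Λ) → ℝ,
    y = fun (i : Fin N) b ω => ind P.r b ((fun s => s i) ∘ ω) := ⟨_, rfl⟩
  have hy' : ∀ i b ω, y i b ω = if (ω P.r i).1 = b then 1 else 0 := fun i b ω => by rw [hy]; rfl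
  have hy1 : ∀ i b ω, |y i b ω| ≤ 1 := fun i b ω => by rw [hy]; exact ind_abs _ _ _
  rw [← hy]
  have hΛ := nuE_isP P H a A ω
  have e1 : (𝔼 idx : L → Fin N, E P H a ω (mom P H A fun _ x => D fun l => (x P.r (idx l)).1)) =
      ∑ x : A.Lf → L → Bool, (∏ j, D (x j)) *
        nuE P H a A ω fun ξ => ∏ l, YY y A (fun j => x j l) (fun _ => 1) ξ := by
    simp only [← nuE_prod, ← lin_expect, ← lin_mul, ← lin_sum]
    congr 1; funext ξ
    simp only [YY, one_mul, hy']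
    rw [expect_congr rfl fun idx _ => pat_expand (fun x : A.Lf → L → Bool => ∏ j, D (x j))
      fun j l => (ξ j P.r (idx l)).1, expect_sum_comm]
    refine sum_congr rfl fun x _ => ?_
    rw [← mul_expect, indep_pi (T := fun _ : L => Fin N)
      fun l i => ∏ j, if (ξ j P.r i).1 = x j l then (1 : ℝ) else 0]
  have e2 : (𝔼 ι : L → Fin N, E P (fun x : Path (L → Fin N → Z Λ) => ∑ l, H fun t => x t l) a
        (fun t _ => ω t) (mom P (fun x : Path (L → Fin N → Z Λ) => ∑ l, H fun t => x t l) A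
          fun _ x => D fun l => (x P.r l (ι l)).1)) =
      ∑ x : A.Lf → L → Bool, (∏ j, D (x j)) *
        ∏ l, nuE P H a A ω (YY y A (fun j => x j l) fun _ => 1) := by
    have e3 : ∀ ι : L → Fin N, E P (fun x : Path (L → Fin N → Z Λ) => ∑ l, H fun t => x t l) a
        (fun t _ => ω t) (mom P (fun x : Path (L → Fin N → Z Λ) => ∑ l, H fun t => x t l) A
          fun _ x => D fun l => (x P.r l (ι l)).1) = ∑ x : A.Lf → L → Bool, (∏ j, D (x j)) *
            ∏ l, nuE P H a A ω fun ξ => ∏ j, y (ι l) (x j l) (ξ j) := by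
      intro ι
      rw [← nuE_prod]
      simp only [pat_expand (fun x : A.Lf → L → Bool => ∏ j, D (x j))
        fun j l => ((_ : A.Lf → Path (L → Fin N → Z Λ)) j P.r l (ι l)).1, lin_sum, lin_mul]
      refine sum_congr rfl fun x _ => congrArg _ ?_
      simp only [hy']
      exact nuE_pi P (indep_pi (T := fun _ : L => Fin N → Z Λ)) (fun _ => H) a A
        (fun l ξ => ∏ j, if (ξ j P.r (ι l)).1 = x j l then (1 : ℝ) else 0) fun t _ => ω t
    simp only [e3]
    rw [expect_sum_comm]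
    refine sum_congr rfl fun x _ => ?_
    rw [← mul_expect, indep_pi (T := fun _ : L => Fin N)
      fun l i => nuE P H a A ω fun ξ => ∏ j, y i (x j l) (ξ j)]
    unfold YY
    simp only [one_mul, lin_expect]
  rw [e1, e2, ← sum_sub_distrib]
  refine (abs_sum_le_sum_abs _ _).trans ((sum_le_card_nsmul _ _ (Fintype.card L *
    (θ + θ⁻¹ * ∑ x, Vr (nuE P H a A ω) (YY y A x fun _ => 1))) fun x _ => ?_).trans_eq ?_)
  · rw [← mul_sub, abs_mul, abs_prod]
    refine (mul_le_of_le_one_left (abs_nonneg _)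
      (prod_le_one (fun _ _ => abs_nonneg _) fun _ _ => hD _)).trans ?_
    refine (prod_decouple hΛ (fun l ξ => abs_expect_w (fun _ => abs_one.le) fun i => ?_) hθ).trans
      ((sum_le_card_nsmul _ _ (θ + θ⁻¹ * ∑ x, Vr (nuE P H a A ω) (YY y A x fun _ => 1))
        fun l _ => ?_).trans_eq (nsmul_eq_mul _ _))
    · rw [abs_prod]
      exact prod_le_one (fun _ _ => abs_nonneg _) fun _ _ => hy1 _ _ _
    · exact add_le_add le_rfl (mul_le_mul_of_nonneg_left (single_le_sum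
        (f := fun x => Vr (nuE P H a A ω) (YY y A x fun _ => 1)) (fun _ _ => Vr_nonneg hΛ _)
        (mem_univ _)) (by positivity))
  · simp only [card_univ, Fintype.card_fun, card_Lf, Fintype.card_bool, nsmul_eq_mul, pow_mul']
    push_cast; rfl

/-- the uniform ladder of exponents -/
noncomputable def uPar (r : ℕ) : Par where
  r := r
  m t := ((min t r : ℕ) + 1) / (r + 1)
  pos t := by positivity
  mono a b h := by
    have : ((min a r : ℕ) : ℝ) ≤ (min b r : ℕ) := by exact_mod_cast min_le_min_right r h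
    simp only
    gcongr
  top t ht := by rw [min_eq_right ht]; exact div_self (by positivity)

lemma uPar_m (r t : ℕ) : (uPar r).m t = ((min t r : ℕ) + 1) / (r + 1) := rfl

theorem decouple : DecoupleStmt := by
  intro L₀ B ε hB hε
  obtain ⟨d, hd⟩ : ∃ d, d = 1 - Real.exp (-(2 * B)) := ⟨_, rfl⟩
  have hd0 : 0 ≤ d := by rw [hd, sub_nonneg, Real.exp_le_one_iff]; linarith
  have hd1 : d < 1 := by rw [hd]; linarith [Real.exp_pos (-(2 * B))]
  obtain ⟨n, hn⟩ : ∃ n : ℕ, d ^ (n + 1) / (1 - d) ≤ ε / 4 := by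
    obtain ⟨n, hn⟩ := exists_pow_lt_of_lt_one (x := ε / 4 * (1 - d)) (by
      have := sub_pos.2 hd1; positivity) hd1
    refine ⟨n, (div_le_iff₀ (sub_pos.2 hd1)).2 ?_⟩
    rw [pow_succ]
    exact (mul_le_of_le_one_right (by positivity) hd1.le).trans hn.le
  have hC := fun j : Fin n => var_small j n j.2
  choose C hC0 hC using hC
  obtain ⟨C', hC'⟩ : ∃ C', C' = ∑ j, C j := ⟨_, rfl⟩
  have hC'0 : 0 ≤ C' := hC' ▸ sum_nonneg fun j _ => hC0 j
  obtain ⟨K, hK⟩ : ∃ K : ℝ, K = 2 ^ (n * L₀) * L₀ := ⟨_, rfl⟩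
  have hK0 : 0 ≤ K := by rw [hK]; positivity
  obtain ⟨θ', hθ', hθ'1⟩ : ∃ θ' > 0, n * K * θ' ≤ ε / 4 :=
    ⟨ε / 4 / (n * K + 1), by positivity, by
      rw [← mul_div_assoc, div_le_iff₀ (by positivity)]; nlinarith⟩
  obtain ⟨M, hM⟩ : ∃ M, M = K * θ'⁻¹ * C' := ⟨_, rfl⟩
  have hM0 : 0 ≤ M := by rw [hM]; positivity
  obtain ⟨θ, hθ, hθ1⟩ : ∃ θ > 0, (M + 1) * θ ≤ ε / 16 :=
    ⟨ε / 16 / (M + 1), by positivity, by rw [mul_div_cancel₀ _ (by positivity)]⟩
  obtain ⟨J, hJ⟩ := exists_nat_gt (M * (4 + θ⁻¹ + 1) / (ε / 8))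
  have hJ0 : (0 : ℝ) < J := lt_of_le_of_lt (by positivity) hJ
  rw [div_lt_iff₀ (by positivity)] at hJ
  obtain ⟨r, hr⟩ := exists_nat_ge (J + (J + 1) * B + J * ((J + 1) * B ^ 2) / ε)
  have r0 : 0 ≤ (J + 1) * B := by positivity
  have r1 : 0 ≤ J * ((J + 1) * B ^ 2) / ε := by positivity
  have hJr : J ≤ r := by exact_mod_cast (by linarith : (J : ℝ) ≤ r)
  have hr0 : (0 : ℝ) < r + 1 := by positivity
  obtain ⟨Λ, _, _, pert, N₀, hpert, hdec⟩ := sys_dec (uPar r) (fun k h1 (h2 : k ≤ r) => by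
      have : ((k - 1 : ℕ) : ℝ) < k := by exact_mod_cast Nat.sub_one_lt_of_le h1 le_rfl
      rw [pw, uPar_m, uPar_m, min_eq_left h2, min_eq_left ((Nat.sub_le _ _).trans h2), sub_pos]
      gcongr)
    (fun a => by
      rw [uPar_m, kap, show (uPar r).r = r from rfl, mul_assoc, mul_div_cancel₀ _ hr0.ne']
      have : (0 : ℝ) ≤ (min a r : ℕ) := Nat.cast_nonneg _
      linarith) n hθ
  refine ⟨uPar r, J, Λ → Bool, inferInstance, inferInstance, pert, N₀, by exact_mod_cast hJ0, hJr,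
    fun a (ha : a ≤ r) b (hb : b ≤ r) hab => ?_, ?_, ?_, fun ω => (hpert ω).trans (by nlinarith), ?_⟩
  · have : (a : ℝ) < b := by exact_mod_cast hab
    rw [uPar_m, uPar_m, min_eq_left ha, min_eq_left hb]
    gcongr
  · rw [uPar_m, min_eq_left hJr, div_mul_eq_mul_div, div_le_one hr0]; linarith
  · rw [uPar_m, min_eq_left hJr, div_mul_eq_mul_div, ← mul_div_assoc, div_le_iff₀' hr0,
      ← div_le_iff₀ hε]
    linarith
  intro N _ hN G L _ _ hL v hv ω₀
  have hpw : ∀ k, pw (uPar r) k ≤ 1 / ((uPar r).r + 1) := fun k => by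
    have : ((min k r : ℕ) : ℝ) ≤ (min (k - 1) r : ℕ) + 1 := by exact_mod_cast (by omega)
    rw [pw, uPar_m, uPar_m, ← sub_div]
    exact div_le_div_of_nonneg_right (by linarith) hr0.le
  have hdec' := hdec N hN G ω₀
  have hJr' : J ≤ (uPar r).r := hJr
  generalize uPar r = P at *
  generalize sysH P pert G = H at *
  obtain ⟨D, hD⟩ : ∃ D : (L → Bool) → ℝ, D = fun s => Real.exp (v s - B) - 1 := ⟨_, rfl⟩
  have hDd : ∀ s, |D s| ≤ d := fun s => by
    have a1 : Real.exp (v s - B) ≤ 1 := Real.exp_le_one_iff.2 (by linarith [(abs_le.1 (hv s)).2])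
    have a2 : Real.exp (-(2 * B)) ≤ Real.exp (v s - B) :=
      Real.exp_le_exp.2 (by linarith [(abs_le.1 (hv s)).1])
    rw [hD, hd, abs_le]; constructor <;> simp only <;> linarith
  have hv' : v = fun s => Real.log (1 + D s) + B := by funext s; simp [hD]
  obtain ⟨V, hV⟩ : ∃ V : ℕ → BT → Path (Fin N → Z Λ) → ℝ, V = fun a A ω => ∑ x, Vr (nuE P H a A ω)
    (YY (fun (i : Fin N) b ω => ind P.r b ((fun s => s i) ∘ ω)) A x fun _ => 1) := ⟨_, rfl⟩
  have key : ∀ a ≤ P.r, ∀ ω, |(𝔼 idx : L → Fin N,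
      Psi P H (fun x => v fun l => (x P.r (idx l)).1) a ω) - TV (sysTrial P a H ω) L v| ≤
      ε / 2 + ∑ j : Fin n, (K * θ' + K * θ'⁻¹ * Q P a j fun A => V a A ω) := by
    intro a ha ω
    have x1 := (avg_isP (L → Fin N)).abs_sub_le fun idx =>
      (expansion P H (fun x => D fun l => (x P.r (idx l)).1) (fun _ => hDd _) hd1 ha ω n).trans hn
    have x2 := (avg_isP (L → Fin N)).abs_sub_le fun ι =>
      (expansion P (fun x : Path (L → Fin N → Z Λ) => ∑ l, H fun t => x t l)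
        (fun x => D fun l => (x P.r l (ι l)).1) (fun _ => hDd _) hd1 ha (fun t _ => ω t) n).trans hn
    simp only [lin_sum, lin_mul, Q_lin] at x1 x2
    have x3 : ∀ j ∈ range n, |(-1) ^ j / (j + 1) * Q P a j (fun A => avg (L → Fin N) fun idx =>
        E P H a ω (mom P H A fun _ x => D fun l => (x P.r (idx l)).1)) -
        (-1) ^ j / (j + 1) * Q P a j (fun A => avg (L → Fin N) fun ι =>
        E P (fun x : Path (L → Fin N → Z Λ) => ∑ l, H fun t => x t l) a (fun t _ => ω t)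
          (mom P (fun x : Path (L → Fin N → Z Λ) => ∑ l, H fun t => x t l) A
            fun _ x => D fun l => (x P.r l (ι l)).1))| ≤
        K * θ' + K * θ'⁻¹ * Q P a j fun A => V a A ω := by
      intro j hj
      rw [← mul_sub, abs_mul, abs_div, abs_pow, abs_neg, abs_one, one_pow, ← lin_sub,
        ← Q_const P ha j (K * θ'), ← lin_mul, ← lin_add]
      refine (mul_le_of_le_one_left (abs_nonneg _) ((div_le_one (by positivity)).2 ?_)).trans
        (Q_abs_le P ha j fun A _ hs => ?_)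
      · rw [abs_of_pos (by positivity)]; simp
      refine (tree_decouple P H (fun s => (hDd s).trans hd1.le) a A ω hθ').trans ?_
      rw [← mul_assoc, mul_assoc K, ← mul_add, hV, hK]
      refine mul_le_mul_of_nonneg_right (mul_le_mul (pow_le_pow_right₀ one_le_two
        (Nat.mul_le_mul (hs.trans_le (mem_range.1 hj)) hL)) (by exact_mod_cast hL)
        (by positivity) (by positivity)) (add_nonneg hθ'.le (mul_nonneg (by positivity)
          (sum_nonneg fun _ _ => Vr_nonneg (nuE_isP P H a A ω) _)))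
    have x4 := (abs_sum_le_sum_abs _ _).trans (sum_le_sum x3)
    rw [sum_sub_distrib, sum_range (n := n) fun j => K * θ' + _] at x4
    have e : (𝔼 idx : L → Fin N, Psi P H (fun x => v fun l => (x P.r (idx l)).1) a ω) -
        TV (sysTrial P a H ω) L v = avg (L → Fin N) (fun idx => Psi P H
          (fun x => Real.log (1 + D fun l => (x P.r (idx l)).1)) a ω) - avg (L → Fin N) fun ι =>
          Psi P (fun x : Path (L → Fin N → Z Λ) => ∑ l, H fun t => x t l)
            (fun x => Real.log (1 + D fun l => (x P.r l (ι l)).1)) a fun t _ => ω t := by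
      rw [hv', TV]
      simp only [Psi_add_const, expect_add_distrib, Fintype.expect_const, add_sub_add_right_eq_sub]
      rfl
    rw [e]
    rw [abs_le] at x1 x2 x4 ⊢
    constructor <;> linarith [x1.1, x1.2, x2.1, x2.2, x4.1, x4.2]
  have hE := E_isP P H 0 ω₀
  rw [Fintype.expect_eq_sum_div_card, Fintype.card_fin, div_le_iff₀ hJ0]
  refine (sum_le_sum fun (a : Fin J) _ => hE.mono (key a ((le_of_lt a.2).trans hJr'))).trans ?_
  simp only [lin_add, lin_sum, lin_mul, hE.const, Q_lin, sum_add_distrib, sum_const, card_univ,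
    Fintype.card_fin, nsmul_eq_mul, ← mul_sum]
  rw [sum_comm]
  have y1 : ∑ j : Fin n, ∑ a : Fin J, Q P a j (fun A => E P H 0 ω₀ fun ω => V a A ω) ≤
      C' * (J * (θ + θ) + (4 + θ⁻¹ + 1)) := by
    rw [hC', sum_mul]
    refine sum_le_sum fun j _ => ?_
    have := hC j P hpw _ H ω₀ (Fin N) _ (fun _ _ _ => ind_abs _ _ _) θ θ 4 hθ hθ.le (by norm_num)
      hdec' J (by omega)
    rw [sum_range] at this
    simpa only [hV, lin_sum] using this
  have y2 := mul_le_mul_of_nonneg_left y1 (by positivity : 0 ≤ K * θ'⁻¹)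
  rw [← mul_assoc, ← hM] at y2
  have y3 := mul_le_mul_of_nonneg_left hθ'1 hJ0.le
  have y4 := mul_le_mul_of_nonneg_left hθ1 hJ0.le
  have y5 : 0 ≤ J * θ := by positivity
  nlinarith

end Crest.Agent.R141
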