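import Crest.Agent.R141.Gadget

/-! Row 141: fresh random strengths at every level reveal all macroscopic future fluctuations of
the response in a single step. -/

set_option autoImplicit false
open Finset Function
open scoped BigOperators

namespace Crest.Agent.R141

variable {S : Type} [Fintype S] [Nonempty S] (P : Par)

lemma Lin_abs (H : Path S → ℝ) (t : ℕ) {g : Path S → ℝ} {c : ℝ} (hg : ∀ x, |g x| ≤ c)
    (ω : Path S) : |Lin P H t g ω| ≤ kap P * c :=
  sum_step_abs P ((abs_nonneg _).trans (hg ω)) fun u => (E_isP P H u ω).abs_le_of hg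

lemma resp_odd {φ : S → S} (hφ : Unif φ) {z : S → ℝ} (hz : ∀ s, z (φ s) = -z s)
    (hz2 : ∀ s, z s * z s = 1) {j : ℕ} (hj : j ≤ P.r) {H h f : Path S → ℝ} {η : ℝ} (hη : 0 ≤ η)
    (hη1 : kap P * η ≤ 1) (hh : ∀ x, |h x| ≤ 1) (ih : Inv φ j h)
    (iH : Inv φ j fun x => H x - η * z (x j) * h x) (hf : Inv φ j f) (ω : Path S) :
    |E P H j ω (fun x => z (x j) * f x) -
      η * E P H j ω fun x => (Lin P H j h x + P.m j * E P H j x h) * f x| ≤
      14 * kap P ^ 2 * η ^ 2 * E P H j ω fun x => |f x| := by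
  have hκ := one_le_kap P
  have hza : ∀ s, |z s| = 1 := fun s => by
    have := congrArg abs (hz2 s)
    rw [abs_mul, abs_one] at this
    nlinarith [abs_nonneg (z s)]
  obtain ⟨H', hH'⟩ : ∃ H' : Path S → ℝ, H' = fun x => H x - η * z (x j) * h x := ⟨_, rfl⟩
  rw [← hH'] at iH
  have hδ : ∀ x, |η * z (x j) * h x| ≤ η := fun x => by
    rw [abs_mul, abs_mul, hza, abs_of_nonneg hη, mul_one]
    exact mul_le_of_le_one_right hη (hh x)
  have e1 : (fun x => H' x + η * z (x j) * h x) = H := by funext x; simp [hH']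
  have e2 : (fun x => H x + -(η * z (x j) * h x)) = H' := by funext x; simp [hH', sub_eq_add_neg]
  have r1 := E_resp P (H := H') hδ hη1 j (fun x => z (x j) * f x) ω
  rw [e1, E_sign_mul P hφ iH hf hj hz, if_neg (lt_irrefl j), mul_zero, sub_zero] at r1
  have r2 : ∀ x, Lin P H' j (fun x => η * z (x j) * h x) x * (z (x j) * f x) =
      η * ((Lin P H' j h x + P.m j * E P H' j x h) * f x) := by
    intro x
    have a1 : ∀ u, E P H' u x (fun x => η * z (x j) * h x) =
        η * (z (x j) * if j < u then E P H' u x h else 0) := by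
      intro u
      rw [← E_sign_mul P hφ iH ih hj hz, ← lin_mul]
      simp only [mul_assoc]
    have a2 : Lin P H' j (fun x => η * z (x j) * h x) x =
        η * z (x j) * (Lin P H' j h x + P.m j * E P H' j x h) := by
      rw [Lin_step P _ hj, Lin_step P _ hj, Lin, Lin]
      simp only [a1, lt_irrefl, Nat.lt_succ_self, if_true, if_false]
      rw [sum_congr rfl (g := fun u => η * z (x j) * (P.m u * (E P H' (u + 1) x h - E P H' u x h)))
        fun u hu => by
          have := (mem_Ico.1 hu).1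
          rw [if_pos (by omega), if_pos (by omega)]; ring, ← mul_sum]
      ring
    rw [a2]
    linear_combination (η * (Lin P H' j h x + P.m j * E P H' j x h) * f x) * hz2 (x j)
  simp only [r2, lin_mul, abs_mul, hza, one_mul] at r1
  have hδ' : ∀ x, |-(η * z (x j) * h x)| ≤ η := fun x => by rw [abs_neg]; exact hδ x
  have hA : 0 ≤ E P H j ω fun x => |f x| := (E_isP P H j ω).nonneg _ fun _ => abs_nonneg _
  have r3 := E_stab P (H := H) hδ' hη1 j (fun x => |f x|) ω
  simp only [e2, abs_abs] at r3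
  have r4 := E_stab P (H := H) hδ' hη1 j
    (fun x => (Lin P H' j h x + P.m j * E P H' j x h) * f x) ω
  rw [e2] at r4
  have hG : ∀ u x, |E P H' u x h - E P H u x h| ≤ 2 * kap P * η := fun u x => by
    have := E_stab' P (H := H) hδ' hη1 u hh x
    rwa [e2, mul_one] at this
  have hm := P.pos j
  have hm1 := P.le_one j
  have r5 : E P H j ω (fun x => |(Lin P H' j h x + P.m j * E P H' j x h) * f x|) ≤
      2 * kap P * E P H j ω fun x => |f x| := by
    rw [← lin_mul]
    refine (E_isP P H j ω).mono fun x => ?_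
    rw [abs_mul]
    refine mul_le_mul_of_nonneg_right ((abs_add_le _ _).trans ?_) (abs_nonneg _)
    have a1 := Lin_abs P H' j hh x
    have a2 := (E_isP P H' j x).abs_le_of hh
    rw [abs_mul, abs_of_pos hm]
    nlinarith
  have r6 : |E P H j ω (fun x => (Lin P H' j h x + P.m j * E P H' j x h) * f x) -
      E P H j ω fun x => (Lin P H j h x + P.m j * E P H j x h) * f x| ≤
      4 * kap P ^ 2 * η * E P H j ω fun x => |f x| := by
    rw [← lin_sub, ← lin_mul]
    refine ((E_isP P H j ω).abs_le _).trans ((E_isP P H j ω).mono fun x => ?_)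
    rw [← sub_mul, abs_mul]
    refine mul_le_mul_of_nonneg_right ?_ (abs_nonneg _)
    have a1 := sum_step_abs P (t := j) (g := fun u => E P H' u x h - E P H u x h)
      (by positivity) fun u => hG u x
    have a2 : Lin P H' j h x + P.m j * E P H' j x h - (Lin P H j h x + P.m j * E P H j x h) =
        ∑ u ∈ Ico j (P.r + 1), P.m u * ((E P H' (u + 1) x h - E P H (u + 1) x h) -
          (E P H' u x h - E P H u x h)) + P.m j * (E P H' j x h - E P H j x h) := by
      rw [Lin, Lin, add_sub_add_comm, ← sum_sub_distrib, ← mul_sub]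
      congr 1
      exact sum_congr rfl fun u _ => by ring
    rw [a2]
    refine (abs_add_le _ _).trans ?_
    rw [abs_mul, abs_of_pos hm]
    have a3 := hG j x
    have a4 : P.m j * |E P H' j x h - E P H j x h| ≤ 1 * (2 * kap P * η) := by gcongr
    have a5 : 0 ≤ kap P * η := by positivity
    nlinarith
  generalize E P H j ω (fun x => |f x|) = A at *
  generalize E P H' j ω (fun x => |f x|) = A' at *
  generalize E P H j ω (fun x => z (x j) * f x) = a at *
  generalize E P H j ω (fun x => (Lin P H j h x + P.m j * E P H j x h) * f x) = b at *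
  generalize E P H j ω (fun x => (Lin P H' j h x + P.m j * E P H' j x h) * f x) = b₁ at *
  generalize E P H' j ω (fun x => (Lin P H' j h x + P.m j * E P H' j x h) * f x) = b₂ at *
  have hA' : A' ≤ 3 * A := by
    have := (abs_le.1 r3).2
    nlinarith
  have r4' : |b₂ - b₁| ≤ 4 * kap P ^ 2 * η * A := r4.trans <|
    (mul_le_mul_of_nonneg_left r5 (by positivity)).trans (le_of_eq (by ring))
  have e : a - η * b = (a - η * b₂) + η * (b₂ - b₁) + η * (b₁ - b) := by ring
  rw [e]
  refine (abs_add_three _ _ _).trans ?_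
  rw [abs_mul, abs_mul, abs_of_nonneg hη]
  calc _ ≤ 2 * kap P ^ 2 * η ^ 2 * (3 * A) + η * (4 * kap P ^ 2 * η * A) +
        η * (4 * kap P ^ 2 * η * A) :=
        add_le_add (add_le_add (r1.trans (by gcongr)) (by gcongr)) (by gcongr)
    _ = _ := by ring

lemma E_sq_mono (H F : Path S → ℝ) {j u v : ℕ} (hju : j ≤ u) (huv : u ≤ v) (ω : Path S) :
    E P H j ω (fun x => E P H u x F ^ 2) ≤ E P H j ω fun x => E P H v x F ^ 2 := by
  rw [← E_E P H hju (fun x => E P H v x F ^ 2)]
  refine (E_isP P H j ω).mono fun x => ?_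
  rw [← E_E P H huv F]
  exact (E_isP P H u x).sq_le _

lemma E_Lin_self (H F : Path S → ℝ) {j k : ℕ} (hjk : j ≤ k) (hk : k ≤ P.r + 1) (ω : Path S) :
    P.m j * (E P H j ω (fun x => E P H k x F ^ 2) - E P H j ω F ^ 2) ≤
      E P H j ω fun x => Lin P H j F x * F x := by
  have e : ∀ u, j ≤ u → E P H j ω (fun x => E P H u x F * F x) =
      E P H j ω fun x => E P H u x F ^ 2 := fun u hu => by
    rw [← E_mul_E P H hu (E_meas P H u F)]; simp only [sq]
  simp only [Lin, sum_mul, mul_assoc, sub_mul, lin_sum, lin_mul, lin_sub]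
  rw [sum_congr rfl (g := fun u => P.m u * (E P H j ω (fun x => E P H (u + 1) x F ^ 2) -
    E P H j ω fun x => E P H u x F ^ 2)) fun u hu => by
      rw [e u (mem_Ico.1 hu).1, e (u + 1) ((mem_Ico.1 hu).1.trans (Nat.le_succ u))]]
  have h0 : ∀ u, j ≤ u → 0 ≤ E P H j ω (fun x => E P H (u + 1) x F ^ 2) -
      E P H j ω fun x => E P H u x F ^ 2 := fun u hu =>
    sub_nonneg.2 (E_sq_mono P H F hu (Nat.le_succ u) ω)
  rw [← E_of_meas P H ((E_meas P H j F).map (· ^ 2)) ω,
    ← sum_Ico_sub (fun u => E P H j ω fun x => E P H u x F ^ 2) hjk, mul_sum]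
  refine le_trans (sum_le_sum fun u hu => mul_le_mul_of_nonneg_right
    (P.mono (mem_Ico.1 hu).1) (h0 u (mem_Ico.1 hu).1)) ?_
  exact sum_le_sum_of_subset_of_nonneg (Ico_subset_Ico_right hk)
    fun u hu _ => mul_nonneg (P.pos u).le (h0 u (mem_Ico.1 hu).1)

lemma sq_sum_le {I : Type} [Fintype I] {w : I → ℝ} (hw : ∀ i, |w i| ≤ 1) (d : I → ℝ) :
    (∑ i, w i * d i) ^ 2 ≤ Fintype.card I * ∑ i, d i ^ 2 := by
  refine (sum_mul_sq_le_sq_mul_sq _ _ _).trans (mul_le_mul_of_nonneg_right ?_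
    (sum_nonneg fun _ _ => sq_nonneg _))
  refine (sum_le_card_nsmul _ _ 1 fun i _ => ?_).trans (by simp)
  rw [← sq_abs]; exact pow_le_one₀ (abs_nonneg _) (hw i)

lemma abs_sum_w_le {I : Type} [Fintype I] {w : I → ℝ} (hw : ∀ i, |w i| ≤ 1) {d : I → ℝ} {c : ℝ}
    (hd : ∀ i, |d i| ≤ c) : |∑ i, w i * d i| ≤ Fintype.card I * c := by
  refine (abs_sum_le_sum_abs _ _).trans ((sum_le_card_nsmul _ _ c fun i _ => ?_).trans (by simp))
  rw [abs_mul]
  exact (mul_le_of_le_one_left (abs_nonneg _) (hw i)).trans (hd i)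

theorem decor {I : Type} [Fintype I] {φ : I → S → S} (hφ : ∀ i, Unif (φ i)) {z : I → S → ℝ}
    (hz : ∀ i s, z i (φ i s) = -z i s) (hz' : ∀ i i', i' ≠ i → ∀ s, z i' (φ i s) = z i' s)
    (hz2 : ∀ i s, z i s * z i s = 1) {j : ℕ} (hj : j ≤ P.r) {H : Path S → ℝ} {h : I → Path S → ℝ}
    {η : ℝ} (hη : 0 < η) (hη1 : kap P * η ≤ 1) (hN : 17 ≤ η ^ 4 * Fintype.card I)
    (hh : ∀ i x, |h i x| ≤ 1) (ih : ∀ i i', Inv (φ i) j (h i'))
    (iH : ∀ i, Inv (φ i) j fun x => H x - η * z i (x j) * h i x)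
    {w : I → ℝ} (hw : ∀ i, |w i| ≤ 1) {k : ℕ} (hjk : j ≤ k) (hk : k ≤ P.r + 1) (ω : Path S) :
    P.m j * (E P H j ω (fun x => (∑ i, w i * E P H k x (h i)) ^ 2) -
        (∑ i, w i * E P H j ω (h i)) ^ 2) ≤
      P.m j * (Fintype.card I *
        E P H j ω fun x => ∑ i, (E P H (j + 1) x (h i) - E P H j x (h i)) ^ 2) +
      58 * kap P ^ 2 * η * Fintype.card I ^ 2 := by
  classical
  have hκ := one_le_kap P
  have hΛ := E_isP P H j ω
  have hm := P.pos j
  have hm1 := P.le_one j
  obtain ⟨n, hn⟩ : ∃ n : ℝ, n = Fintype.card I := ⟨_, rfl⟩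
  have hn0 : 0 ≤ n := by rw [hn]; positivity
  have hza : ∀ i s, |z i s| = 1 := fun i s => by
    have := congrArg abs (hz2 i s)
    rw [abs_mul, abs_one] at this
    nlinarith [abs_nonneg (z i s)]
  obtain ⟨F, hF⟩ : ∃ F : Path S → ℝ, F = fun x => ∑ i, w i * h i x := ⟨_, rfl⟩
  have eF : ∀ u x, ∑ i, w i * E P H u x (h i) = E P H u x F := fun u x => by
    simp only [hF, lin_sum, lin_mul]
  have aF : ∀ x, |F x| ≤ n := fun x => by
    simpa [hF, hn] using abs_sum_w_le hw fun i => hh i x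
  have iF : ∀ i, Inv (φ i) j F := fun i => hF ▸ Inv.sum _ fun i' _ => (Inv.const _).mul (ih i i')
  obtain ⟨L, hL⟩ : ∃ L : Path S → ℝ, L = fun x => Lin P H j F x + P.m j * E P H j x F := ⟨_, rfl⟩
  have eL : ∀ x, ∑ i, w i * (Lin P H j (h i) x + P.m j * E P H j x (h i)) = L x := fun x => by
    simp only [hL, Lin, ← eF, mul_add, sum_add_distrib, mul_sum, mul_sub, sum_sub_distrib]
    rw [sum_comm, sum_comm (s := univ)]
    simp only [mul_left_comm]
  obtain ⟨Z, hZ⟩ : ∃ Z : Path S → ℝ, Z = fun x => ∑ i, w i * z i (x j) := ⟨_, rfl⟩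
  have mZ : Meas P (j + 1) Z := hZ ▸ Meas.sum _ fun i =>
    Meas.coord (Nat.lt_succ_self j) fun s => w i * z i s
  have key : ∀ (f : I → Path S → ℝ) (c : ℝ), (∀ i, Inv (φ i) j (f i)) →
      (∀ i, E P H j ω (fun x => |f i x|) ≤ c) →
      |E P H j ω (fun x => ∑ i, w i * (z i (x j) * f i x)) - η * E P H j ω fun x =>
        ∑ i, w i * ((Lin P H j (h i) x + P.m j * E P H j x (h i)) * f i x)| ≤
        14 * kap P ^ 2 * η ^ 2 * c * n := by
    intro f c hf hc
    simp only [lin_sum, lin_mul, mul_sum, ← sum_sub_distrib, mul_left_comm η, ← mul_sub]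
    rw [mul_comm, hn]
    exact abs_sum_w_le hw fun i => (resp_odd P (hφ i) (hz i) (hz2 i) hj hη.le hη1 (hh i) (ih i i)
      (iH i) (hf i) ω).trans (mul_le_mul_of_nonneg_left (hc i) (by positivity))
  -- expectations involving `L`
  have eLg : ∀ g, Meas P (j + 1) g → E P H j ω (fun x => L x * g x) =
      P.m j * E P H j ω fun x => g x * E P H (j + 1) x F := by
    intro g hg
    have := E_mul_Lin P H (Nat.le_succ j) (by omega) hg F ω
    rw [Nat.Ioc_succ_singleton, sum_singleton, pw, Nat.succ_sub_one] at this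
    simp only [hL, add_mul, lin_add, mul_comm (Lin P H j F _), this, mul_assoc, lin_mul,
      E_mul_meas P H (E_meas P H j F)]
    ring
  have k1 := key (fun _ _ => 1) 1 (fun _ => Inv.const _) fun _ => by simp [hΛ.one]
  have k2 := key (fun _ => F) n iF fun _ => hΛ.le aF
  simp only [mul_one, eL] at k1
  simp only [← mul_assoc, ← sum_mul, eL] at k2
  rw [← hZ] at k1
  have eZ : ∀ x, ∑ i, w i * z i (x j) = Z x := fun x => by rw [hZ]
  simp only [eZ] at k2
  have eL1 := eLg (fun _ => 1) (Meas.const _ _)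
  simp only [mul_one, one_mul, E_E P H (Nat.le_succ j)] at eL1
  have eL2 : E P H j ω (fun x => L x * F x) = E P H j ω (fun x => Lin P H j F x * F x) +
      P.m j * E P H j ω F ^ 2 := by
    simp only [hL, add_mul, lin_add, mul_assoc, lin_mul, E_mul_meas P H (E_meas P H j F), sq]
  obtain ⟨c, hc⟩ : ∃ c, c = E P H j ω Z := ⟨_, rfl⟩
  obtain ⟨σ, hσ⟩ : ∃ σ, σ = √(E P H j ω fun x => (Z x - c) ^ 2) := ⟨_, rfl⟩
  have hσ0 : 0 ≤ σ := hσ ▸ Real.sqrt_nonneg _
  have hσ2 : σ ^ 2 = E P H j ω fun x => (Z x - c) ^ 2 :=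
    hσ ▸ Real.sq_sqrt (hΛ.nonneg _ fun _ => sq_nonneg _)
  obtain ⟨s, hs⟩ : ∃ s, s = √(E P H j ω fun x => (E P H (j + 1) x F - E P H j ω F) ^ 2) := ⟨_, rfl⟩
  have hs0 : 0 ≤ s := hs ▸ Real.sqrt_nonneg _
  have hs2 : s ^ 2 = E P H j ω fun x => (E P H (j + 1) x F - E P H j ω F) ^ 2 :=
    hs ▸ Real.sq_sqrt (hΛ.nonneg _ fun _ => sq_nonneg _)
  have aW : ∀ u x, |E P H u x F| ≤ n := fun u x => (E_isP P H u x).abs_le_of aF
  have hs3 : s ≤ 2 * n := by
    refine (abs_le_of_sq_le_sq' ?_ (by positivity)).2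
    rw [hs2]
    refine hΛ.le fun x => ?_
    rw [← sq_abs]
    exact pow_le_pow_left₀ (abs_nonneg _) ((abs_sub _ _).trans
      (by linarith [aW (j + 1) x, aW j ω])) 2
  have hs4 : s ^ 2 ≤ n * E P H j ω fun x => ∑ i, (E P H (j + 1) x (h i) - E P H j x (h i)) ^ 2 := by
    have e : E P H j ω (fun x => (E P H (j + 1) x F - E P H j x F) ^ 2) = s ^ 2 := by
      rw [hs2]
      simp only [sub_sq, lin_add, lin_sub, mul_comm _ (E P H j _ F), lin_mul, hΛ.const,
        E_mul_meas P H (E_meas P H j F), E_of_meas P H ((E_meas P H j F).map (· ^ 2))]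
    rw [← e, ← lin_mul]
    refine hΛ.mono fun x => ?_
    simp only [← eF, ← sum_sub_distrib, ← mul_sub, hn]
    exact sq_sum_le hw _
  have cov : E P H j ω (fun x => (Z x - c) * E P H (j + 1) x F) ≤ σ * s := by
    have e : E P H j ω (fun x => (Z x - c) * E P H (j + 1) x F) =
        E P H j ω fun x => (Z x - c) * (E P H (j + 1) x F - E P H j ω F) := by
      simp only [mul_sub, lin_sub, lin_mul', hΛ.const, ← hc, sub_self, zero_mul, sub_zero]
    rw [e]
    refine (abs_le_of_sq_le_sq' ?_ (by positivity)).2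
    rw [mul_pow, hσ2, hs2]
    exact hΛ.cs _ _
  have mZc : Meas P (j + 1) fun x => Z x - c := mZ.map (· - c)
  have cov2 : E P H j ω (fun x => (Z x - c) * E P H (j + 1) x F) =
      E P H j ω (fun x => Z x * F x) - c * E P H j ω F := by
    rw [E_mul_E P H (Nat.le_succ j) mZc]
    simp only [sub_mul, lin_sub, lin_mul]
  -- the variance of `Z`
  have k3 := key (fun i x => Z x - c - w i * z i (x j)) (σ + 1) (fun i x => by
      simp only [hZ, fl_apply_self]
      rw [← add_sum_erase _ _ (mem_univ i), ← add_sum_erase _ (fun i => w i * z i (x j)) (mem_univ i),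
        sum_congr rfl fun i' hi' => by rw [hz' i i' (ne_of_mem_erase hi')]]
      ring) fun i => by
      have a1 : E P H j ω (fun x => |Z x - c|) ≤ σ := by
        refine (abs_le_of_sq_le_sq' ?_ hσ0).2
        rw [hσ2]
        simpa only [sq_abs] using hΛ.sq_le fun x => |Z x - c|
      refine (hΛ.mono (g := fun x => |Z x - c| + 1) fun x => (abs_sub _ _).trans ?_).trans ?_
      · rw [abs_mul, hza, mul_one]; linarith [hw i]
      · rw [lin_add, hΛ.one]; linarith
  have k4 : E P H j ω (fun x => ∑ i, w i * (z i (x j) * (Z x - c - w i * z i (x j)))) =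
      σ ^ 2 - ∑ i, w i ^ 2 := by
    have e : ∀ x, ∑ i, w i * (z i (x j) * (Z x - c - w i * z i (x j))) =
        (Z x - c) ^ 2 + c * (Z x - c) - ∑ i, w i ^ 2 := fun x => by
      have : ∀ i, w i * (z i (x j) * (Z x - c - w i * z i (x j))) =
          w i * z i (x j) * (Z x - c) - w i ^ 2 := fun i => by
        linear_combination (-w i ^ 2) * hz2 i (x j)
      simp only [this, sum_sub_distrib, ← sum_mul, eZ]
      ring
    simp only [e, lin_sub, lin_add, lin_mul, hΛ.const, ← hc, ← hσ2]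
    ring
  have k5 : ∑ i, w i ^ 2 ≤ n := by
    refine (sum_le_card_nsmul _ _ 1 fun i _ => ?_).trans (by simp [hn])
    rw [← sq_abs]; exact pow_le_one₀ (abs_nonneg _) (hw i)
  have k6 : E P H j ω (fun x => ∑ i, w i * ((Lin P H j (h i) x + P.m j * E P H j x (h i)) *
      (Z x - c - w i * z i (x j)))) ≤ P.m j * (σ * s) + n * (2 * kap P) := by
    refine (hΛ.mono (g := fun x => L x * (Z x - c) + n * (2 * kap P)) fun x => ?_).trans ?_
    · simp only [mul_sub (_ + _) (Z x - c), mul_sub (w _), sum_sub_distrib, ← mul_assoc,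
        ← sum_mul, eL]
      have := abs_sum_w_le hw (c := 2 * kap P) (d := fun i =>
        (Lin P H j (h i) x + P.m j * E P H j x (h i)) * w i * z i (x j)) fun i => by
          rw [abs_mul, abs_mul, hza, mul_one]
          refine (mul_le_of_le_one_right (abs_nonneg _) (hw i)).trans ((abs_add_le _ _).trans ?_)
          have a1 := Lin_abs P H j (hh i) x
          have a2 := (E_isP P H j x).abs_le_of (hh i)
          rw [abs_mul, abs_of_pos hm]
          nlinarith
      simp only [← mul_assoc, ← hn] at this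
      linarith [(abs_le.1 this).1]
    · rw [lin_add, hΛ.const, eLg _ mZc]
      gcongr
  rw [k4] at k3
  have hH := E_Lin_self P H F hjk hk ω
  simp only [eF, ← hn]
  rw [← hn] at hN
  rw [eL1, ← hc] at k1
  rw [eL2] at k2
  rw [cov2] at cov
  have aW0 := aW j ω
  generalize E P H j ω (fun x => Lin P H j F x * F x) = Hs at *
  generalize E P H j ω (fun x => Z x * F x) = a at *
  generalize E P H j ω (fun x => ∑ i, (E P H (j + 1) x (h i) - E P H j x (h i)) ^ 2) = Iq at *
  generalize E P H j ω (fun x => ∑ i, w i * ((Lin P H j (h i) x + P.m j * E P H j x (h i)) *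
      (Z x - c - w i * z i (x j)))) = b at *
  generalize E P H j ω (fun x => E P H k x F ^ 2) = V at *
  generalize E P H j ω F = W at *
  generalize ∑ i, w i ^ 2 = w2 at *
  generalize kap P = κ at *
  generalize P.m j = m at *
  clear key eLg eL1 eL2 hσ hσ2 hs hs2 hc cov2 k4
  obtain ⟨C, hC⟩ : ∃ C, C = 14 * κ ^ 2 * η ^ 2 := ⟨_, rfl⟩
  rw [← hC] at k1 k2 k3
  have hC0 : 0 ≤ C := by rw [hC]; positivity
  have hC1 : C ≤ 14 := by
    have : (κ * η) ^ 2 ≤ 1 := pow_le_one₀ (by positivity) hη1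
    rw [hC]; nlinarith
  have t1 : σ ^ 2 ≤ (η ^ 2 * n) ^ 2 + σ * (η * m * s + C * n) := by
    have a1 := (abs_le.1 k3).2
    have a2 := mul_le_mul_of_nonneg_left k6 hη.le
    have a3 := mul_le_mul_of_nonneg_right hN hn0
    have a4 := mul_le_mul_of_nonneg_right hC1 hn0
    have a5 := mul_le_mul_of_nonneg_right hη1 hn0
    nlinarith
  have t2 : σ ≤ η ^ 2 * n + (η * m * s + C * n) := by
    by_contra hlt
    rw [not_le] at hlt
    have a1 : 0 ≤ η ^ 2 * n := by positivity
    have a2 : 0 ≤ η * m * s + C * n := by positivity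
    generalize η ^ 2 * n = u at *
    generalize η * m * s + C * n = v at *
    nlinarith
  have t3 : η * Hs ≤ σ * s + 2 * C * n ^ 2 := by
    have a1 := (abs_le.1 k2).1
    have a2 : |(c - η * (m * W)) * W| ≤ C * n * n := by
      rw [abs_mul]; gcongr
    have a3 := (abs_le.1 a2).2
    nlinarith
  have t4 : σ * s ≤ η * m * s ^ 2 + 2 * (η ^ 2 + C) * n ^ 2 := by
    have a1 := mul_le_mul_of_nonneg_right t2 hs0
    have a2 := mul_le_mul_of_nonneg_left hs3 (by positivity : 0 ≤ (η ^ 2 + C) * n)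
    nlinarith
  have t5 : η * Hs ≤ η * (m * (n * Iq) + 58 * κ ^ 2 * η * n ^ 2) := by
    have a1 := mul_le_mul_of_nonneg_left hs4 (by positivity : 0 ≤ η * m)
    have a2 : η ^ 2 * n ^ 2 ≤ κ ^ 2 * (η ^ 2 * n ^ 2) :=
      le_mul_of_one_le_left (by positivity) (one_le_pow₀ hκ)
    rw [hC] at t3 t4
    nlinarith
  exact hH.trans (le_of_mul_le_mul_left t5 hη)

end Crest.Agent.R141
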