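import Crest.Agent.R141.Core
import Crest.Prelude.Def_DilutedSpinGlass

/-! Row 141: the finite model (finitely supported laws, finite trial cascades) and the three
intermediate statements. -/

set_option autoImplicit false
open Finset Function
open scoped BigOperators
open Crest.ProbabilityR.Diluted

namespace Crest.Agent.R141

/-- a finite trial: a uniformly random index `ι`, a cascade Hamiltonian `H ι` started at level `a`
from the path `ω₀`, and a spin `s ι` read at the last level -/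
structure Trial where
  P : Par
  a : ℕ
  I : Type
  S : Type
  [fI : Fintype I]
  [nI : Nonempty I]
  [fS : Fintype S]
  [nS : Nonempty S]
  H : I → Path S → ℝ
  s : I → S → Bool
  surj : ∀ ι, Surjective (s ι)
  ω₀ : Path S

instance (T : Trial) : Fintype T.I := T.fI
instance (T : Trial) : Nonempty T.I := T.nI
instance (T : Trial) : Fintype T.S := T.fS
instance (T : Trial) : Nonempty T.S := T.nS

/-- admissible trials -/
def Trial.Adm (T : Trial) : Prop := T.a ≤ T.P.r ∧ StrictMonoOn T.P.m (Set.Iic T.P.r)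

/-- expected logarithm of the nested power means of `exp v`, one independent copy per label -/
noncomputable def TV (T : Trial) (L : Type) [Fintype L] [DecidableEq L]
    (v : (L → Bool) → ℝ) : ℝ :=
  𝔼 ι : L → T.I, Psi T.P (fun ω : Path (L → T.S) => ∑ l, T.H (ι l) fun t => ω t l)
    (fun ω => v fun l => T.s (ι l) (ω T.P.r l)) T.a fun t _ => T.ω₀ t

/-- finitely supported probability laws -/
structure FLaw (A : Type) where
  Θ : Type
  [fΘ : Fintype Θ]
  w : Θ → ℝ
  w0 : ∀ x, 0 ≤ w x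
  w1 : ∑ x, w x = 1
  val : Θ → A

instance {A : Type} (μ : FLaw A) : Fintype μ.Θ := μ.fΘ

noncomputable def FLaw.ex {A : Type} (μ : FLaw A) (g : A → ℝ) : ℝ := ∑ x, μ.w x * g (μ.val x)

noncomputable def FLaw.exPi {A : Type} (μ : FLaw A) (K : Type) [Fintype K] [DecidableEq K]
    (g : (K → A) → ℝ) : ℝ :=
  ∑ a : K → μ.Θ, (∏ k, μ.w (a k)) * g fun k => μ.val (a k)

/-- logarithm of the site term as a function of the cavity spins -/
noncomputable def siteV {p k : ℕ} (h : ℝ) (θs : Fin k → Inter p)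
    (s : Fin k × Fin (p - 1) → Bool) : ℝ :=
  Real.log ((1 / 2) * ∑ ε : Bool, Real.exp (h * spinVal ε +
    ∑ j, θs j fun ℓ => if hl : ℓ.val < p - 1 then s (j, ⟨ℓ.val, hl⟩) else ε))

noncomputable def finPressure (p : ℕ) (α : ℝ) (μ : FLaw (Inter p)) (ν : FLaw ℝ) (N : ℕ) : ℝ :=
  (1 / (N : ℝ)) * ∑' M : ℕ, poissonWeight (α * N) M *
    μ.exPi (Fin M) fun θs => ν.exPi (Fin N) fun hs =>
      𝔼 idx : Fin M → Fin p → Fin N, logPartition N θs idx hs

noncomputable def finTrial (p : ℕ) (α : ℝ) (μ : FLaw (Inter p)) (ν : FLaw ℝ) (T : Trial) : ℝ :=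
  Real.log 2 +
    (∑' k : ℕ, poissonWeight (α * p) k *
      μ.exPi (Fin k) fun θs => ν.ex fun h => TV T (Fin k × Fin (p - 1)) (siteV h θs)) -
    α * (p - 1 : ℝ) * μ.ex fun θ => TV T (Fin p) θ

/-- expected increment of the nested functional of a base system when one interaction is added
whose `l`-th argument is a uniformly chosen spin of the base system if `c l`, and a fresh trial
spin otherwise -/
noncomputable def inc {p N : ℕ} (T : Trial) {S : Type} [Fintype S] (H : Path S → ℝ)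
    (σ : S → Fin N → Bool) (ω : Path S) (c : Fin p → Bool) (θ : Inter p) : ℝ :=
  𝔼 idx : Fin p → Fin N, 𝔼 ι : Fin p → T.I,
    Psi T.P (fun x : Path (S × (Fin p → T.S)) =>
        H (Prod.fst ∘ x) + ∑ l, T.H (ι l) fun t => (x t).2 l)
      (fun x => θ fun l => if c l then σ (x T.P.r).1 (idx l) else T.s (ι l) ((x T.P.r).2 l))
      T.a fun t => (ω t, fun _ => T.ω₀ t)

/-- only the last argument is a spin of the base system -/
def lastMask (p : ℕ) : Fin p → Bool := fun l => decide (¬ l.val < p - 1)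

/-- the convexity inequality, with error `ε`, for an expectation functional `Ex` -/
def Key (p : ℕ) (Ex : (Inter p → ℝ) → ℝ) (ε : ℝ) : Prop :=
  ∀ (T : Trial) (N : ℕ) (_ : 0 < N) (S : Type) [Fintype S] [Nonempty S] (H : Path S → ℝ)
    (σ : S → Fin N → Bool) (ω : Path S),
    (1 / (p : ℝ)) * Ex (inc T H σ ω fun _ => true) +
      ((p - 1 : ℝ) / p) * Ex (inc T H σ ω fun _ => false) ≤ Ex (inc T H σ ω (lastMask p)) + ε

def KeyIntStmt : Prop :=
  ∀ (p : ℕ), Even p → 2 ≤ p → ∀ (μ : MeasureTheory.Measure (Inter p))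
    [MeasureTheory.IsProbabilityMeasure μ],
    MeasureTheory.Integrable (fun θ => supNorm θ) μ → HasFactorization p μ →
    Key p (fun g => ∫ θ, g θ ∂μ) 0

def FinUpperStmt : Prop :=
  ∀ (p : ℕ), 2 ≤ p → ∀ (α : ℝ), 0 < α → ∀ (μ : FLaw (Inter p)) (ν : FLaw ℝ) (ε : ℝ),
    Key p μ.ex ε → ∀ (T : Trial) (N : ℕ), 0 < N →
      finPressure p α μ ν N ≤ finTrial p α μ ν T + α * p * ε

def FinLowerStmt : Prop :=
  ∀ (p : ℕ), 2 ≤ p → ∀ (α : ℝ), 0 < α → ∀ (μ : FLaw (Inter p)) (ν : FLaw ℝ),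
    (∀ (π : Equiv.Perm (Fin p)) (g : Inter p → ℝ), μ.ex (fun θ => g fun s => θ (s ∘ π)) = μ.ex g) →
    ∀ c : ℝ, (∀ T : Trial, T.Adm → c ≤ finTrial p α μ ν T) →
      ∀ ε > 0, ∀ᶠ N : ℕ in Filter.atTop, c - ε ≤ finPressure p α μ ν N

section
variable {S : Type} [Fintype S] [Nonempty S] (P : Par)

lemma Psi_lip (H : Path S → ℝ) {δ δ' : Path S → ℝ} {c : ℝ} (h : ∀ ω, |δ ω - δ' ω| ≤ c) (t : ℕ)
    (ω : Path S) : |Psi P H δ t ω - Psi P H δ' t ω| ≤ c := by
  rw [Psi, Psi, sub_sub_sub_cancel_right]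
  exact X_lip P (fun x => by simpa using h x) t ω

lemma Psi_add_const (H δ : Path S → ℝ) (c : ℝ) (t : ℕ) (ω : Path S) :
    Psi P H (fun x => δ x + c) t ω = Psi P H δ t ω + c := by
  simp only [Psi, ← add_assoc, X_add_const]; ring

end

end Crest.Agent.R141
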