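import Crest.Agent.R141.Sim5

/-! Row 141: transfer of integrals along finite-range approximations. -/

set_option autoImplicit false
open MeasureTheory Finset Function
open scoped BigOperators
open Crest.ProbabilityR.Diluted

namespace Crest.Agent.R141

lemma transfer1 {A : Type} [MeasurableSpace A] (μ : Measure A) [IsProbabilityMeasure μ]
    {φ : A → A} (hφ : Measurable φ) (hfin : (Set.range φ).Finite) {F F' c δ : A → ℝ}
    (hF : Measurable F) (hF' : Measurable F') (hc : Integrable c μ) (hδ : Integrable δ μ)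
    (h : ∀ a, |F a - F' (φ a) - c a| ≤ δ a) :
    |∫ a, F a ∂μ - ∫ a, F' a ∂(μ.map φ) - ∫ a, c a ∂μ| ≤ ∫ a, δ a ∂μ := by
  obtain ⟨B, hB⟩ := (hfin.image fun y => |F' y|).bddAbove
  have i1 : Integrable (fun a => F' (φ a)) μ :=
    Integrable.of_bound (hF'.comp hφ).aestronglyMeasurable B
      (ae_of_all _ fun a => hB ⟨φ a, ⟨a, rfl⟩, rfl⟩)
  have i2 : Integrable (fun a => F a - F' (φ a) - c a) μ :=
    hδ.mono' ((hF.aestronglyMeasurable.sub i1.aestronglyMeasurable).sub hc.aestronglyMeasurable)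
      (ae_of_all _ h)
  have i3 : Integrable F μ := by
    refine ((i2.add hc).add i1).congr (ae_of_all _ fun a => ?_)
    simp
  have i4 : Integrable (fun a => F a - F' (φ a)) μ := i3.sub i1
  rw [integral_map hφ.aemeasurable hF'.aestronglyMeasurable, ← integral_sub i3 i1,
    ← integral_sub i4 hc]
  exact norm_integral_le_of_norm_le (f := fun a => F a - F' (φ a) - c a) hδ (ae_of_all _ h)

lemma transfer2 {A B : Type} [MeasurableSpace A] [MeasurableSpace B] (μ : Measure A)
    [IsProbabilityMeasure μ] (ν : Measure B) [IsProbabilityMeasure ν]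
    {φ : A → A} (hφ : Measurable φ) (hfin : (Set.range φ).Finite)
    {ψ : B → B} (hψ : Measurable ψ) (hfin' : (Set.range ψ).Finite) {G : A → B → ℝ}
    (hG : Measurable (uncurry G)) {c δ : A → ℝ} {δ' : B → ℝ} (hc : Integrable c μ)
    (hδ : Integrable δ μ) (hδ' : Integrable δ' ν)
    (h : ∀ a b, |G a b - G (φ a) (ψ b) - c a| ≤ δ a + δ' b) :
    |∫ a, ∫ b, G a b ∂ν ∂μ - ∫ a, ∫ b, G a b ∂(ν.map ψ) ∂(μ.map φ) - ∫ a, c a ∂μ| ≤
      ∫ a, δ a ∂μ + ∫ b, δ' b ∂ν := by
  have hGa : ∀ a, Measurable (G a) := fun a => hG.comp measurable_prodMk_left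
  have := transfer1 μ hφ hfin (F := fun a => ∫ b, G a b ∂ν) (F' := fun a => ∫ b, G a b ∂(ν.map ψ))
    (δ := fun a => δ a + ∫ b, δ' b ∂ν) hG.stronglyMeasurable.integral_prod_right.measurable
    hG.stronglyMeasurable.integral_prod_right.measurable hc (hδ.add (integrable_const _)) fun a => by
      have := transfer1 ν hψ hfin' (c := fun _ => c a) (δ := fun b => δ a + δ' b) (hGa a)
        (hGa (φ a)) (integrable_const _) ((integrable_const _).add hδ') (h a)
      rw [integral_add (integrable_const _) hδ'] at this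
      simpa using this
  rw [integral_add hδ (integrable_const _)] at this
  simpa using this

lemma finite_range_pi {K A : Type} [Finite K] {φ : A → A} (h : (Set.range φ).Finite) :
    (Set.range fun (x : K → A) k => φ (x k)).Finite :=
  (Set.Finite.pi' fun _ : K => h).subset <| by
    rintro _ ⟨x, rfl⟩ k
    exact ⟨x k, rfl⟩

lemma map_pi_eq {K A : Type} [Fintype K] [MeasurableSpace A] (μ : Measure A)
    [IsProbabilityMeasure μ] {φ : A → A} (hφ : Measurable φ) :
    (Measure.pi fun _ : K => μ).map (fun x k => φ (x k)) = Measure.pi fun _ : K => μ.map φ := by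
  have := Measure.isProbabilityMeasure_map (μ := μ) hφ.aemeasurable
  exact Measure.pi_map_pi (f := fun _ => φ) fun _ => hφ.aemeasurable

lemma integrable_sum_eval {K A : Type} [Fintype K] [MeasurableSpace A] (μ : Measure A)
    [IsProbabilityMeasure μ] {c : A → ℝ} (hc : Integrable c μ) :
    Integrable (fun x : K → A => ∑ k, c (x k)) (Measure.pi fun _ : K => μ) :=
  integrable_finsetSum _ fun k _ => integrable_comp_eval (μ := fun _ : K => μ) (i := k) hc

lemma integral_sum_eval {K A : Type} [Fintype K] [MeasurableSpace A] (μ : Measure A)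
    [IsProbabilityMeasure μ] {c : A → ℝ} (hc : Integrable c μ) :
    ∫ x : K → A, ∑ k, c (x k) ∂(Measure.pi fun _ : K => μ) = Fintype.card K * ∫ a, c a ∂μ := by
  rw [integral_finsetSum _ fun k _ => integrable_comp_eval (μ := fun _ : K => μ) (i := k) hc]
  rw [Finset.sum_congr rfl fun k _ =>
    integral_comp_eval (μ := fun _ : K => μ) (i := k) hc.aestronglyMeasurable]
  simp

/-- finite-range approximation of the interaction up to a constant shift -/
def ApxI {p : ℕ} (μ : Measure (Inter p)) (φ : Inter p → Inter p) (c : Inter p → ℝ) (ε : ℝ) : Prop :=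
  Measurable φ ∧ (Set.range φ).Finite ∧ Integrable c μ ∧
    ∃ δ : Inter p → ℝ, Integrable δ μ ∧ ∫ θ, δ θ ∂μ ≤ ε ∧ ∀ θ s, |θ s - φ θ s - c θ| ≤ δ θ

/-- finite-range approximation of the field -/
def ApxR (ν : Measure ℝ) (ψ : ℝ → ℝ) (ε : ℝ) : Prop :=
  Measurable ψ ∧ (Set.range ψ).Finite ∧ Integrable (fun h => |h - ψ h|) ν ∧
    ∫ h, |h - ψ h| ∂ν ≤ ε

lemma transferE {p : ℕ} {μ : Measure (Inter p)} [IsProbabilityMeasure μ] {φ : Inter p → Inter p}
    {c : Inter p → ℝ} {ε : ℝ} (hA : ApxI μ φ c ε) {G : Inter p → ℝ}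
    (hG : ∀ θ θ' c, (∀ s, θ s ≤ θ' s + c) → G θ ≤ G θ' + c) :
    |∫ θ, G θ ∂μ - ∫ θ, G θ ∂(μ.map φ) - ∫ θ, c θ ∂μ| ≤ ε := by
  obtain ⟨hφ, hfin, hc, δ, hδ, hε, h⟩ := hA
  have hm : Measurable G := by
    refine (LipschitzWith.of_le_add fun θ θ' => hG _ _ _ fun s => ?_).continuous.measurable
    have := dist_le_pi_dist θ θ' s
    rw [Real.dist_eq] at this
    linarith [le_abs_self (θ s - θ' s)]
  refine (transfer1 μ hφ hfin hm hm hc hδ fun θ => ?_).trans hε
  have h1 := hG θ (φ θ) (c θ + δ θ) fun s => by linarith [(abs_le.1 (h θ s)).2]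
  have h2 := hG (φ θ) θ (δ θ - c θ) fun s => by linarith [(abs_le.1 (h θ s)).1]
  rw [abs_le]
  constructor <;> linarith

lemma transferK {p : ℕ} {K B : Type} [Fintype K] [MeasurableSpace B] {μ : Measure (Inter p)}
    [IsProbabilityMeasure μ] {φ : Inter p → Inter p} {c : Inter p → ℝ} {ε : ℝ} (hA : ApxI μ φ c ε)
    (ν : Measure B) [IsProbabilityMeasure ν] {ψ : B → B} (hψ : Measurable ψ)
    (hfin' : (Set.range ψ).Finite) {d : B → B → ℝ} (hd : ∀ b b', d b b' = d b' b)
    (hδ' : Integrable (fun b => d b (ψ b)) ν) {G : (K → Inter p) → B → ℝ}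
    (hm : Measurable (uncurry G))
    (hG : ∀ θs θs' b b' (c : K → ℝ), (∀ k s, θs k s ≤ θs' k s + c k) →
      G θs b ≤ G θs' b' + (d b b' + ∑ k, c k)) :
    |∫ θs, ∫ b, G θs b ∂ν ∂(Measure.pi fun _ : K => μ) -
      ∫ θs, ∫ b, G θs b ∂(ν.map ψ) ∂(Measure.pi fun _ : K => μ.map φ) -
      Fintype.card K * ∫ θ, c θ ∂μ| ≤ Fintype.card K * ε + ∫ b, d b (ψ b) ∂ν := by
  obtain ⟨hφ, hfin, hc, δ, hδ, hε, h⟩ := hA
  have := transfer2 (Measure.pi fun _ : K => μ) ν (φ := fun x k => φ (x k))
    (measurable_pi_lambda _ fun k => hφ.comp (measurable_pi_apply k)) (finite_range_pi hfin) hψ hfin'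
    hm (integrable_sum_eval μ hc) (integrable_sum_eval μ hδ) hδ' fun θs b => by
      have h1 := hG θs (fun k => φ (θs k)) b (ψ b) (fun k => c (θs k) + δ (θs k)) fun k s => by
        linarith [(abs_le.1 (h (θs k) s)).2]
      have h2 := hG (fun k => φ (θs k)) θs (ψ b) b (fun k => δ (θs k) - c (θs k)) fun k s => by
        linarith [(abs_le.1 (h (θs k) s)).1]
      rw [Finset.sum_add_distrib] at h1
      rw [Finset.sum_sub_distrib, hd] at h2
      rw [abs_le]
      constructor <;> linarith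
  rw [map_pi_eq μ hφ, integral_sum_eval μ hc, integral_sum_eval μ hδ] at this
  have h0 : (0 : ℝ) ≤ Fintype.card K := Nat.cast_nonneg _
  exact this.trans (by gcongr)

lemma hasSum_poi (lam : ℝ) : HasSum (poissonWeight lam) 1 := by
  have := (NormedSpace.expSeries_div_hasSum_exp lam).mul_left (Real.exp (-lam))
  rw [← Real.exp_eq_exp_ℝ, ← Real.exp_add, neg_add_cancel, Real.exp_zero] at this
  have e : poissonWeight lam = fun i => Real.exp (-lam) * (lam ^ i / i.factorial) :=
    funext fun i => by rw [poissonWeight, mul_div_assoc]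
  rw [e]
  exact this

lemma hasSum_poi_mul (lam : ℝ) : HasSum (fun n : ℕ => poissonWeight lam n * n) lam := by
  rw [← hasSum_nat_add_iff' 1]
  have := (hasSum_poi lam).mul_left lam
  simp only [Finset.range_one, Finset.sum_singleton, Nat.cast_zero, mul_zero, sub_zero]
  rw [mul_one] at this
  have e : (fun n : ℕ => poissonWeight lam (n + 1) * ((n + 1 : ℕ) : ℝ)) =
      fun i => lam * poissonWeight lam i := by
    funext n
    unfold poissonWeight
    rw [Nat.factorial_succ]
    push_cast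
    have : (Nat.factorial n : ℝ) ≠ 0 := by positivity
    field_simp
    ring
  rw [e]
  exact this

lemma hasSum_poi_lin (lam a b : ℝ) :
    HasSum (fun n : ℕ => poissonWeight lam n * (n * a + b)) (lam * a + b) := by
  have := ((hasSum_poi_mul lam).mul_right a).add ((hasSum_poi lam).mul_right b)
  rw [one_mul] at this
  have e : (fun n : ℕ => poissonWeight lam n * (n * a + b)) =
      fun n => poissonWeight lam n * n * a + poissonWeight lam n * b := by
    funext n
    ring
  rw [e]
  exact this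

lemma poi_transfer {lam : ℝ} (h : 0 ≤ lam) {a b : ℕ → ℝ} {cb ε ε' D D' g : ℝ}
    (h0 : ∀ M : ℕ, |a M - g| ≤ M * D + D') (h1 : ∀ M : ℕ, |a M - b M - M * cb| ≤ M * ε + ε') :
    |∑' M, poissonWeight lam M * a M - ∑' M, poissonWeight lam M * b M - lam * cb| ≤
      lam * ε + ε' := by
  have key : ∀ {u : ℕ → ℝ} {x y : ℝ}, (∀ M : ℕ, |u M| ≤ M * x + y) →
      Summable fun M => poissonWeight lam M * u M := fun {u x y} hu =>
    (hasSum_poi_lin lam x y).summable.of_norm_bounded fun k => by
      rw [Real.norm_eq_abs, abs_mul, abs_of_nonneg (poi_nonneg h k)]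
      exact mul_le_mul_of_nonneg_left (hu k) (poi_nonneg h k)
  have ha : Summable fun M => poissonWeight lam M * a M := by
    refine ((key h0).add ((hasSum_poi lam).mul_right g).summable).congr fun M => ?_
    ring
  have hc := (hasSum_poi_mul lam).mul_right cb
  have hb : Summable fun M => poissonWeight lam M * b M := by
    refine ((ha.sub (key h1)).sub hc.summable).congr fun M => ?_
    ring
  rw [← ha.tsum_sub hb, ← hc.tsum_eq, ← (ha.sub hb).tsum_sub hc.summable, ← Real.norm_eq_abs]
  refine tsum_of_norm_bounded (hasSum_poi_lin lam ε ε') fun k => ?_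
  rw [mul_assoc, ← mul_sub, ← mul_sub, Real.norm_eq_abs, abs_mul, abs_of_nonneg (poi_nonneg h k)]
  exact mul_le_mul_of_nonneg_left (h1 k) (poi_nonneg h k)

lemma exists_flaw {A : Type} [MeasurableSpace A] [MeasurableSingletonClass A] (μ : Measure A)
    [IsProbabilityMeasure μ] {φ : A → A} (hφ : Measurable φ) (hfin : (Set.range φ).Finite) :
    ∃ μ' : FLaw A, μ'.toM = μ.map φ := by
  classical
  have hs : ∀ t : Finset A, ∑ y ∈ t, μ (φ ⁻¹' {y}) = μ (φ ⁻¹' t) := fun t =>
    sum_measure_preimage_singleton t fun y _ => hφ (measurableSet_singleton y)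
  refine ⟨{ Θ := hfin.toFinset, w := fun y => μ.real (φ ⁻¹' {y.1}), w0 := fun _ => measureReal_nonneg,
            w1 := ?_, val := Subtype.val }, ?_⟩
  · rw [Finset.sum_coe_sort hfin.toFinset fun y => μ.real (φ ⁻¹' {y})]
    simp only [measureReal_def]
    rw [← ENNReal.toReal_sum fun _ _ => measure_ne_top _ _, hs]
    simp
  · ext s hs'
    simp only [FLaw.toM, Measure.coe_finsetSum, Finset.sum_apply, Measure.smul_apply, smul_eq_mul,
      ofReal_measureReal (measure_ne_top _ _), Measure.dirac_apply' _ hs']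
    rw [Finset.sum_coe_sort hfin.toFinset fun y => μ (φ ⁻¹' {y}) * s.indicator 1 y,
      Measure.map_apply hφ hs']
    have : φ ⁻¹' s = φ ⁻¹' (hfin.toFinset.filter (· ∈ s) : Finset A) := by
      ext x
      simp
    rw [this, ← hs, Finset.sum_filter]
    refine Finset.sum_congr rfl fun y _ => ?_
    by_cases hy : y ∈ s <;> simp [hy]

end Crest.Agent.R141
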