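import Crest.Agent.R141.Disc1

/-! Row 141: transfer of the pressure, the trial functional and the key inequality. -/

set_option autoImplicit false
open MeasureTheory Finset Function
open scoped BigOperators
open Crest.ProbabilityR.Diluted

namespace Crest.Agent.R141

variable {p : ℕ}

lemma abs_le_supNorm (θ : Inter p) (s : Fin p → Bool) : |θ s| ≤ supNorm θ :=
  le_ciSup (f := fun s => |θ s|) (Set.finite_range _).bddAbove s

lemma apxI_zero {μ : Measure (Inter p)} (hμ : Integrable (fun θ => supNorm θ) μ) :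
    ApxI μ (fun _ => 0) (fun _ => 0) (∫ θ, supNorm θ ∂μ) :=
  ⟨measurable_const, Set.finite_range_const, integrable_zero _ _ _, _, hμ, le_rfl, fun θ s => by
    simpa using abs_le_supNorm θ s⟩

lemma apxR_zero {ν : Measure ℝ} (hν : Integrable (fun x : ℝ => x) ν) :
    ApxR ν (fun _ => 0) (∫ h, |h| ∂ν) :=
  ⟨measurable_const, Set.finite_range_const, by simpa using hν.abs, by simp⟩

lemma map_zero_eq {A : Type} [MeasurableSpace A] [Zero A] (μ : Measure A) [IsProbabilityMeasure μ] :
    μ.map (fun _ => (0 : A)) = Measure.dirac 0 := by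
  simp

lemma pi_dirac_zero {K A : Type} [Fintype K] [MeasurableSpace A] [Zero A] :
    (Measure.pi fun _ : K => Measure.dirac (0 : A)) = Measure.dirac 0 := by
  have := map_pi_eq (K := K) (Measure.dirac (0 : A)) (φ := fun _ => 0) measurable_const
  rw [map_zero_eq] at this
  rw [← this]
  exact map_zero_eq _

lemma logPartition_le {N M : ℕ} {θs θs' : Fin M → Inter p} {hs hs' : Fin N → ℝ} {c : Fin M → ℝ}
    (h : ∀ k s, θs k s ≤ θs' k s + c k) (idx : Fin M → Fin p → Fin N) :
    logPartition N θs idx hs ≤ logPartition N θs' idx hs' + (∑ i, |hs i - hs' i| + ∑ k, c k) := by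
  unfold logPartition
  have hp : ∀ E : (Fin N → Bool) → ℝ, 0 < ∑ σ, Real.exp (E σ) := fun E =>
    Finset.sum_pos (fun _ _ => Real.exp_pos _) Finset.univ_nonempty
  rw [Real.log_le_iff_le_exp (hp _), Real.exp_add, Real.exp_log (hp _), Finset.sum_mul]
  refine Finset.sum_le_sum fun σ _ => ?_
  rw [← Real.exp_add, Real.exp_le_exp]
  have h1 : ∑ k, θs k (fun ℓ => σ (idx k ℓ)) ≤ ∑ k, θs' k (fun ℓ => σ (idx k ℓ)) + ∑ k, c k := by
    rw [← Finset.sum_add_distrib]
    exact Finset.sum_le_sum fun k _ => h k _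
  have h2 : ∑ i, hs i * spinVal (σ i) ≤ ∑ i, hs' i * spinVal (σ i) + ∑ i, |hs i - hs' i| := by
    rw [← Finset.sum_add_distrib]
    refine Finset.sum_le_sum fun i _ => ?_
    have := le_abs_self ((hs i - hs' i) * spinVal (σ i))
    rw [abs_mul, abs_spinVal] at this
    linarith
  linarith

/-- the averaged logarithm of the partition function -/
noncomputable def avLog (N M : ℕ) (θs : Fin M → Inter p) (hs : Fin N → ℝ) : ℝ :=
  (Fintype.card (Fin M → Fin p → Fin N) : ℝ)⁻¹ *
    ∑ idx : Fin M → Fin p → Fin N, logPartition N θs idx hs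

lemma avLog_eq (N M : ℕ) (θs : Fin M → Inter p) (hs : Fin N → ℝ) :
    avLog N M θs hs = 𝔼 idx : Fin M → Fin p → Fin N, logPartition N θs idx hs := by
  rw [avLog, Fintype.expect_eq_sum_div_card, div_eq_inv_mul]

lemma measurable_avLog (N M : ℕ) : Measurable (uncurry (avLog (p := p) N M)) := by
  unfold uncurry avLog logPartition
  fun_prop

lemma avLog_transfer {μ : Measure (Inter p)} [IsProbabilityMeasure μ] {ν : Measure ℝ}
    [IsProbabilityMeasure ν] {φ : Inter p → Inter p} {c : Inter p → ℝ} {ψ : ℝ → ℝ} {ε ε' : ℝ}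
    (hA : ApxI μ φ c ε) (hR : ApxR ν ψ ε') {N : ℕ} (hN : 0 < N) (M : ℕ) :
    |∫ θs, ∫ hs, avLog N M θs hs ∂(Measure.pi fun _ : Fin N => ν) ∂(Measure.pi fun _ : Fin M => μ) -
      ∫ θs, ∫ hs, avLog N M θs hs ∂(Measure.pi fun _ : Fin N => ν.map ψ)
        ∂(Measure.pi fun _ : Fin M => μ.map φ) - M * ∫ θ, c θ ∂μ| ≤ M * ε + N * ε' := by
  obtain ⟨hψ, hfin, hi, hε⟩ := hR
  have : Nonempty (Fin N) := ⟨⟨0, hN⟩⟩
  have := transferK (K := Fin M) hA (Measure.pi fun _ : Fin N => ν) (ψ := fun x i => ψ (x i))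
    (measurable_pi_lambda _ fun k => hψ.comp (measurable_pi_apply k)) (finite_range_pi hfin)
    (d := fun b b' => ∑ i, |b i - b' i|) (fun b b' => by simp only [abs_sub_comm])
    (integrable_sum_eval ν hi) (measurable_avLog N M) fun θs θs' b b' c h => by
      rw [avLog_eq, avLog_eq, ← Fintype.expect_const (ι := Fin M → Fin p → Fin N)
        (∑ i, |b i - b' i| + ∑ k, c k), ← Finset.expect_add_distrib]
      exact Finset.expect_le_expect fun idx _ => logPartition_le h idx
  rw [map_pi_eq ν hψ, integral_sum_eval ν hi, Fintype.card_fin, Fintype.card_fin] at this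
  exact this.trans (by gcongr)

lemma pressure_transfer {α : ℝ} (hα : 0 < α) {μ : Measure (Inter p)} [IsProbabilityMeasure μ]
    {ν : Measure ℝ} [IsProbabilityMeasure ν] (hμ : Integrable (fun θ => supNorm θ) μ)
    (hν : Integrable (fun x : ℝ => x) ν) {φ : Inter p → Inter p} {c : Inter p → ℝ} {ψ : ℝ → ℝ}
    {ε ε' : ℝ} (hA : ApxI μ φ c ε) (hR : ApxR ν ψ ε') {N : ℕ} (hN : 0 < N) :
    |pressure p α μ ν N - pressure p α (μ.map φ) (ν.map ψ) N - α * ∫ θ, c θ ∂μ| ≤ α * ε + ε' := by
  have : Nonempty (Fin N) := ⟨⟨0, hN⟩⟩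
  have hN' : (0 : ℝ) < N := by exact_mod_cast hN
  have := poi_transfer (lam := α * N) (by positivity) (g := Real.log (2 ^ N))
    (D := ∫ θ, supNorm θ ∂μ) (D' := N * ∫ h, |h| ∂ν) (fun M => by
      have := avLog_transfer (apxI_zero hμ) (apxR_zero hν) hN M
      rw [map_zero_eq, map_zero_eq, pi_dirac_zero, pi_dirac_zero, integral_dirac, integral_dirac,
        avLog_eq] at this
      simpa [logPartition] using this) (avLog_transfer hA hR hN)
  have e : ∀ x y z : ℝ, 1 / (N : ℝ) * x - 1 / (N : ℝ) * y - α * z = (x - y - α * N * z) / N := by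
    intro x y z
    field_simp
  unfold pressure
  rw [e, abs_div, abs_of_pos hN', div_le_iff₀ hN']
  exact this.trans (le_of_eq (by ring))

lemma pressure_toM (α : ℝ) (μ : FLaw (Inter p)) (ν : FLaw ℝ) (N : ℕ) :
    pressure p α μ.toM ν.toM N = finPressure p α μ ν N := by
  simp only [pressure, finPressure, FLaw.integral_pi_toM, ← avLog_eq, avLog]

section
variable {r : ℕ} {m : Fin r → ℝ} {X : (Fin (r + 1) → unitInterval) → ℝ}

lemma measurable_cavV (hm : ∀ d, 0 < m d) (hX : Measurable X) (L : Type) [Fintype L]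
    [DecidableEq L] : Measurable (cavV r m X L) := by
  refine (LipschitzWith.of_le_add fun v v' => cavV_le hm hX fun s => ?_).continuous.measurable
  have := dist_le_pi_dist v v' s
  rw [Real.dist_eq] at this
  linarith [le_abs_self (v s - v' s)]

lemma site_transfer (hm : ∀ d, 0 < m d) (hX : Measurable X) {μ : Measure (Inter p)}
    [IsProbabilityMeasure μ] {ν : Measure ℝ}
    [IsProbabilityMeasure ν] {φ : Inter p → Inter p} {c : Inter p → ℝ} {ψ : ℝ → ℝ} {ε ε' : ℝ}
    (hA : ApxI μ φ c ε) (hR : ApxR ν ψ ε') (k : ℕ) :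
    |∫ θs, ∫ h, cavV r m X (Fin k × Fin (p - 1)) (siteV h θs) ∂ν ∂(Measure.pi fun _ : Fin k => μ) -
      ∫ θs, ∫ h, cavV r m X (Fin k × Fin (p - 1)) (siteV h θs) ∂(ν.map ψ)
        ∂(Measure.pi fun _ : Fin k => μ.map φ) - k * ∫ θ, c θ ∂μ| ≤ k * ε + ε' := by
  obtain ⟨hψ, hfin, hi, hε⟩ := hR
  have := transferK (K := Fin k) hA ν hψ hfin (d := fun b b' => |b - b'|) abs_sub_comm hi
    (G := fun θs h => cavV r m X (Fin k × Fin (p - 1)) (siteV h θs))
    ((measurable_cavV hm hX _).comp (measurable_pi_lambda _ fun s => by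
      unfold siteV
      fun_prop))
    fun θs θs' b b' c h => cavV_le hm hX (siteV_le h)
  rw [Fintype.card_fin] at this
  exact this.trans (by gcongr)

lemma trial_transfer (hp : 2 ≤ p) {α : ℝ} (hα : 0 < α) (hm : ∀ d, 0 < m d) (hX : Measurable X)
    {μ : Measure (Inter p)} [IsProbabilityMeasure μ]
    {ν : Measure ℝ} [IsProbabilityMeasure ν] (hμ : Integrable (fun θ => supNorm θ) μ)
    (hν : Integrable (fun x : ℝ => x) ν) {φ : Inter p → Inter p} {c : Inter p → ℝ} {ψ : ℝ → ℝ}
    {ε ε' : ℝ} (hA : ApxI μ φ c ε) (hR : ApxR ν ψ ε') :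
    |trialFunctional p α μ ν r m X - trialFunctional p α (μ.map φ) (ν.map ψ) r m X -
      α * ∫ θ, c θ ∂μ| ≤ α * p * ε + ε' + α * (p - 1) * ε := by
  have h1 := poi_transfer (lam := α * p) (by positivity) (g := 0)
    (D := ∫ θ, supNorm θ ∂μ) (D' := ∫ h, |h| ∂ν) (fun k => by
      have := site_transfer hm hX (apxI_zero hμ) (apxR_zero hν) k
      rw [map_zero_eq, map_zero_eq, pi_dirac_zero, integral_dirac, integral_dirac] at this
      have h0 := cavV_abs hm hX (B := 0)
        (v := siteV (p := p) (k := k) 0 0) fun s => by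
          rw [abs_nonpos_iff]
          exact siteV_zero s
      rw [abs_nonpos_iff] at h0
      rw [h0] at this
      simpa using this) (site_transfer hm hX hA hR)
  have h2 := transferE hA (G := cavV r m X (Fin p)) fun θ θ' c h => cavV_le hm hX h
  have hp' : (2 : ℝ) ≤ p := by exact_mod_cast hp
  have h3 : 0 ≤ α * (p - 1) := mul_nonneg hα.le (by linarith)
  have h4 := mul_le_mul_of_nonneg_left (abs_le.1 h2).1 h3
  have h5 := mul_le_mul_of_nonneg_left (abs_le.1 h2).2 h3
  have h6 := abs_le.1 h1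
  rw [trialFunctional_eq, trialFunctional_eq, abs_le]
  constructor <;> linarith [h6.1, h6.2]

end

lemma inc_le {N : ℕ} (hN : 0 < N) (T : Trial) {S : Type} [Fintype S] [Nonempty S] (H : Path S → ℝ)
    (σ : S → Fin N → Bool) (ω : Path S) (b : Fin p → Bool) (θ θ' : Inter p) (c : ℝ)
    (h : ∀ s, θ s ≤ θ' s + c) : inc T H σ ω b θ ≤ inc T H σ ω b θ' + c := by
  have : Nonempty (Fin N) := ⟨⟨0, hN⟩⟩
  unfold inc
  rw [← Fintype.expect_const (ι := Fin p → Fin N) c, ← Finset.expect_add_distrib]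
  refine Finset.expect_le_expect fun idx _ => ?_
  rw [← Fintype.expect_const (ι := Fin p → T.I) c, ← Finset.expect_add_distrib]
  refine Finset.expect_le_expect fun ι _ => ?_
  rw [← Psi_add_const]
  unfold Psi
  exact sub_le_sub_right (X_mono _ (fun x => by linarith [h (fun l =>
    if b l then σ (x T.P.r).1 (idx l) else T.s (ι l) ((x T.P.r).2 l))]) _ _) _

lemma key_transfer (hp : 2 ≤ p) {μ : Measure (Inter p)} [IsProbabilityMeasure μ]
    {φ : Inter p → Inter p} {c : Inter p → ℝ} {ε : ℝ} (hA : ApxI μ φ c ε)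
    (hK : Key p (fun g => ∫ θ, g θ ∂μ) 0) : Key p (fun g => ∫ θ, g θ ∂(μ.map φ)) (2 * ε) := by
  intro T N hN S _ _ H σ ω
  have h0 := hK T N hN S H σ ω
  have h1 := abs_le.1 (transferE hA (inc_le hN T H σ ω fun _ => true))
  have h2 := abs_le.1 (transferE hA (inc_le hN T H σ ω fun _ => false))
  have h3 := abs_le.1 (transferE hA (inc_le hN T H σ ω (lastMask p)))
  have hp' : (2 : ℝ) ≤ p := by exact_mod_cast hp
  have a1 : (0 : ℝ) ≤ 1 / p := by positivity
  have a2 : (0 : ℝ) ≤ (p - 1) / p := div_nonneg (by linarith) (by linarith)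
  have a3 : (p - 1 : ℝ) / p = 1 - 1 / p := by field_simp
  have h4 := mul_le_mul_of_nonneg_left h1.1 a1
  have h5 := mul_le_mul_of_nonneg_left h2.1 a2
  simp only at h0 ⊢
  rw [a3] at h0 h5 ⊢
  linarith [h3.2]

end Crest.Agent.R141
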