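import Crest.Agent.R141.Stmts

/-! Row 141: the upper bound for finitely supported laws and measurable trials. -/

set_option autoImplicit false
open MeasureTheory
open Crest.ProbabilityR.Diluted

namespace Crest.Agent.R141

/-- `FinUpperStmt` and `ApproxStmt` combined -/
def UpperMeasStmt : Prop :=
  ∀ (p : ℕ), 2 ≤ p → ∀ (α : ℝ), 0 < α → ∀ (μ : FLaw (Inter p)) (ν : FLaw ℝ) (ε : ℝ),
    Key p μ.ex ε → ∀ (r : ℕ) (m : Fin r → ℝ) (X : (Fin (r + 1) → unitInterval) → ℝ),
    AdmissibleExponents m → Measurable X → ∀ N : ℕ, 0 < N →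
      finPressure p α μ ν N ≤ trialFunctional p α μ.toM ν.toM r m X + α * p * ε

end Crest.Agent.R141
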