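import Crest.Agent.R141.Disc2
import Crest.Agent.R141.Stmts2

/-! Row 141: discretisation of the laws and the final squeeze. -/

set_option autoImplicit false
open MeasureTheory ProbabilityTheory Finset Function Filter Topology
open scoped BigOperators
open Crest.ProbabilityR.Diluted

namespace Crest.Agent.R141

variable {p : ℕ}

/-- simple approximations of the identity -/
noncomputable def rho0 (n : ℕ) : SimpleFunc ℝ ℝ :=
  SimpleFunc.approxOn id measurable_id Set.univ 0 (Set.mem_univ _) n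

lemma rho0_le (n : ℕ) (x : ℝ) : |x - rho0 n x| ≤ |x| := by
  have := SimpleFunc.edist_approxOn_le measurable_id (Set.mem_univ (0 : ℝ)) x n
  rw [edist_dist, edist_dist, ENNReal.ofReal_le_ofReal_iff dist_nonneg, Real.dist_eq,
    Real.dist_eq] at this
  simpa [abs_sub_comm, rho0] using this

lemma rho0_tendsto (x : ℝ) : Tendsto (fun n => |x - rho0 n x|) atTop (𝓝 0) := by
  have := SimpleFunc.tendsto_approxOn measurable_id (Set.mem_univ (0 : ℝ)) (x := x) (by simp)
  have h2 := ((tendsto_const_nhds (x := x)).sub this).abs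
  simpa [rho0] using h2

lemma rho0_int {A : Type} [MeasurableSpace A] (μ : Measure A) {f : A → ℝ} (hf : Measurable f)
    (hi : Integrable f μ) : (∀ n, Integrable (fun a => |f a - rho0 n (f a)|) μ) ∧
      Tendsto (fun n => ∫ a, |f a - rho0 n (f a)| ∂μ) atTop (𝓝 0) := by
  have hm : ∀ n, AEStronglyMeasurable (fun a => |f a - rho0 n (f a)|) μ := fun n =>
    (hf.sub ((rho0 n).measurable.comp hf)).abs.aestronglyMeasurable
  have hb : ∀ n, ∀ᵐ a ∂μ, ‖|f a - rho0 n (f a)|‖ ≤ |f a| := fun n => ae_of_all _ fun a => by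
    rw [Real.norm_eq_abs, abs_abs]
    exact rho0_le n _
  refine ⟨fun n => hi.abs.mono' (hm n) (hb n), ?_⟩
  simpa using tendsto_integral_of_dominated_convergence (fun a => |f a|) hm hi.abs hb
    (ae_of_all _ fun a => rho0_tendsto (f a))

lemma exists_apxR {ν : Measure ℝ} (hν : Integrable (fun x : ℝ => x) ν) {ε : ℝ} (hε : 0 < ε) :
    ∃ ψ, ApxR ν ψ ε := by
  obtain ⟨h1, h2⟩ := rho0_int ν measurable_id' hν
  obtain ⟨n, hn⟩ := (h2.eventually (ge_mem_nhds hε)).exists
  exact ⟨rho0 n, (rho0 n).measurable, (rho0 n).finite_range, h1 n, hn⟩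

/-- the mean of an interaction -/
noncomputable def mean (θ : Inter p) : ℝ := 𝔼 s, θ s

/-- the centred interaction -/
noncomputable def cen (θ : Inter p) : Inter p := fun s => θ s - mean θ

lemma measurable_mean : Measurable (mean (p := p)) := by
  unfold mean
  simp only [Fintype.expect_eq_sum_div_card]
  fun_prop

lemma measurable_cen : Measurable (cen (p := p)) :=
  measurable_pi_lambda _ fun s => (measurable_pi_apply s).sub measurable_mean

lemma exists_apxI {μ : Measure (Inter p)} (hμ : Integrable (fun θ => supNorm θ) μ) {ε : ℝ}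
    (hε : 0 < ε) : ∃ ρ : ℝ → ℝ, Measurable ρ ∧ ApxI μ (fun θ s => ρ (cen θ s)) mean ε := by
  have h1 : ∀ s, Integrable (fun θ : Inter p => θ s) μ := fun s =>
    hμ.mono' (measurable_pi_apply s).aestronglyMeasurable
      (ae_of_all _ fun θ => abs_le_supNorm θ s)
  have h2 : Integrable mean μ := by
    unfold mean
    simp only [Fintype.expect_eq_sum_div_card]
    exact (integrable_finsetSum _ fun s _ => h1 s).div_const _
  have h3 := fun s => rho0_int μ (f := fun θ : Inter p => cen θ s)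
    ((measurable_pi_apply s).comp measurable_cen) ((h1 s).sub h2)
  have h4 := tendsto_finsetSum Finset.univ fun s _ => (h3 s).2
  rw [Finset.sum_const_zero] at h4
  obtain ⟨n, hn⟩ := (h4.eventually (ge_mem_nhds hε)).exists
  refine ⟨rho0 n, (rho0 n).measurable, measurable_pi_lambda _ fun s =>
    (rho0 n).measurable.comp ((measurable_pi_apply s).comp measurable_cen), ?_, h2,
    fun θ => ∑ s, |cen θ s - rho0 n (cen θ s)|, integrable_finsetSum _ fun s _ => (h3 s).1 n, ?_,
    fun θ s => ?_⟩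
  · refine (finite_range_pi (K := Fin p → Bool) (rho0 n).finite_range).subset ?_
    rintro _ ⟨θ, rfl⟩
    exact ⟨cen θ, rfl⟩
  · rwa [integral_finsetSum _ fun s _ => (h3 s).1 n]
  · rw [sub_right_comm]
    exact Finset.single_le_sum (f := fun s => |cen θ s - rho0 n (cen θ s)|)
      (fun _ _ => abs_nonneg _) (Finset.mem_univ s)

/-- permuting the arguments -/
def prm (π : Equiv.Perm (Fin p)) (θ : Inter p) : Inter p := fun s => θ (s ∘ π)

lemma measurable_prm (π : Equiv.Perm (Fin p)) : Measurable (prm π) :=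
  measurable_pi_lambda _ fun _ => measurable_pi_apply _

lemma cen_prm (π : Equiv.Perm (Fin p)) (θ : Inter p) : cen (prm π θ) = prm π (cen θ) := by
  have : mean (prm π θ) = mean θ :=
    Fintype.expect_equiv (π.symm.arrowCongr (Equiv.refl Bool)) _ _ fun _ => rfl
  funext s
  simp only [cen, this, prm]

lemma cen_add (θ : Inter p) (c : ℝ) : cen (fun s => c + θ s) = cen θ := by
  funext s
  simp only [cen, mean, Finset.expect_add_distrib, Fintype.expect_const]
  ring

lemma sym_cen {μ : Measure (Inter p)} (hfac : HasFactorization p μ) (π : Equiv.Perm (Fin p)) :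
    (μ.map cen).map (prm π) = μ.map cen := by
  obtain ⟨Ω, _, P, _, a, b, f, ha, hb, hf, hind, hid, hbf, hae, -, rfl⟩ := hfac
  let Θ : ℝ × (Fin p → Bool → ℝ) → Inter p := fun q s => Real.log (1 + q.1 * ∏ ℓ, q.2 ℓ (s ℓ))
  have hΘ : Measurable Θ := measurable_pi_lambda _ fun s => by fun_prop
  have hT : Measurable fun ω => fun s : Fin p → Bool =>
      Real.log (a ω * (1 + b ω * ∏ ℓ, f ℓ ω (s ℓ))) := measurable_pi_lambda _ fun s => by fun_prop
  have hpair : ∀ σ : Equiv.Perm (Fin p), Measurable fun ω => (b ω, fun ℓ => f (σ ℓ) ω) := fun σ =>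
    hb.prodMk (measurable_pi_lambda _ fun ℓ => hf _)
  have hlaw : ∀ σ : Equiv.Perm (Fin p), P.map (fun ω => (b ω, fun ℓ => f (σ ℓ) ω)) =
      (P.map b).prod (Measure.pi fun ℓ : Fin p => P.map (f ⟨0, Fin.pos ℓ⟩)) := by
    intro σ
    have h1 : IndepFun b (fun ω ℓ => f (σ ℓ) ω) P :=
      hbf.comp measurable_id (ψ := fun (x : Fin p → Bool → ℝ) ℓ => x (σ ℓ))
        (measurable_pi_lambda _ fun ℓ => measurable_pi_apply _)
    rw [h1.map_prod_eq_prod_map_map hb.aemeasurable
      (measurable_pi_lambda _ fun ℓ => hf _).aemeasurable,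
      iIndepFun.map_fun_eq_pi_map (fun ℓ => (hf _).aemeasurable) (hind.precomp σ.injective)]
    congr 2
    funext ℓ
    exact (hid (σ ℓ)).map_eq
  have h1 : (P.map fun ω => fun s : Fin p → Bool =>
      Real.log (a ω * (1 + b ω * ∏ ℓ, f ℓ ω (s ℓ)))).map cen =
      (P.map fun ω => (b ω, fun ℓ => f ((1 : Equiv.Perm (Fin p)) ℓ) ω)).map (cen ∘ Θ) := by
    rw [Measure.map_map measurable_cen hT, Measure.map_map (measurable_cen.comp hΘ) (hpair 1)]
    refine Measure.map_congr (hae.mono fun ω hω => ?_)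
    simp only [Function.comp_apply]
    rw [← cen_add (Θ _) (Real.log (a ω))]
    congr 1
    funext s
    rw [Real.log_mul hω.1.ne' (by linarith [(abs_lt.1 (hω.2 s)).1])]
    rfl
  rw [h1, Measure.map_map (measurable_prm π) (measurable_cen.comp hΘ)]
  conv_rhs => rw [hlaw 1, ← hlaw π.symm]
  rw [Measure.map_map ((measurable_prm π).comp (measurable_cen.comp hΘ)) (hpair 1),
    Measure.map_map (measurable_cen.comp hΘ) (hpair π.symm)]
  congr 1
  funext ω
  simp only [Function.comp_apply]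
  rw [← cen_prm]
  congr 1
  funext s
  simp only [prm, Θ]
  rw [← Equiv.prod_comp π fun ℓ => f (π.symm ℓ) ω (s ℓ)]
  simp

lemma sym_flaw {μ : Measure (Inter p)} (hfac : HasFactorization p μ) {ρ : ℝ → ℝ}
    (hρ : Measurable ρ) {μ' : FLaw (Inter p)} (h : μ'.toM = μ.map fun θ s => ρ (cen θ s))
    (π : Equiv.Perm (Fin p)) (g : Inter p → ℝ) : μ'.ex (fun θ => g fun s => θ (s ∘ π)) = μ'.ex g := by
  have hR : Measurable fun (θ : Inter p) s => ρ (θ s) :=
    measurable_pi_lambda _ fun s => hρ.comp (measurable_pi_apply s)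
  have h1 : μ'.toM = (μ.map cen).map fun θ s => ρ (θ s) := by
    rw [h, Measure.map_map hR measurable_cen]
    rfl
  have h2 : μ'.toM.map (prm π) = μ'.toM := by
    rw [h1]
    conv_rhs => rw [← sym_cen hfac π]
    rw [Measure.map_map (measurable_prm π) hR, Measure.map_map hR (measurable_prm π)]
    rfl
  let e : Inter p ≃ᵐ Inter p :=
    { toFun := prm π
      invFun := prm π.symm
      left_inv := fun θ => by
        funext s
        simp [prm, Function.comp_assoc]
      right_inv := fun θ => by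
        funext s
        simp [prm, Function.comp_assoc]
      measurable_toFun := measurable_prm π
      measurable_invFun := measurable_prm π.symm }
  have h3 := integral_map_equiv (μ := μ'.toM) e g
  rw [show μ'.toM.map e = μ'.toM from h2, FLaw.integral_toM, FLaw.integral_toM] at h3
  exact h3.symm

theorem S0192_of (hK : KeyIntStmt) (hU : UpperMeasStmt) (hL : FinLowerStmt) (hS : SimStmt)
    (p : ℕ) (hp : Even p)
    (hp2 : 2 ≤ p) (α : ℝ) (hα : 0 < α) (μ : MeasureTheory.Measure (Crest.ProbabilityR.Diluted.Inter p))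
    [MeasureTheory.IsProbabilityMeasure μ] (ν : MeasureTheory.Measure ℝ)
    [MeasureTheory.IsProbabilityMeasure ν]
    (hμ : MeasureTheory.Integrable (fun θ => Crest.ProbabilityR.Diluted.supNorm θ) μ)
    (hν : MeasureTheory.Integrable (fun x : ℝ => x) ν) (hfac : Crest.ProbabilityR.Diluted.HasFactorization p μ) :
    ∃ F : ℝ, Filter.Tendsto (Crest.ProbabilityR.Diluted.pressure p α μ ν) Filter.atTop (nhds F) ∧
      IsGLB {B : ℝ | ∃ (r : ℕ) (m : Fin r → ℝ) (X : (Fin (r + 1) → unitInterval) → ℝ),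
        Crest.ProbabilityR.Diluted.AdmissibleExponents m ∧ Measurable X ∧
        B = Crest.ProbabilityR.Diluted.trialFunctional p α μ ν r m X} F := by
  set 𝓑 := {B : ℝ | ∃ (r : ℕ) (m : Fin r → ℝ) (X : (Fin (r + 1) → unitInterval) → ℝ),
    AdmissibleExponents m ∧ Measurable X ∧ B = trialFunctional p α μ ν r m X} with h𝓑
  have hp' : (2 : ℝ) ≤ p := by exact_mod_cast hp2
  obtain ⟨C, hC⟩ : ∃ C : ℝ, C = α + 4 * (α * p) + 3 := ⟨_, rfl⟩
  have hC0 : 0 < C := by rw [hC]; positivity
  have data : ∀ ε > 0, ∃ (μ' : FLaw (Inter p)) (ν' : FLaw ℝ) (c : ℝ), Key p μ'.ex (2 * ε) ∧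
      (∀ (π : Equiv.Perm (Fin p)) (g : Inter p → ℝ),
        μ'.ex (fun θ => g fun s => θ (s ∘ π)) = μ'.ex g) ∧
      (∀ N, 0 < N → |pressure p α μ ν N - finPressure p α μ' ν' N - c| ≤ α * ε + ε) ∧
      ∀ (r : ℕ) (m : Fin r → ℝ) (X : (Fin (r + 1) → unitInterval) → ℝ), AdmissibleExponents m →
        Measurable X → |trialFunctional p α μ ν r m X - trialFunctional p α μ'.toM ν'.toM r m X -
          c| ≤ α * p * ε + ε + α * (p - 1) * ε := by
    intro ε hε
    obtain ⟨ρ, hρ, h1⟩ := exists_apxI hμ hε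
    obtain ⟨ψ, h2⟩ := exists_apxR hν hε
    obtain ⟨μ', hμ'⟩ := exists_flaw μ h1.1 h1.2.1
    obtain ⟨ν', hν'⟩ := exists_flaw ν h2.1 h2.2.1
    refine ⟨μ', ν', α * ∫ θ, mean θ ∂μ, ?_, sym_flaw hfac hρ hμ', fun N hN => ?_,
      fun r m X hm hX => ?_⟩
    · have := key_transfer hp2 h1 (hK p hp hp2 μ hμ hfac)
      rw [← hμ'] at this
      simpa only [FLaw.integral_toM] using this
    · rw [← pressure_toM, hμ', hν']
      exact pressure_transfer hα hμ hν h1 h2 hN
    · rw [hμ', hν']
      exact trial_transfer hp2 hα (fun d => (hm.2 d).1) hX hμ hν h1 h2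
  have hup : ∀ N, 0 < N → pressure p α μ ν N ∈ lowerBounds 𝓑 := by
    rintro N hN _ ⟨r, m, X, hm, hX, rfl⟩
    refine le_of_forall_pos_le_add fun η hη => ?_
    obtain ⟨ε, hε, rfl⟩ : ∃ ε, 0 < ε ∧ η = C * ε := ⟨η / C, by positivity, by field_simp⟩
    obtain ⟨μ', ν', c, h1, -, h3, h4⟩ := data ε hε
    have a1 := hU p hp2 α hα μ' ν' _ h1 r m X hm hX N hN
    have a2 := (abs_le.1 (h3 N hN)).2
    have a3 := (abs_le.1 (h4 r m X hm hX)).1
    have a5 := mul_pos hα hε
    rw [hC]
    linarith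
  have hne : 𝓑.Nonempty := ⟨_, 0, Fin.elim0, fun _ => 0,
    ⟨fun a => a.elim0, fun a => a.elim0⟩, measurable_const, rfl⟩
  have hglb := isGLB_csInf hne ⟨_, hup 1 one_pos⟩
  refine ⟨sInf 𝓑, ?_, hglb⟩
  rw [tendsto_order]
  refine ⟨fun y hy => ?_, fun y hy => ?_⟩
  · obtain ⟨ε, hε, he⟩ : ∃ ε, 0 < ε ∧ sInf 𝓑 - y = C * ε :=
      ⟨(sInf 𝓑 - y) / C, div_pos (sub_pos.2 hy) hC0, by field_simp⟩
    obtain ⟨μ', ν', c, -, h2, h3, h4⟩ := data ε hε
    have a0 := hL p hp2 α hα μ' ν' h2 (sInf 𝓑 - c - (α * p * ε + ε + α * (p - 1) * ε))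
      (fun T hT => by
        obtain ⟨r, m, X, hm, hX, he⟩ := hS p hp2 α hα μ' ν' T hT
        have a1 := hglb.1 ⟨r, m, X, hm, hX, rfl⟩
        have a2 := (abs_le.1 (h4 r m X hm hX)).2
        linarith) ε hε
    filter_upwards [a0, eventually_gt_atTop 0] with N a1 hN
    have a2 := (abs_le.1 (h3 N hN)).1
    have a5 := mul_pos hα hε
    have a6 : 0 < α * p * ε := by positivity
    rw [hC] at he
    linarith
  · filter_upwards [eventually_gt_atTop 0] with N hN
    exact (hglb.2 (hup N hN)).trans_lt hy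

end Crest.Agent.R141
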