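import Crest.Agent.R141.Tree

/-! Row 141: small perturbations whose first-order response is a prescribed tree moment. -/

set_option autoImplicit false
open Finset Function
open scoped BigOperators

namespace Crest.Agent.R141

open BT

section flip
variable {S : Type}

/-- apply `φ` to the coordinate `u` -/
def fl (φ : S → S) (u : ℕ) (ω : Path S) : Path S := update ω u (φ (ω u))

/-- invariance under `fl` -/
def Inv (φ : S → S) (u : ℕ) (f : Path S → ℝ) : Prop := ∀ ω, f (fl φ u ω) = f ω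

variable {φ : S → S} {u : ℕ}

lemma Inv.map₂ {f g : Path S → ℝ} (F : ℝ → ℝ → ℝ) (hf : Inv φ u f) (hg : Inv φ u g) :
    Inv φ u fun ω => F (f ω) (g ω) := fun ω => by simp only [hf ω, hg ω]

lemma Inv.add {f g : Path S → ℝ} (hf : Inv φ u f) (hg : Inv φ u g) :
    Inv φ u fun ω => f ω + g ω := hf.map₂ (· + ·) hg

lemma Inv.mul {f g : Path S → ℝ} (hf : Inv φ u f) (hg : Inv φ u g) :
    Inv φ u fun ω => f ω * g ω := hf.map₂ (· * ·) hg

lemma Inv.sub {f g : Path S → ℝ} (hf : Inv φ u f) (hg : Inv φ u g) :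
    Inv φ u fun ω => f ω - g ω := hf.map₂ (· - ·) hg

lemma Inv.const (c : ℝ) : Inv φ u fun _ => c := fun _ => rfl

lemma Inv.sum {B : Type*} (s : Finset B) {f : B → Path S → ℝ} (hf : ∀ b ∈ s, Inv φ u (f b)) :
    Inv φ u fun ω => ∑ b ∈ s, f b ω := fun ω => sum_congr rfl fun b hb => hf b hb ω

lemma update_fl_ne {t : ℕ} (h : t ≠ u) (ω : Path S) (s : S) :
    update (fl φ u ω) t s = fl φ u (update ω t s) := by
  rw [fl, fl, update_comm h.symm, update_of_ne h.symm]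

lemma fl_apply_ne {t : ℕ} (h : t ≠ u) (ω : Path S) : fl φ u ω t = ω t := update_of_ne h _ _

lemma fl_apply_self (ω : Path S) : fl φ u ω u = φ (ω u) := update_self _ _ _

variable [Fintype S] (P : Par)

lemma X_inv {H : Path S → ℝ} (hH : Inv φ u H) (t : ℕ) : Inv φ u (X P H t) := by
  induction t using P.down with
  | h0 t ht => rwa [X_top P H ht]
  | hs t ht ih =>
    intro ω
    by_cases h : t = u
    · subst h; exact X_meas P H t t le_rfl ht ω _
    · simp only [X_step P H ht, stepX, update_fl_ne h, ih _]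

lemma rho_inv {H : Path S → ℝ} (hH : Inv φ u H) (t : ℕ) : Inv φ u (rho P H t) :=
  Inv.map₂ (fun a b => Real.exp (P.m t * (a - b))) (X_inv P hH _) (X_inv P hH _)

lemma E_fl (hφ : Unif φ) {H : Path S → ℝ} (hH : Inv φ u H) (t : ℕ) (f : Path S → ℝ)
    (ω : Path S) : E P H t ω (fun x => f (fl φ u x)) = E P H t (fl φ u ω) f := by
  induction t using P.down generalizing ω with
  | h0 t ht => simp only [E_top P H ht]
  | hs t ht ih =>
    simp only [E_step P H ht, KK_apply, ih]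
    by_cases h : t = u
    · subst h
      rw [← hφ fun s => rho P H t (update (fl φ t ω) t s) * E P H (t + 1) (update (fl φ t ω) t s) f]
      refine expect_congr rfl fun s _ => ?_
      rw [← rho_inv P hH t (update ω t s)]
      simp [fl]
    · simp only [update_fl_ne h, rho_inv P hH t _]

lemma E_inv (hφ : Unif φ) {H f : Path S → ℝ} (hH : Inv φ u H) (hf : Inv φ u f) (t : ℕ) :
    Inv φ u fun ω => E P H t ω f := fun ω => by
  simp only [← E_fl P hφ hH, hf _]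

lemma E_odd (hφ : Unif φ) {H f : Path S → ℝ} (hH : Inv φ u H) (hf : ∀ ω, f (fl φ u ω) = -f ω)
    {t : ℕ} (h1 : t ≤ u) (h2 : u ≤ P.r) (ω : Path S) : E P H t ω f = 0 := by
  have := E_fl P hφ hH t f ω
  simp only [hf, lin_neg] at this
  have h3 : E P H t (fl φ u ω) f = E P H t ω f := E_meas P H t f u h1 h2 ω _
  linarith

/-- conditional expectation of a sign times an invariant function -/
lemma E_sign_mul (hφ : Unif φ) {H f : Path S → ℝ} (hH : Inv φ u H) (hf : Inv φ u f)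
    (hu : u ≤ P.r) {z : S → ℝ} (hz : ∀ s, z (φ s) = -z s) (t : ℕ) (ω : Path S) :
    E P H t ω (fun x => z (x u) * f x) = z (ω u) * if u < t then E P H t ω f else 0 := by
  split_ifs with h
  · exact E_mul_meas P H (Meas.coord h z) f ω
  · rw [mul_zero]
    exact E_odd P hφ hH (fun x => by rw [fl_apply_self, hz, hf x, neg_mul]) (not_lt.1 h) hu ω

end flip

section stab
variable {S : Type} [Fintype S] [Nonempty S] (P : Par)

lemma E_stab' {H δ : Path S → ℝ} {η : ℝ} (hη : ∀ ω, |δ ω| ≤ η) (h1 : kap P * η ≤ 1) (t : ℕ)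
    {f : Path S → ℝ} {c : ℝ} (hf : ∀ ω, |f ω| ≤ c) (ω : Path S) :
    |E P (fun x => H x + δ x) t ω f - E P H t ω f| ≤ 2 * kap P * η * c := by
  have h0 : 0 ≤ η := (abs_nonneg _).trans (hη ω)
  have := one_le_kap P
  exact (E_stab P hη h1 t f ω).trans
    (mul_le_mul_of_nonneg_left ((E_isP P H t ω).le hf) (by positivity))

lemma E_mom_abs (H : Path S → ℝ) (A : BT) {f : A.Lf → Path S → ℝ} (hf : ∀ l x, |f l x| ≤ 1)
    (t : ℕ) (ω : Path S) : |E P H t ω (mom P H A f)| ≤ 1 :=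
  (E_isP P H t ω).abs_le_of fun x => by simpa using mom_abs P H A f hf x

lemma abs_mul_sub_mul {a b a' b' : ℝ} (hb : |b| ≤ 1) (ha' : |a'| ≤ 1) :
    |a * b - a' * b'| ≤ |a - a'| + |b - b'| := by
  have : a * b - a' * b' = (a - a') * b + a' * (b - b') := by ring
  rw [this]
  refine (abs_add_le _ _).trans ?_
  rw [abs_mul, abs_mul]
  nlinarith [abs_nonneg (a - a'), abs_nonneg (b - b')]

lemma mom_stab {H δ : Path S → ℝ} {η : ℝ} (hη : ∀ ω, |δ ω| ≤ η) (h1 : kap P * η ≤ 1) (A : BT)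
    {f : A.Lf → Path S → ℝ} (hf : ∀ l x, |f l x| ≤ 1) (t : ℕ) (ω : Path S) :
    |E P (fun x => H x + δ x) t ω (mom P (fun x => H x + δ x) A f) - E P H t ω (mom P H A f)| ≤
      2 * kap P * η * (2 * A.size - 1) := by
  induction A generalizing t ω with
  | leaf =>
    have := E_stab' P (H := H) hη h1 t (hf ()) ω
    simp only [size, mom]
    norm_num at this ⊢
    exact this
  | node k l r ih1 ih2 =>
    have a1 := E_stab' P (H := H) hη h1 t (f := mom P H (node k l r) f) (c := 1)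
      (fun x => by simpa using mom_abs P H _ f hf x) ω
    have a2 := (E_isP P (fun x => H x + δ x) t ω).abs_sub_le
      (f := mom P (fun x => H x + δ x) (node k l r) f) (g := mom P H (node k l r) f)
      (c := 2 * kap P * η * (2 * l.size - 1) + 2 * kap P * η * (2 * r.size - 1)) fun x =>
        (abs_mul_sub_mul (E_mom_abs P _ r (fun _ => hf _) k x)
          (E_mom_abs P _ l (fun _ => hf _) k x)).trans
          (add_le_add (ih1 (fun _ => hf _) k x) (ih2 (fun _ => hf _) k x))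
    refine (abs_sub_le _ _ _).trans ((add_le_add a2 a1).trans (le_of_eq ?_))
    simp only [size]; push_cast; ring

end stab

namespace BT

/-- level of the root -/
def root (R : ℕ) : BT → ℕ
  | leaf => R + 2
  | node k _ _ => k

/-- strictly increasing levels -/
def SW (R : ℕ) : BT → Prop
  | leaf => True
  | node k l r => 1 ≤ k ∧ k ≤ R ∧ k < l.root R ∧ k < r.root R ∧ SW R l ∧ SW R r

def Nd : BT → Type
  | leaf => Empty
  | node _ l r => Option (l.Nd ⊕ r.Nd)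

instance fintypeNd : (A : BT) → Fintype A.Nd
  | leaf => inferInstanceAs (Fintype Empty)
  | node _ l r =>
    letI := fintypeNd l
    letI := fintypeNd r
    inferInstanceAs (Fintype (Option (l.Nd ⊕ r.Nd)))

end BT

section gadget
variable {Λ : Type} [DecidableEq Λ]

/-- state of one site: a spin and auxiliary bits -/
abbrev Z (Λ : Type) := Bool × (Λ → Bool)

def flipZ (v : Λ) (z : Z Λ) : Z Λ := (z.1, update z.2 v (!z.2 v))

noncomputable def sgnZ (v : Λ) (z : Z Λ) : ℝ := if z.2 v then 1 else -1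

lemma sgnZ_flip (v : Λ) (z : Z Λ) : sgnZ v (flipZ v z) = -sgnZ v z := by
  simp only [sgnZ, flipZ, update_self]
  cases z.2 v <;> simp

lemma sgnZ_flip_ne {v v' : Λ} (h : v' ≠ v) (z : Z Λ) : sgnZ v' (flipZ v z) = sgnZ v' z := by
  simp only [sgnZ, flipZ, update_of_ne h]

omit [DecidableEq Λ] in
lemma sgnZ_sq (v : Λ) (z : Z Λ) : sgnZ v z * sgnZ v z = 1 := by
  unfold sgnZ; split_ifs <;> simp

omit [DecidableEq Λ] in
lemma sgnZ_abs (v : Λ) (z : Z Λ) : |sgnZ v z| = 1 := by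
  unfold sgnZ; split_ifs <;> simp

lemma inv_sgn_ne {v v' : Λ} (h : v' ≠ v) (u t : ℕ) :
    Inv (flipZ v) u fun ω : Path (Z Λ) => sgnZ v' (ω t) := by
  intro ω
  by_cases ht : t = u
  · subst ht; simp only [fl_apply_self, sgnZ_flip_ne h]
  · simp only [fl_apply_ne ht]

/-- indicator of the value of the spin -/
noncomputable def ind (R : ℕ) (b : Bool) (ω : Path (Z Λ)) : ℝ := if (ω R).1 = b then 1 else 0

omit [DecidableEq Λ] in
lemma ind_abs (R : ℕ) (b : Bool) (ω : Path (Z Λ)) : |ind R b ω| ≤ 1 := by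
  unfold ind; split_ifs <;> simp

lemma ind_inv (R : ℕ) (b : Bool) (v : Λ) (u : ℕ) : Inv (flipZ v) u (ind R b) := by
  intro ω
  by_cases h : R = u
  · subst h; simp only [ind, fl_apply_self, flipZ]
  · simp only [ind, fl_apply_ne h]

lemma Inv.lift {S : Type} {π : S → Z Λ} {φ : S → S} {v : Λ} (h : ∀ s, π (φ s) = flipZ v (π s))
    {u : ℕ} {f : Path (Z Λ) → ℝ} (hf : Inv (flipZ v) u f) : Inv φ u fun ω => f (π ∘ ω) := by
  intro ω
  show f (π ∘ fl φ u ω) = f (π ∘ ω)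
  rw [← hf (π ∘ ω)]
  simp only [fl, comp_update, h, comp_apply]

variable (P : Par)

/-- the specification of a gadget -/
structure GOK (A : BT) (x : A.Lf → Bool) (U : Set Λ) (h δ : Path (Z Λ) → ℝ) (c ε : ℝ) : Prop where
  hh : ∀ ω, |h ω| ≤ 1
  hδ : ∀ ω, |δ ω| ≤ ε
  cpos : 0 < c
  invh : ∀ v ∉ U, ∀ u, Inv (flipZ v) u h
  invδ : ∀ v ∉ U, ∀ u, Inv (flipZ v) u δ
  main : ∀ (S : Type) [Fintype S] [Nonempty S] (π : S → Z Λ) (φ : Λ → S → S),
    (∀ v, Unif (φ v)) → (∀ v s, π (φ v s) = flipZ v (π s)) → ∀ H : Path S → ℝ,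
    (∀ v ∈ U, ∀ u, Inv (φ v) u H) → ∀ t < A.root P.r, ∀ ω,
    |E P (fun y => H y + δ (π ∘ y)) t ω (fun y => h (π ∘ y)) -
      c * E P H t ω (mom P H A fun l y => ind P.r (x l) (π ∘ y))| ≤ ε * c

lemma lin_two_signs {S : Type} [Fintype S] {φ : S → S} (hφ : Unif φ) {H f : Path S → ℝ} {k : ℕ}
    (hH : ∀ u, Inv φ u H) (hf : ∀ u, Inv φ u f) (hk : k + 1 ≤ P.r) {z : S → ℝ}
    (hz : ∀ s, z (φ s) = -z s) (hz2 : ∀ s, z s * z s = 1) {t : ℕ} (ht : t ≤ k) (lam : ℝ)
    (ω : Path S) :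
    Lin P H t (fun y => lam * (z (y k) + z (y (k + 1))) * f y) ω * (z (ω (k + 1)) - z (ω k)) =
      lam * pw P (k + 1) * E P H (k + 1) ω f * (1 - z (ω k) * z (ω (k + 1))) := by
  have e1 : ∀ u, E P H u ω (fun y => lam * (z (y k) + z (y (k + 1))) * f y) =
      lam * (z (ω k) * (if k < u then E P H u ω f else 0) +
        z (ω (k + 1)) * if k + 1 < u then E P H u ω f else 0) := by
    intro u
    rw [← E_sign_mul P hφ (hH k) (hf k) (by omega) hz, ← E_sign_mul P hφ (hH _) (hf _) hk hz,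
      ← lin_add, ← lin_mul]
    congr 1; funext y; ring
  have e2 : ∀ u, lam * (z (ω k) * (if k < u then E P H u ω f else 0) +
        z (ω (k + 1)) * if k + 1 < u then E P H u ω f else 0) * (z (ω (k + 1)) - z (ω k)) =
      -(lam * (1 - z (ω k) * z (ω (k + 1)))) * if u = k + 1 then E P H (k + 1) ω f else 0 := by
    intro u
    have h0 := hz2 (ω k)
    have h1 := hz2 (ω (k + 1))
    rcases lt_trichotomy u (k + 1) with h | h | h
    · rw [if_neg (by omega), if_neg (by omega), if_neg (by omega)]; ring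
    · subst h
      rw [if_pos (by omega), if_neg (by omega), if_pos rfl]
      linear_combination (-lam * E P H (k + 1) ω f) * h0
    · rw [if_pos (by omega), if_pos (by omega), if_neg (by omega)]
      linear_combination (lam * E P H u ω f) * (h1 - h0)
  rw [Lin, sum_mul]
  simp only [e1, mul_assoc (P.m _), sub_mul, e2, mul_sub (P.m _), sum_sub_distrib]
  rw [sum_eq_single k, sum_eq_single (k + 1)]
  · simp only [if_true, pw, Nat.add_sub_cancel]; ring
  · intro u _ hu; rw [if_neg hu]; ring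
  · intro h; exact (h (mem_Ico.2 ⟨by omega, by omega⟩)).elim
  · intro u _ hu; rw [if_neg (by omega)]; ring
  · intro h; exact (h (mem_Ico.2 ⟨by omega, by omega⟩)).elim

theorem gadget (hp : ∀ k, 1 ≤ k → k ≤ P.r → 0 < pw P k) (A : BT) (hA : SW P.r A)
    (x : A.Lf → Bool) (e : A.Nd → Λ) (he : Injective e) {ε : ℝ} (hε : 0 < ε) :
    ∃ h δ c, GOK P A x (Set.range e) h δ c ε := by
  induction A generalizing ε with
  | leaf =>
    refine ⟨ind P.r (x ()), fun _ => 0, 1, ind_abs _ _, fun _ => by simpa using hε.le, one_pos,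
      fun v _ u => ind_inv _ _ v u, fun _ _ _ => Inv.const _, ?_⟩
    intro S _ _ π φ _ _ H _ t _ ω
    simpa [mom] using hε.le
  | node k l r ih1 ih2 =>
    obtain ⟨hk1, hk2, hkl, hkr, hl, hr⟩ := hA
    obtain ⟨k, rfl⟩ : ∃ k', k = k' + 1 := ⟨k - 1, by omega⟩
    have hκ := one_le_kap P
    set κ := kap P with hκd
    obtain ⟨K, hK⟩ : ∃ K : ℝ, K = 4 * κ * (l.size + r.size) := ⟨_, rfl⟩
    have hK0 : 0 ≤ K := by rw [hK]; positivity
    obtain ⟨ε₁, hε₁⟩ : ∃ ε₁ : ℝ, ε₁ = min ε 1 / (16 * κ ^ 2 + 3 * (1 + K) + 4 * κ + 4) := ⟨_, rfl⟩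
    have hε₁0 : 0 < ε₁ := by rw [hε₁]; positivity
    have hε₁1 : (16 * κ ^ 2 + 3 * (1 + K) + 4 * κ + 4) * ε₁ = min ε 1 := by
      rw [hε₁]; field_simp
    have hm1 := min_le_left ε 1
    have hm2 := min_le_right ε 1
    have hκε : 0 ≤ κ * ε₁ := by positivity
    have hκε2 : 0 ≤ κ ^ 2 * ε₁ := by positivity
    have hKε : 0 ≤ K * ε₁ := by positivity
    obtain ⟨h₁, δ₁, c₁, G₁⟩ := ih1 hl (fun y => x (Sum.inl y)) (fun y => e (some (Sum.inl y)))
      (fun a b hab => Sum.inl_injective (Option.some_injective _ (he hab))) hε₁0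
    obtain ⟨h₂, δ₂, c₂, G₂⟩ := ih2 hr (fun y => x (Sum.inr y)) (fun y => e (some (Sum.inr y)))
      (fun a b hab => Sum.inr_injective (Option.some_injective _ (he hab))) hε₁0
    have hc₁ := G₁.cpos
    have hc₂ := G₂.cpos
    have hpk := hp (k + 1) hk1 hk2
    set p := pw P (k + 1) with hpd
    obtain ⟨lam, hlam0, hlam1, hlam2⟩ : ∃ lam : ℝ, 0 < lam ∧ lam ≤ ε₁ ∧ lam ≤ ε₁ * c₁ * c₂ * p :=
      ⟨min ε₁ (ε₁ * c₁ * c₂ * p), by positivity, min_le_left _ _, min_le_right _ _⟩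
    set v₀ := e none with hv₀
    have n1 : v₀ ∉ Set.range fun y => e (some (Sum.inl y)) := by
      rintro ⟨y, hy⟩; cases he hy
    have n2 : v₀ ∉ Set.range fun y => e (some (Sum.inr y)) := by
      rintro ⟨y, hy⟩; cases he hy
    have n3 : ∀ v ∈ Set.range fun y => e (some (Sum.inl y)),
        v ∉ Set.range fun y => e (some (Sum.inr y)) := by
      rintro _ ⟨y, rfl⟩ ⟨y', hy⟩; cases he hy
    have n4 : ∀ v ∈ Set.range fun y => e (some (Sum.inr y)),
        v ∉ Set.range fun y => e (some (Sum.inl y)) := fun v h1 h2 => n3 v h2 h1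
    have s1 : ∀ v ∉ Set.range e, v ∉ Set.range fun y => e (some (Sum.inl y)) :=
      fun v hv ⟨y, hy⟩ => hv ⟨_, hy⟩
    have s2 : ∀ v ∉ Set.range e, v ∉ Set.range fun y => e (some (Sum.inr y)) :=
      fun v hv ⟨y, hy⟩ => hv ⟨_, hy⟩
    have s3 : ∀ v ∉ Set.range e, v₀ ≠ v := fun v hv h => hv ⟨_, h⟩
    have hd : ∀ ω : Path (Z Λ), |lam * (sgnZ v₀ (ω k) + sgnZ v₀ (ω (k + 1))) * h₂ ω| ≤ 2 * lam := by
      intro ω
      rw [abs_mul, abs_mul, abs_of_pos hlam0]
      have a1 : |sgnZ v₀ (ω k) + sgnZ v₀ (ω (k + 1))| ≤ 2 :=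
        (abs_add_le _ _).trans (by rw [sgnZ_abs, sgnZ_abs]; norm_num)
      have a2 := G₂.hh ω
      calc lam * |sgnZ v₀ (ω k) + sgnZ v₀ (ω (k + 1))| * |h₂ ω| ≤ lam * 2 * 1 := by gcongr
        _ = 2 * lam := by ring
    have hh : ∀ ω : Path (Z Λ), |(sgnZ v₀ (ω (k + 1)) - sgnZ v₀ (ω k)) * (h₁ ω / 2)| ≤ 1 := by
      intro ω
      rw [abs_mul, abs_div, abs_two]
      have a1 : |sgnZ v₀ (ω (k + 1)) - sgnZ v₀ (ω k)| ≤ 2 :=
        (abs_sub _ _).trans (by rw [sgnZ_abs, sgnZ_abs]; norm_num)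
      have a2 := G₁.hh ω
      calc |sgnZ v₀ (ω (k + 1)) - sgnZ v₀ (ω k)| * (|h₁ ω| / 2) ≤ 2 * (1 / 2) := by gcongr
        _ = 1 := by ring
    refine ⟨fun ω => (sgnZ v₀ (ω (k + 1)) - sgnZ v₀ (ω k)) * (h₁ ω / 2),
      fun ω => δ₁ ω + δ₂ ω + lam * (sgnZ v₀ (ω k) + sgnZ v₀ (ω (k + 1))) * h₂ ω,
      lam * p * c₁ * c₂ / 2, hh, fun ω => ?_, by positivity, fun v hv u => ?_, fun v hv u => ?_, ?_⟩
    · have := abs_add_three (δ₁ ω) (δ₂ ω) (lam * (sgnZ v₀ (ω k) + sgnZ v₀ (ω (k + 1))) * h₂ ω)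
      linarith [G₁.hδ ω, G₂.hδ ω, hd ω]
    · exact ((inv_sgn_ne (s3 v hv) u _).sub (inv_sgn_ne (s3 v hv) u _)).mul
        ((G₁.invh v (s1 v hv) u).map₂ (· / ·) (Inv.const 2))
    · exact ((G₁.invδ v (s1 v hv) u).add (G₂.invδ v (s2 v hv) u)).add
        (((Inv.const lam).mul ((inv_sgn_ne (s3 v hv) u _).add (inv_sgn_ne (s3 v hv) u _))).mul
          (G₂.invh v (s2 v hv) u))
    intro S _ _ π φ hφ hπ H hH t ht ω
    have ht' : t ≤ k := Nat.lt_succ_iff.1 ht
    set H₁ : Path S → ℝ := fun y => H y + (δ₁ (π ∘ y) + δ₂ (π ∘ y)) with hH₁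
    have iH₁ : ∀ u, Inv (φ v₀) u H₁ := fun u => (hH v₀ ⟨_, rfl⟩ u).add
      (((G₁.invδ v₀ n1 u).lift (hπ v₀)).add ((G₂.invδ v₀ n2 u).lift (hπ v₀)))
    have ih₁ : ∀ u, Inv (φ v₀) u fun y => h₁ (π ∘ y) := fun u => (G₁.invh v₀ n1 u).lift (hπ v₀)
    have ih₂ : ∀ u, Inv (φ v₀) u fun y => h₂ (π ∘ y) := fun u => (G₂.invh v₀ n2 u).lift (hπ v₀)
    have hz : ∀ s, (fun s => sgnZ v₀ (π s)) (φ v₀ s) = -(fun s => sgnZ v₀ (π s)) s :=
      fun s => by simp only [hπ, sgnZ_flip]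
    have r1 := E_resp P (H := H₁)
      (δ := fun y => lam * (sgnZ v₀ (π (y k)) + sgnZ v₀ (π (y (k + 1)))) * h₂ (π ∘ y))
      (fun y => hd (π ∘ y)) (by nlinarith) t
      (fun y => (sgnZ v₀ (π (y (k + 1))) - sgnZ v₀ (π (y k))) * (h₁ (π ∘ y) / 2)) ω
    have r2 : E P H₁ t ω
        (fun y => (sgnZ v₀ (π (y (k + 1))) - sgnZ v₀ (π (y k))) * (h₁ (π ∘ y) / 2)) = 0 := by
      simp only [sub_mul, lin_sub]
      rw [E_sign_mul P (hφ v₀) (iH₁ _) ((ih₁ _).map₂ (· / ·) (Inv.const 2)) hk2 (z := fun s => sgnZ v₀ (π s)) hz,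
        E_sign_mul P (hφ v₀) (iH₁ _) ((ih₁ _).map₂ (· / ·) (Inv.const 2)) (by omega) (z := fun s => sgnZ v₀ (π s)) hz,
        if_neg (by omega), if_neg (by omega)]
      simp
    have r3 : E P H₁ t ω (fun y => Lin P H₁ t
        (fun y => lam * (sgnZ v₀ (π (y k)) + sgnZ v₀ (π (y (k + 1)))) * h₂ (π ∘ y)) y *
        ((sgnZ v₀ (π (y (k + 1))) - sgnZ v₀ (π (y k))) * (h₁ (π ∘ y) / 2))) =
        lam * p / 2 * E P H₁ t ω fun y => E P H₁ (k + 1) y (fun y => h₂ (π ∘ y)) *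
          E P H₁ (k + 1) y fun y => h₁ (π ∘ y) := by
      simp only [← mul_assoc, lin_two_signs P (hφ v₀) iH₁ ih₂ hk2 (z := fun s => sgnZ v₀ (π s)) hz (fun s => sgnZ_sq _ _) ht']
      rw [E_mul_E P H₁ (by omega) (E_meas P H₁ _ _), ← lin_mul]
      have := E_sign_mul P (hφ v₀) (iH₁ k) (f := fun y => sgnZ v₀ (π (y (k + 1))) *
        (lam * p / 2 * (E P H₁ (k + 1) y (fun y => h₂ (π ∘ y)) * h₁ (π ∘ y))))
        (Inv.mul (fun y => by simp only [fl_apply_ne (Nat.succ_ne_self k)])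
          ((Inv.const _).mul ((E_inv P (hφ v₀) (iH₁ k) (ih₂ k) _).mul (ih₁ k)))) (by omega)
        (z := fun s => sgnZ v₀ (π s)) hz t ω
      rw [if_neg (by omega), mul_zero] at this
      rw [← sub_zero (E P H₁ t ω fun y => lam * p / 2 * _), ← this, ← lin_sub]
      congr 1; funext y; ring
    rw [r2, r3, sub_zero] at r1
    have r4 : E P H₁ t ω (fun y => |(sgnZ v₀ (π (y (k + 1))) - sgnZ v₀ (π (y k))) *
        (h₁ (π ∘ y) / 2)|) ≤ 1 := (E_isP P H₁ t ω).le fun y => hh (π ∘ y)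
    -- the two inductive estimates
    have hsz : ∀ n : ℕ, (n : ℝ) ≤ l.size + r.size → 2 * κ * ε₁ * (2 * n - 1) ≤ K * ε₁ := by
      intro n hn
      rw [hK]; nlinarith
    have q1 : ∀ y, |E P H₁ (k + 1) y (fun y => h₁ (π ∘ y)) - c₁ * E P H (k + 1) y
        (mom P H l fun j y => ind P.r (x (Sum.inl j)) (π ∘ y))| ≤ (1 + K) * ε₁ * c₁ := by
      intro y
      have b1 := G₁.main S π φ hφ hπ (fun y => H y + δ₂ (π ∘ y)) (fun v hv u =>
        (hH v (by obtain ⟨y, rfl⟩ := hv; exact ⟨_, rfl⟩) u).add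
          ((G₂.invδ v (n3 v hv) u).lift (hπ v))) (k + 1) hkl y
      have b2 := mom_stab P (H := H) (fun y => G₂.hδ (π ∘ y)) (by nlinarith) l
        (f := fun j y => ind P.r (x (Sum.inl j)) (π ∘ y)) (fun _ _ => ind_abs _ _ _) (k + 1) y
      have e1 : (fun y => H y + δ₂ (π ∘ y) + δ₁ (π ∘ y)) = H₁ := by
        funext y; simp only [hH₁]; ring
      rw [e1] at b1
      have b3 := mul_le_mul_of_nonneg_left (b2.trans (hsz l.size (by simp))) hc₁.le
      rw [← abs_of_pos hc₁, ← abs_mul, mul_sub, abs_of_pos hc₁] at b3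
      refine (abs_sub_le _ _ _).trans ((add_le_add b1 b3).trans (le_of_eq (by ring)))
    have q2 : ∀ y, |E P H₁ (k + 1) y (fun y => h₂ (π ∘ y)) - c₂ * E P H (k + 1) y
        (mom P H r fun j y => ind P.r (x (Sum.inr j)) (π ∘ y))| ≤ (1 + K) * ε₁ * c₂ := by
      intro y
      have b1 := G₂.main S π φ hφ hπ (fun y => H y + δ₁ (π ∘ y)) (fun v hv u =>
        (hH v (by obtain ⟨y, rfl⟩ := hv; exact ⟨_, rfl⟩) u).add
          ((G₁.invδ v (n4 v hv) u).lift (hπ v))) (k + 1) hkr y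
      have b2 := mom_stab P (H := H) (fun y => G₁.hδ (π ∘ y)) (by nlinarith) r
        (f := fun j y => ind P.r (x (Sum.inr j)) (π ∘ y)) (fun _ _ => ind_abs _ _ _) (k + 1) y
      have e1 : (fun y => H y + δ₁ (π ∘ y) + δ₂ (π ∘ y)) = H₁ := by
        funext y; simp only [hH₁]; ring
      rw [e1] at b1
      have b3 := mul_le_mul_of_nonneg_left (b2.trans (hsz r.size (by simp))) hc₂.le
      rw [← abs_of_pos hc₂, ← abs_mul, mul_sub, abs_of_pos hc₂] at b3
      refine (abs_sub_le _ _ _).trans ((add_le_add b1 b3).trans (le_of_eq (by ring)))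
    set M : Path S → ℝ := mom P H (node (k + 1) l r) fun j y => ind P.r (x j) (π ∘ y) with hM
    have q3 := (E_isP P H₁ t ω).abs_sub_le
      (f := fun y => E P H₁ (k + 1) y (fun y => h₂ (π ∘ y)) * E P H₁ (k + 1) y fun y => h₁ (π ∘ y))
      (g := fun y => c₁ * c₂ * M y) (c := 3 * ((1 + K) * ε₁) * c₁ * c₂) fun y => by
        have a1 := E_mom_abs P H l (f := fun j y => ind P.r (x (Sum.inl j)) (π ∘ y))
          (fun _ _ => ind_abs _ _ _) (k + 1) y
        have a2 := E_mom_abs P H r (f := fun j y => ind P.r (x (Sum.inr j)) (π ∘ y))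
          (fun _ _ => ind_abs _ _ _) (k + 1) y
        have a3 := q1 y
        have a4 := q2 y
        simp only [hM, mom]
        generalize E P H₁ (k + 1) y (fun y => h₁ (π ∘ y)) = g₁ at *
        generalize E P H₁ (k + 1) y (fun y => h₂ (π ∘ y)) = g₂ at *
        generalize E P H (k + 1) y (mom P H l fun j y => ind P.r (x (Sum.inl j)) (π ∘ y)) = m₁ at *
        generalize E P H (k + 1) y (mom P H r fun j y => ind P.r (x (Sum.inr j)) (π ∘ y)) = m₂ at *
        have hβ : (1 + K) * ε₁ ≤ 1 := by nlinarith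
        have hβ0 : 0 ≤ (1 + K) * ε₁ := by positivity
        generalize (1 + K) * ε₁ = β at *
        have e : g₂ * g₁ - c₁ * c₂ * (m₁ * m₂) = (g₂ - c₂ * m₂) * (g₁ - c₁ * m₁) +
            c₁ * m₁ * (g₂ - c₂ * m₂) + c₂ * m₂ * (g₁ - c₁ * m₁) := by ring
        rw [e]
        refine (abs_add_three _ _ _).trans ?_
        simp only [abs_mul, abs_of_pos hc₁, abs_of_pos hc₂]
        calc |g₂ - c₂ * m₂| * |g₁ - c₁ * m₁| + c₁ * |m₁| * |g₂ - c₂ * m₂| +
              c₂ * |m₂| * |g₁ - c₁ * m₁|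
            ≤ (1 * c₂) * (β * c₁) + c₁ * 1 * (β * c₂) + c₂ * 1 * (β * c₁) := by
              gcongr
              exact a4.trans (by gcongr)
          _ = 3 * β * c₁ * c₂ := by ring
    have q4 := E_stab' P (H := H) (δ := fun y => δ₁ (π ∘ y) + δ₂ (π ∘ y)) (η := 2 * ε₁)
      (fun y => (abs_add_le _ _).trans (by linarith [G₁.hδ (π ∘ y), G₂.hδ (π ∘ y)]))
      (by nlinarith) t (f := M) (c := 1)
      (fun y => by simpa using mom_abs P H _ _ (fun _ _ => ind_abs _ _ _) y) ω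
    rw [lin_mul] at q3
    have e0 : (fun y => H y + (δ₁ (π ∘ y) + δ₂ (π ∘ y) + lam * (sgnZ v₀ ((π ∘ y) k) +
        sgnZ v₀ ((π ∘ y) (k + 1))) * h₂ (π ∘ y))) = fun y => H₁ y +
          lam * (sgnZ v₀ (π (y k)) + sgnZ v₀ (π (y (k + 1)))) * h₂ (π ∘ y) := by
      funext y; simp only [hH₁, comp_apply]; ring
    rw [e0]
    simp only [comp_apply]
    rw [← hH₁] at q4
    generalize E P (fun y => H₁ y + lam * (sgnZ v₀ (π (y k)) + sgnZ v₀ (π (y (k + 1)))) *
      h₂ (π ∘ y)) t ω _ = a at *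
    generalize E P H₁ t ω (fun y => E P H₁ (k + 1) y (fun y => h₂ (π ∘ y)) *
      E P H₁ (k + 1) y fun y => h₁ (π ∘ y)) = b at *
    generalize E P H₁ t ω M = m₁ at *
    generalize E P H t ω M = m₀ at *
    have e : a - lam * p * c₁ * c₂ / 2 * m₀ = (a - lam * p / 2 * b) +
        lam * p / 2 * (b - c₁ * c₂ * m₁) + lam * p * c₁ * c₂ / 2 * (m₁ - m₀) := by ring
    rw [e]
    refine (abs_add_three _ _ _).trans ?_
    rw [abs_mul, abs_mul, abs_of_pos (by positivity : 0 < lam * p / 2),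
      abs_of_pos (by positivity : 0 < lam * p * c₁ * c₂ / 2)]
    have r5 : 2 * κ ^ 2 * (2 * lam) ^ 2 * 1 ≤ 16 * κ ^ 2 * ε₁ * (lam * p * c₁ * c₂ / 2) := by
      have := mul_le_mul_of_nonneg_left hlam2 (by positivity : 0 ≤ 8 * κ ^ 2 * lam)
      nlinarith
    calc _ ≤ 16 * κ ^ 2 * ε₁ * (lam * p * c₁ * c₂ / 2) +
          lam * p / 2 * (3 * ((1 + K) * ε₁) * c₁ * c₂) +
          lam * p * c₁ * c₂ / 2 * (2 * κ * (2 * ε₁) * 1) := by
          refine add_le_add (add_le_add (r1.trans (le_trans ?_ r5)) ?_) ?_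
          · exact mul_le_mul_of_nonneg_left r4 (by positivity)
          · exact mul_le_mul_of_nonneg_left q3 (by positivity)
          · exact mul_le_mul_of_nonneg_left q4 (by positivity)
      _ = (16 * κ ^ 2 + 3 * (1 + K) + 4 * κ) * ε₁ * (lam * p * c₁ * c₂ / 2) := by ring
      _ ≤ ε * (lam * p * c₁ * c₂ / 2) :=
          mul_le_mul_of_nonneg_right (by linarith) (by positivity)

end gadget

end Crest.Agent.R141
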