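import Crest.Agent.R141.Key1

/-! Row 141, key inequality: the measure-theoretic part. -/

set_option autoImplicit false
open Finset Function MeasureTheory ProbabilityTheory Filter Topology
open scoped BigOperators
open Crest.ProbabilityR.Diluted

namespace Crest.Agent.R141

namespace KeyAux

variable {p : ℕ}

lemma abs_le_sup (θ : Inter p) (s : Fin p → Bool) : |θ s| ≤ supNorm θ :=
  le_ciSup (f := fun s => |θ s|) (Set.finite_range _).bddAbove s

lemma int_lin {Ω K : Type} [MeasurableSpace Ω] (P : Measure Ω) [Fintype K]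
    (Λ : (K → ℝ) →ₗ[ℝ] ℝ) (F : Ω → K → ℝ) (hF : ∀ k, Integrable (fun ω => F ω k) P) :
    Integrable (fun ω => Λ (F ω)) P ∧ ∫ ω, Λ (F ω) ∂P = Λ fun k => ∫ ω, F ω k ∂P := by
  classical
  have e : ∀ g : K → ℝ, Λ g = ∑ k, g k * Λ fun j => if k = j then 1 else 0 := fun g => by
    rw [LinearMap.pi_apply_eq_sum_univ Λ g]; rfl
  constructor
  · simp only [e (F _)]
    exact integrable_finsetSum _ fun k _ => (hF k).mul_const _
  · rw [e fun k => ∫ ω, F ω k ∂P]
    simp only [e (F _)]
    rw [integral_finsetSum _ fun k _ => (hF k).mul_const _]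
    simp only [integral_mul_const]

lemma log_mono_aux {α β u : ℝ} (hβ : -1 < β) (h : β ≤ α) (h0 : 0 ≤ u) (h1 : u ≤ 1) :
    0 ≤ Real.log (1 + u * α) - Real.log (1 + u * β) ∧
      Real.log (1 + u * α) - Real.log (1 + u * β) ≤ Real.log (1 + α) - Real.log (1 + β) := by
  have a1 : 0 < 1 + β := by linarith
  have a2 : 0 < 1 + α := by linarith
  have a3 : 0 < 1 + u * β := by
    rcases h1.eq_or_lt with rfl | h1
    · linarith
    · nlinarith [mul_nonneg h0 a1.le]
  have a4 : 0 < 1 + u * α := by nlinarith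
  refine ⟨sub_nonneg.2 (Real.log_le_log a3 (by nlinarith)), ?_⟩
  rw [sub_le_sub_iff, ← Real.log_mul a4.ne' a1.ne', ← Real.log_mul a2.ne' a3.ne']
  refine Real.log_le_log (mul_pos a4 a1) ?_
  nlinarith [mul_nonneg (sub_nonneg.2 h) (sub_nonneg.2 h1)]

lemma log_contr {α β u : ℝ} (hα : -1 < α) (hβ : -1 < β) (h0 : 0 ≤ u) (h1 : u ≤ 1) :
    |Real.log (1 + u * α) - Real.log (1 + u * β)| ≤ |Real.log (1 + α) - Real.log (1 + β)| := by
  rcases le_total β α with h | h
  · obtain ⟨h2, h3⟩ := log_mono_aux hβ h h0 h1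
    rw [abs_of_nonneg h2]; exact h3.trans (le_abs_self _)
  · obtain ⟨h2, h3⟩ := log_mono_aux hα h h0 h1
    rw [abs_sub_comm, abs_sub_comm (Real.log (1 + α)), abs_of_nonneg h2]
    exact h3.trans (le_abs_self _)

section
variable {Ω : Type} [MeasurableSpace Ω] {P : Measure Ω} [IsProbabilityMeasure P]
  {b : Ω → ℝ} {f : Fin p → Ω → Bool → ℝ}

omit [IsProbabilityMeasure P] in
lemma moment (h2 : 2 ≤ p) (mb : Measurable b) (mf : ∀ l, Measurable (f l)) (hf : iIndepFun f P)
    (hid : ∀ l, IdentDistrib (f l) (f ⟨0, Fin.pos l⟩) P P)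
    (hb : IndepFun b (fun ω => fun l => f l ω) P) (u : ℝ) (n : ℕ) (k : Fin n → Fin p → Bool) :
    ∫ ω, ∏ i, (u * (b ω * ∏ l, f l ω (k i l))) ∂P =
      u ^ n * (∫ ω, b ω ^ n ∂P) *
        ∏ l, (fun z : Fin n → Bool => ∫ ω, ∏ i, f ⟨0, by omega⟩ ω (z i) ∂P) fun i => k i l := by
  have e : ∀ ω, ∏ i, (u * (b ω * ∏ l, f l ω (k i l))) =
      u ^ n * (b ω ^ n * ∏ l, ∏ i, f l ω (k i l)) := fun ω => by
    rw [prod_mul_distrib, prod_mul_distrib, Finset.prod_comm (s := univ) (t := univ)
      (f := fun i l => f l ω (k i l))]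
    simp
  simp only [e]
  rw [integral_const_mul, mul_assoc]
  congr 1
  have mg : ∀ l, Measurable fun g : Bool → ℝ => ∏ i, g (k i l) := fun l =>
    Finset.measurable_prod _ fun i _ => measurable_pi_apply _
  have h1 := hb.integral_fun_comp_mul_comp (f := fun x : ℝ => x ^ n)
    (g := fun F : Fin p → Bool → ℝ => ∏ l, ∏ i, F l (k i l)) mb.aemeasurable
    (measurable_pi_lambda _ mf).aemeasurable (by fun_prop)
    (Finset.measurable_prod _ fun l _ => (mg l).comp (measurable_pi_apply l)).aestronglyMeasurable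
  rw [h1]
  congr 1
  rw [hf.integral_fun_prod_comp (f := fun l (g : Bool → ℝ) => ∏ i, g (k i l))
    (fun l => (mf l).aemeasurable) fun l => (mg l).aestronglyMeasurable]
  exact prod_congr rfl fun l _ => ((hid l).comp (mg l)).integral_eq

lemma step_u (d : Dat) (ha : d.a ≤ d.P.r) (hp : Even p) (h2 : 2 ≤ p) (mb : Measurable b)
    (mf : ∀ l, Measurable (f l)) (hf : iIndepFun f P)
    (hid : ∀ l, IdentDistrib (f l) (f ⟨0, Fin.pos l⟩) P P)
    (hb : IndepFun b (fun ω => fun l => f l ω) P)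
    (hx : ∀ᵐ ω ∂P, ∀ s : Fin p → Bool, |b ω * ∏ l, f l ω (s l)| < 1)
    (hm : ∀ n : ℕ, 1 ≤ n → 0 ≤ ∫ ω, (-b ω) ^ n ∂P) {u : ℝ} (h0 : 0 ≤ u) (h1 : u < 1) :
    0 ≤ ∫ ω, DD d (fun s => Real.log (1 + u * (b ω * ∏ l, f l ω (s l)))) ∂P := by
  have mx : ∀ s : Fin p → Bool, Measurable fun ω => u * (b ω * ∏ l, f l ω (s l)) := fun s =>
    measurable_const.mul (mb.mul (Finset.measurable_prod _ fun l _ =>
      (measurable_pi_apply _).comp (mf l)))
  have hx' : ∀ᵐ ω ∂P, ∀ s : Fin p → Bool, |u * (b ω * ∏ l, f l ω (s l))| ≤ u := by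
    filter_upwards [hx] with ω h s
    rw [abs_mul, abs_of_nonneg h0]
    exact mul_le_of_le_one_right h0 (h s).le
  have iF : ∀ (n : ℕ) (k : Fin n → Fin p → Bool),
      Integrable (fun ω => ∏ i, (u * (b ω * ∏ l, f l ω (k i l)))) P := fun n k => by
    refine Integrable.of_bound (Finset.measurable_prod _ fun i _ => mx _).aestronglyMeasurable 1 ?_
    filter_upwards [hx'] with ω h
    rw [Real.norm_eq_abs, abs_prod]
    exact prod_le_one (fun _ _ => abs_nonneg _) fun i _ => (h _).trans h1.le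
  have mD : Measurable fun ω => DD d (fun s => Real.log (1 + u * (b ω * ∏ l, f l ω (s l)))) :=
    (DD_cont d).measurable.comp (measurable_pi_lambda _ fun s => (measurable_const.add (mx s)).log)
  have iD : Integrable (fun ω => DD d (fun s => Real.log (1 + u * (b ω * ∏ l, f l ω (s l))))) P := by
    refine Integrable.of_bound mD.aestronglyMeasurable (2 * (u ^ (0 + 1) / (1 - u))) ?_
    filter_upwards [hx'] with ω h
    simpa using DD_expand d ha h2 h h1 0
  have key : ∀ n : ℕ, -(2 * (u ^ (n + 1) / (1 - u))) ≤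
      ∫ ω, DD d (fun s => Real.log (1 + u * (b ω * ∏ l, f l ω (s l)))) ∂P := by
    intro n
    have iT : ∀ j : ℕ, Integrable (fun ω => (-1 : ℝ) ^ j / (j + 1) *
        LD d p j (fun k => ∏ i, (u * (b ω * ∏ l, f l ω (k i l))))) P := fun j =>
      (int_lin P (LD d p j) _ (iF _)).1.const_mul _
    have pos : 0 ≤ ∫ ω, ∑ j ∈ range n, (-1 : ℝ) ^ j / (j + 1) *
        LD d p j (fun k => ∏ i, (u * (b ω * ∏ l, f l ω (k i l)))) ∂P := by
      rw [integral_finsetSum _ fun j _ => iT j]
      refine sum_nonneg fun j _ => ?_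
      rw [integral_const_mul, (int_lin P (LD d p j) _ (iF _)).2]
      simp only [moment h2 mb mf hf hid hb u]
      rw [lin_mul]
      have a1 := LD_nonpos d ha hp h2 j
        (fun z : Fin (j + 1) → Bool => ∫ ω, ∏ i, f ⟨0, by omega⟩ ω (z i) ∂P)
      have a2 := hm (j + 1) (by omega)
      have a3 : ∫ ω, (-b ω) ^ (j + 1) ∂P = (-1) ^ (j + 1) * ∫ ω, b ω ^ (j + 1) ∂P := by
        rw [← integral_const_mul]; congr 1; funext ω; rw [neg_pow]
      rw [a3] at a2
      have a4 := mul_nonneg (mul_nonneg (mul_nonneg a2 (pow_nonneg h0 (j + 1)))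
        (neg_nonneg.2 a1)) (show (0 : ℝ) ≤ 1 / (j + 1) by positivity)
      convert a4 using 1
      ring
    have iS := integrable_finsetSum (range n) fun j _ => iT j
    have h3 : ∫ ω, (∑ j ∈ range n, (-1 : ℝ) ^ j / (j + 1) *
        LD d p j (fun k => ∏ i, (u * (b ω * ∏ l, f l ω (k i l)))) -
          2 * (u ^ (n + 1) / (1 - u))) ∂P ≤
        ∫ ω, DD d (fun s => Real.log (1 + u * (b ω * ∏ l, f l ω (s l)))) ∂P := by
      refine integral_mono_ae (iS.sub (integrable_const _)) iD ?_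
      filter_upwards [hx'] with ω h
      have := (abs_le.1 (DD_expand d ha h2 h h1 n)).1
      linarith
    rw [integral_sub iS (integrable_const _)] at h3
    simp only [integral_const, probReal_univ, smul_eq_mul, one_mul] at h3
    linarith
  have lim : Tendsto (fun n : ℕ => -(2 * (u ^ (n + 1) / (1 - u)))) atTop
      (𝓝 (-(2 * (0 / (1 - u))))) :=
    ((((tendsto_pow_atTop_nhds_zero_of_lt_one h0 h1).comp
      (tendsto_add_atTop_nat 1)).div_const _).const_mul _).neg
  simpa using le_of_tendsto' lim key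

end

lemma DD_int (d : Dat) (ha : d.a ≤ d.P.r) (hp : Even p) (h2 : 2 ≤ p) (μ : Measure (Inter p))
    (hμ : Integrable (fun θ => supNorm θ) μ) (hF : HasFactorization p μ) :
    0 ≤ ∫ θ, DD d θ ∂μ := by
  obtain ⟨Ω, _, P, _, a, b, f, ma, mb, mf, hf, hid, hb, hx, hm, rfl⟩ := hF
  have mx : ∀ s : Fin p → Bool, Measurable fun ω => b ω * ∏ l, f l ω (s l) := fun s =>
    mb.mul (Finset.measurable_prod _ fun l _ => (measurable_pi_apply _).comp (mf l))
  have mθ : Measurable fun ω => fun s : Fin p → Bool =>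
      Real.log (a ω * (1 + b ω * ∏ l, f l ω (s l))) :=
    measurable_pi_lambda _ fun s => (ma.mul (measurable_const.add (mx s))).log
  rw [integral_map mθ.aemeasurable (DD_cont d).aestronglyMeasurable]
  have iS := (integrable_map_measure hμ.aestronglyMeasurable mθ.aemeasurable).1 hμ
  have hu0 : ∀ n : ℕ, (0 : ℝ) ≤ 1 - 1 / ((n : ℝ) + 1) := fun n => by
    rw [sub_nonneg, div_le_one (by positivity)]; linarith [Nat.cast_nonneg (α := ℝ) n]
  have hu1 : ∀ n : ℕ, 1 - 1 / ((n : ℝ) + 1) < 1 := fun n => by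
    have : (0 : ℝ) < 1 / ((n : ℝ) + 1) := by positivity
    linarith
  have hlim : Tendsto (fun n : ℕ => 1 - 1 / ((n : ℝ) + 1)) atTop (𝓝 1) := by
    simpa using (tendsto_const_nhds (x := (1 : ℝ))).sub tendsto_one_div_add_atTop_nhds_zero_nat
  have e : ∀ᵐ ω ∂P, (fun s : Fin p → Bool => Real.log (a ω * (1 + b ω * ∏ l, f l ω (s l)))) =
      fun s => Real.log (1 + b ω * ∏ l, f l ω (s l)) + Real.log (a ω) := by
    filter_upwards [hx] with ω h
    funext s
    have := (abs_lt.1 (h.2 s)).1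
    rw [Real.log_mul h.1.ne' (by linarith), add_comm]
  have T := tendsto_integral_of_dominated_convergence (μ := P)
    (F := fun (n : ℕ) ω => DD d fun s =>
      Real.log (1 + (1 - 1 / ((n : ℝ) + 1)) * (b ω * ∏ l, f l ω (s l))))
    (f := fun ω => DD d fun s => Real.log (a ω * (1 + b ω * ∏ l, f l ω (s l))))
    (fun ω => 2 * (2 * supNorm fun s : Fin p → Bool =>
      Real.log (a ω * (1 + b ω * ∏ l, f l ω (s l)))))
    (fun n => ((DD_cont d).measurable.comp (measurable_pi_lambda _ fun s =>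
      (measurable_const.add (measurable_const.mul (mx s))).log)).aestronglyMeasurable)
    ((iS.const_mul 2).const_mul 2)
    (fun n => by
      filter_upwards [hx, e] with ω h he
      rw [Real.norm_eq_abs, ← DD_add_const d h2 _
        (-Real.log (1 + (1 - 1 / ((n : ℝ) + 1)) * (b ω * ∏ l, f l ω ((fun _ => true) l))))]
      refine DD_abs d h2 fun s => ?_
      rw [← sub_eq_add_neg]
      refine (log_contr (abs_lt.1 (h.2 s)).1 (abs_lt.1 (h.2 _)).1 (hu0 n) (hu1 n).le).trans ?_
      have b1 := abs_le_sup (fun s : Fin p → Bool =>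
        Real.log (a ω * (1 + b ω * ∏ l, f l ω (s l)))) s
      have b2 := abs_le_sup (fun s : Fin p → Bool =>
        Real.log (a ω * (1 + b ω * ∏ l, f l ω (s l)))) fun _ => true
      rw [congrFun he] at b1 b2
      rw [abs_le] at b1 b2 ⊢
      constructor <;> linarith [b1.1, b1.2, b2.1, b2.2])
    (by
      filter_upwards [hx, e] with ω h he
      rw [he, DD_add_const d h2]
      refine ((DD_cont d).tendsto _).comp (tendsto_pi_nhds.2 fun s => ?_)
      have := (abs_lt.1 (h.2 s)).1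
      have h3 := (hlim.mul_const (b ω * ∏ l, f l ω (s l))).const_add 1
      rw [one_mul] at h3
      exact h3.log (by linarith))
  exact ge_of_tendsto' T fun n => step_u d ha hp h2 mb mf hf hid hb (hx.mono fun ω h => h.2)
    (fun n hn => (hm n hn).2) (hu0 n) (hu1 n)

/-- collapse of a datum started above the last level -/
def Dat.flat (d : Dat) : Dat where
  P := d.P
  a := 0
  N := d.N
  I := d.I
  S := Unit
  S' := Unit
  H := fun _ => 0
  H' := fun _ _ => 0
  σ := fun _ => d.σ (d.ω d.P.r)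
  s := fun ι _ => d.s ι (d.ω' d.P.r)
  ω := fun _ => ()
  ω' := fun _ => ()

lemma Psi_const {S : Type} [Fintype S] [Nonempty S] (P : Par) (H : Path S → ℝ) (c : ℝ) (t : ℕ)
    (ω : Path S) : Psi P H (fun _ => c) t ω = c := by
  have := Psi_add_const P H (fun _ => 0) c t ω
  simpa [Psi] using this

lemma incD_flat (d : Dat) (ha : d.P.r < d.a) (c : Fin p → Bool) (θ : Inter p) :
    incD d c θ = incD d.flat c θ := by
  refine expect_congr rfl fun idx _ => expect_congr rfl fun ι _ => ?_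
  rw [Psi_top _ _ _ ha]
  exact (Psi_const _ _ _ _ _).symm

lemma DD_int' (d : Dat) (hp : Even p) (h2 : 2 ≤ p) (μ : Measure (Inter p))
    (hμ : Integrable (fun θ => supNorm θ) μ) (hF : HasFactorization p μ) :
    0 ≤ ∫ θ, DD d θ ∂μ := by
  rcases le_or_gt d.a d.P.r with ha | ha
  · exact DD_int d ha hp h2 μ hμ hF
  · have := DD_int d.flat (Nat.zero_le _) hp h2 μ hμ hF
    simpa only [DD, incD_flat d ha] using this

lemma incD_integrable (d : Dat) (c : Fin p → Bool) (μ : Measure (Inter p))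
    (hμ : Integrable (fun θ => supNorm θ) μ) : Integrable (incD d c) μ :=
  hμ.mono' (incD_cont d c).aestronglyMeasurable
    (ae_of_all _ fun θ => incD_abs d c (abs_le_sup θ))

end KeyAux

open KeyAux in
theorem keyInt : KeyIntStmt := by
  intro p hp h2 μ _ hμ hF T N hN S _ _ H σ ω
  let d : Dat :=
    { P := T.P, a := T.a, N := N, I := T.I, S := S, S' := T.S, nN := ⟨⟨0, hN⟩⟩,
      H := H, H' := T.H, σ := σ, s := T.s, ω := ω, ω' := T.ω₀ }
  have e : ∀ c : Fin p → Bool, inc T H σ ω c = incD d c := fun c => rfl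
  have h := DD_int' d hp h2 μ hμ hF
  have i := fun c => incD_integrable d c μ hμ
  simp only [DD] at h
  have i2 : Integrable (fun θ => incD d (lastMask p) θ - 1 / (p : ℝ) * incD d (fun _ => true) θ) μ :=
    (i _).sub ((i _).const_mul _)
  rw [integral_sub i2 ((i _).const_mul _),
    integral_sub (i _) ((i _).const_mul _), integral_const_mul, integral_const_mul] at h
  simp only [e]
  linarith

end Crest.Agent.R141
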