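import Crest.Agent.R141.Core

/-! Row 141: replica trees, grafting, and the tree expansion of the nested functional. -/

set_option autoImplicit false
open Finset Function
open scoped BigOperators

namespace Crest.Agent.R141

/-- binary trees with a level at every internal vertex -/
inductive BT : Type
  | leaf : BT
  | node (k : ℕ) (l r : BT) : BT

namespace BT

def size : BT → ℕ
  | leaf => 1
  | node _ l r => l.size + r.size

lemma size_pos (A : BT) : 0 < A.size := by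
  induction A with
  | leaf => simp [size]
  | node k l r ih _ => simp only [size]; omega

def Lf : BT → Type
  | leaf => Unit
  | node _ l r => l.Lf ⊕ r.Lf

instance fintypeLf : (A : BT) → Fintype A.Lf
  | leaf => inferInstanceAs (Fintype Unit)
  | node _ l r =>
    letI := fintypeLf l
    letI := fintypeLf r
    inferInstanceAs (Fintype (l.Lf ⊕ r.Lf))

instance decEqLf : (A : BT) → DecidableEq A.Lf
  | leaf => inferInstanceAs (DecidableEq Unit)
  | node _ l r =>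
    letI := decEqLf l
    letI := decEqLf r
    inferInstanceAs (DecidableEq (l.Lf ⊕ r.Lf))

lemma card_Lf (A : BT) : Fintype.card A.Lf = A.size := by
  induction A with
  | leaf => rfl
  | node k l r ih1 ih2 => exact (Fintype.card_sum (α := l.Lf) (β := r.Lf)).trans (by rw [ih1, ih2]; rfl)

lemma prod_Lf_node {k : ℕ} {l r : BT} (f : (node k l r).Lf → ℝ) :
    ∏ x, f x = (∏ x : l.Lf, f (Sum.inl x)) * ∏ x : r.Lf, f (Sum.inr x) :=
  Fintype.prod_sum_type (α₁ := l.Lf) (α₂ := r.Lf) f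

lemma prod_Lf_leaf (f : leaf.Lf → ℝ) : ∏ x, f x = f () := Fintype.prod_unique (ι := Unit) f

/-- levels are weakly increasing, start from `a`, and are at most `R` -/
def WF (R : ℕ) : ℕ → BT → Prop
  | _, leaf => True
  | a, node k l r => a ≤ k ∧ k ≤ R ∧ WF R k l ∧ WF R k r

lemma WF.mono {R a a' : ℕ} {A : BT} (h : WF R a A) (ha : a' ≤ a) : WF R a' A := by
  cases A with
  | leaf => trivial
  | node k l r => exact ⟨ha.trans h.1, h.2⟩

end BT

open BT

variable {S : Type} [Fintype S] (P : Par)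

/-- the replica law of a tree, along a given path -/
noncomputable def nu (H : Path S → ℝ) : (A : BT) → Path S → ((A.Lf → Path S) → ℝ) →ₗ[ℝ] ℝ
  | .leaf, ω => LinearMap.proj fun _ => ω
  | .node k l r, ω => E P H k ω ∘ₗ LinearMap.pi fun ω₁ => nu H l ω₁ ∘ₗ LinearMap.pi fun x =>
      E P H k ω ∘ₗ LinearMap.pi fun ω₂ => nu H r ω₂ ∘ₗ
        LinearMap.funLeft ℝ ℝ fun y : r.Lf → Path S => (Sum.elim x y : l.Lf ⊕ r.Lf → Path S)

/-- the replica law of a tree started at level `a` -/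
noncomputable def nuE (H : Path S → ℝ) (a : ℕ) (A : BT) (ω : Path S) :
    ((A.Lf → Path S) → ℝ) →ₗ[ℝ] ℝ := E P H a ω ∘ₗ LinearMap.pi (nu P H A)

lemma nuE_apply (H : Path S → ℝ) (a : ℕ) (A : BT) (ω : Path S) (F : (A.Lf → Path S) → ℝ) :
    nuE P H a A ω F = E P H a ω fun x => nu P H A x F := rfl

lemma nu_leaf (H : Path S → ℝ) (ω : Path S) (F : (leaf.Lf → Path S) → ℝ) :
    nu P H .leaf ω F = F fun _ => ω := rfl

lemma nu_node (H : Path S → ℝ) (k : ℕ) (l r : BT) (ω : Path S)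
    (F : ((node k l r).Lf → Path S) → ℝ) :
    nu P H (.node k l r) ω F =
      nuE P H k l ω fun x => nuE P H k r ω fun y => F (Sum.elim x y) := rfl

lemma nu_isP [Nonempty S] (H : Path S → ℝ) (A : BT) (ω : Path S) : IsP (nu P H A ω) := by
  induction A generalizing ω with
  | leaf => exact ⟨fun f hf => hf _, rfl⟩
  | node k l r ih1 ih2 =>
    have a1 : IsP (nuE P H k l ω) := (E_isP P H k ω).comp _ ih1
    have a2 : IsP (nuE P H k r ω) := (E_isP P H k ω).comp _ ih2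
    exact ⟨fun f hf => a1.nonneg _ fun x => a2.nonneg _ fun y => hf _, by
      rw [nu_node]; simp only [a2.one, a1.one]⟩

lemma nuE_isP [Nonempty S] (H : Path S → ℝ) (a : ℕ) (A : BT) (ω : Path S) :
    IsP (nuE P H a A ω) := (E_isP P H a ω).comp _ (nu_isP P H A)

/-- tree moments -/
noncomputable def mom (H : Path S → ℝ) : (A : BT) → (A.Lf → Path S → ℝ) → Path S → ℝ
  | .leaf, f => f ()
  | .node k l r, f => fun ω => E P H k ω (mom H l fun x => f (Sum.inl x)) *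
      E P H k ω (mom H r fun x => f (Sum.inr x))

lemma nu_prod (H : Path S → ℝ) (A : BT) (f : A.Lf → Path S → ℝ) (ω : Path S) :
    nu P H A ω (fun x => ∏ l, f l (x l)) = mom P H A f ω := by
  induction A generalizing ω with
  | leaf => rw [nu_leaf, prod_Lf_leaf]; rfl
  | node k l r ih1 ih2 =>
    rw [nu_node]
    simp only [prod_Lf_node, Sum.elim_inl, Sum.elim_inr, lin_mul, lin_mul']
    simp only [nuE_apply, ih1 fun x => f (Sum.inl x), ih2 fun x => f (Sum.inr x), mom]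

lemma nuE_prod (H : Path S → ℝ) (a : ℕ) (A : BT) (f : A.Lf → Path S → ℝ) (ω : Path S) :
    nuE P H a A ω (fun x => ∏ l, f l (x l)) = E P H a ω (mom P H A f) := by
  simp only [nuE_apply, nu_prod]

lemma mom_abs [Nonempty S] (H : Path S → ℝ) (A : BT) (f : A.Lf → Path S → ℝ) {c : ℝ}
    (hf : ∀ l x, |f l x| ≤ c) (ω : Path S) : |mom P H A f ω| ≤ c ^ A.size := by
  rw [← nu_prod]
  refine (nu_isP P H A ω).abs_le_of fun x => ?_
  rw [abs_prod, ← card_Lf, ← card_univ, ← prod_const]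
  exact prod_le_prod (fun _ _ => abs_nonneg _) fun l _ => hf _ _

section prod
variable {L : Type} [Fintype L] {T : L → Type} [∀ l, Fintype (T l)] [∀ l, Nonempty (T l)]

lemma nu_pi {π : ∀ l, S → T l} (hπ : Indep π) (H : ∀ l, Path (T l) → ℝ) (A : BT)
    (F : ∀ l, (A.Lf → Path (T l)) → ℝ) (ω : Path S) :
    nu P (fun x => ∑ l, H l (π l ∘ x)) A ω (fun x => ∏ l, F l fun j => π l ∘ x j) =
      ∏ l, nu P (H l) A (π l ∘ ω) (F l) := by
  induction A generalizing ω with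
  | leaf => rfl
  | node k l r ih1 ih2 =>
    simp only [nu_node, nuE_apply]
    have e1 : ∀ (x : l.Lf → Path S) (ω₂ : Path S),
        nu P (fun x => ∑ l, H l (π l ∘ x)) r ω₂
          (fun y => ∏ i, F i fun j => π i ∘ Sum.elim x y j) =
        ∏ i, nu P (H i) r (π i ∘ ω₂) fun y => F i (Sum.elim (fun j => π i ∘ x j) y) := by
      intro x ω₂
      rw [← ih2]
      congr 1; funext y
      refine prod_congr rfl fun i _ => ?_
      congr 1; funext j; cases j <;> rfl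
    simp only [e1]
    have e2 : ∀ x : l.Lf → Path S, E P (fun x => ∑ l, H l (π l ∘ x)) k ω (fun ω₂ =>
        ∏ i, nu P (H i) r (π i ∘ ω₂) fun y => F i (Sum.elim (fun j => π i ∘ x j) y)) =
        ∏ i, E P (H i) k (π i ∘ ω) fun ω₂ =>
          nu P (H i) r ω₂ fun y => F i (Sum.elim (fun j => π i ∘ x j) y) := fun x =>
      E_pi P hπ H (fun i ω₂ => nu P (H i) r ω₂ fun y => F i (Sum.elim (fun j => π i ∘ x j) y)) k ω
    simp only [e2]
    have e3 := fun ω₁ => ih1 (fun i x => E P (H i) k (π i ∘ ω) fun ω₂ =>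
          nu P (H i) r ω₂ fun y => F i (Sum.elim x y)) ω₁
    simp only [e3]
    exact E_pi P hπ H (fun i ω₁ => nu P (H i) l ω₁ fun x => E P (H i) k (π i ∘ ω) fun ω₂ =>
          nu P (H i) r ω₂ fun y => F i (Sum.elim x y)) k ω

lemma nuE_pi {π : ∀ l, S → T l} (hπ : Indep π) (H : ∀ l, Path (T l) → ℝ) (a : ℕ) (A : BT)
    (F : ∀ l, (A.Lf → Path (T l)) → ℝ) (ω : Path S) :
    nuE P (fun x => ∑ l, H l (π l ∘ x)) a A ω (fun x => ∏ l, F l fun j => π l ∘ x j) =
      ∏ l, nuE P (H l) a A (π l ∘ ω) (F l) := by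
  simp only [nuE_apply, nu_pi P hπ]
  exact E_pi P hπ H (fun i x => nu P (H i) A x (F i)) a ω

variable {S₁ S₂ : Type} [Fintype S₁] [Fintype S₂] [Nonempty S₁] [Nonempty S₂]

lemma nu_prod₂ {π₁ : S → S₁} {π₂ : S → S₂} (hπ : Indep₂ π₁ π₂) (H₁ : Path S₁ → ℝ)
    (H₂ : Path S₂ → ℝ) (A : BT) (F₁ : (A.Lf → Path S₁) → ℝ) (F₂ : (A.Lf → Path S₂) → ℝ)
    (ω : Path S) :
    nu P (fun x => H₁ (π₁ ∘ x) + H₂ (π₂ ∘ x)) A ω
        (fun x => F₁ (fun j => π₁ ∘ x j) * F₂ fun j => π₂ ∘ x j) =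
      nu P H₁ A (π₁ ∘ ω) F₁ * nu P H₂ A (π₂ ∘ ω) F₂ := by
  induction A generalizing ω with
  | leaf => rfl
  | node k l r ih1 ih2 =>
    simp only [nu_node, nuE_apply]
    have e1 : ∀ (x : l.Lf → Path S) (ω₂ : Path S),
        nu P (fun x => H₁ (π₁ ∘ x) + H₂ (π₂ ∘ x)) r ω₂
          (fun y => F₁ (fun j => π₁ ∘ Sum.elim x y j) * F₂ fun j => π₂ ∘ Sum.elim x y j) =
        (nu P H₁ r (π₁ ∘ ω₂) fun y => F₁ (Sum.elim (fun j => π₁ ∘ x j) y)) *
          nu P H₂ r (π₂ ∘ ω₂) fun y => F₂ (Sum.elim (fun j => π₂ ∘ x j) y) := by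
      intro x ω₂
      rw [← ih2]
      congr 1; funext y
      congr 2 <;> (funext j; cases j <;> rfl)
    simp only [e1]
    have e2 := fun x : l.Lf → Path S => E_prod P hπ H₁ H₂
      (fun ω₂ => nu P H₁ r ω₂ fun y => F₁ (Sum.elim (fun j => π₁ ∘ x j) y))
      (fun ω₂ => nu P H₂ r ω₂ fun y => F₂ (Sum.elim (fun j => π₂ ∘ x j) y)) k ω
    simp only [e2]
    have e3 := fun ω₁ => ih1 (fun x => E P H₁ k (π₁ ∘ ω) fun ω₂ =>
          nu P H₁ r ω₂ fun y => F₁ (Sum.elim x y)) (fun x => E P H₂ k (π₂ ∘ ω) fun ω₂ =>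
          nu P H₂ r ω₂ fun y => F₂ (Sum.elim x y)) ω₁
    simp only [e3]
    exact E_prod P hπ H₁ H₂ (fun ω₁ => nu P H₁ l ω₁ fun x => E P H₁ k (π₁ ∘ ω) fun ω₂ =>
          nu P H₁ r ω₂ fun y => F₁ (Sum.elim x y)) (fun ω₁ => nu P H₂ l ω₁ fun x =>
          E P H₂ k (π₂ ∘ ω) fun ω₂ => nu P H₂ r ω₂ fun y => F₂ (Sum.elim x y)) k ω

lemma nuE_prod₂ {π₁ : S → S₁} {π₂ : S → S₂} (hπ : Indep₂ π₁ π₂) (H₁ : Path S₁ → ℝ)
    (H₂ : Path S₂ → ℝ) (a : ℕ) (A : BT) (F₁ : (A.Lf → Path S₁) → ℝ) (F₂ : (A.Lf → Path S₂) → ℝ)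
    (ω : Path S) :
    nuE P (fun x => H₁ (π₁ ∘ x) + H₂ (π₂ ∘ x)) a A ω
        (fun x => F₁ (fun j => π₁ ∘ x j) * F₂ fun j => π₂ ∘ x j) =
      nuE P H₁ a A (π₁ ∘ ω) F₁ * nuE P H₂ a A (π₂ ∘ ω) F₂ := by
  simp only [nuE_apply, nu_prod₂ P hπ]
  exact E_prod P hπ H₁ H₂ (fun x => nu P H₁ A x F₁) (fun x => nu P H₂ A x F₂) a ω

end prod

/-! ### grafting -/

/-- branching weight of level `t` -/
def pw (t : ℕ) : ℝ := P.m t - P.m (t - 1)

lemma pw_nonneg (t : ℕ) : 0 ≤ pw P t := sub_nonneg.2 (P.mono (Nat.sub_le _ _))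

lemma abel_sum (G : ℕ → ℝ) {a k : ℕ} (h : a ≤ k) :
    ∑ u ∈ Ico a k, P.m u * (G (u + 1) - G u) =
      P.m k * G k - ∑ t ∈ Ioc a k, pw P t * G t - P.m a * G a := by
  induction k, h using Nat.le_induction with
  | base => simp
  | succ k hk ih =>
    rw [sum_Ico_succ_top hk, sum_Ioc_succ_top hk, ih, pw, Nat.add_sub_cancel]
    ring

lemma sum_pw {a k : ℕ} (h : a ≤ k) : ∑ t ∈ Ioc a k, pw P t = P.m k - P.m a := by
  have := abel_sum P (fun _ => 1) h
  simp only [sub_self, mul_zero, sum_const_zero, mul_one] at this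
  linarith

/-- grafting a new leaf strictly above level `a` -/
noncomputable def Gr : ℕ → BT → (BT → ℝ) →ₗ[ℝ] ℝ
  | a, .leaf => ∑ t ∈ Ioc a P.r, pw P t • LinearMap.proj (node t leaf leaf)
  | a, .node k l r => ∑ t ∈ Ioc a k, pw P t • LinearMap.proj (node t (node k l r) leaf) +
      P.m k • LinearMap.proj (node k (node k l r) leaf) +
      Gr k l ∘ₗ LinearMap.funLeft ℝ ℝ (fun Y => node k Y r) +
      Gr k r ∘ₗ LinearMap.funLeft ℝ ℝ (fun Y => node k l Y)

lemma Gr_leaf (a : ℕ) (Φ : BT → ℝ) :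
    Gr P a .leaf Φ = ∑ t ∈ Ioc a P.r, pw P t * Φ (node t leaf leaf) := by
  simp [Gr]

lemma Gr_node (a k : ℕ) (l r : BT) (Φ : BT → ℝ) :
    Gr P a (.node k l r) Φ = ∑ t ∈ Ioc a k, pw P t * Φ (node t (node k l r) leaf) +
      P.m k * Φ (node k (node k l r) leaf) + Gr P k l (fun Y => Φ (node k Y r)) +
      Gr P k r fun Y => Φ (node k l Y) := by
  simp only [Gr, LinearMap.add_apply, LinearMap.sum_apply, LinearMap.smul_apply,
    LinearMap.proj_apply, smul_eq_mul]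
  rfl

lemma Gr_lin {B : Type*} (Λ : (B → ℝ) →ₗ[ℝ] ℝ) (a : ℕ) (A : BT) (F : BT → B → ℝ) :
    Λ (fun x => Gr P a A fun Y => F Y x) = Gr P a A fun Y => Λ (F Y) := by
  induction A generalizing a F with
  | leaf => simp only [Gr_leaf, lin_sum, lin_mul]
  | node k l r ih1 ih2 =>
    simp only [Gr_node, lin_add, lin_sum, lin_mul]
    rw [ih1 k fun Y => F (node k Y r), ih2 k fun Y => F (node k l Y)]

lemma Gr_mono {a : ℕ} {A : BT} (hA : WF P.r a A) {Φ Φ' : BT → ℝ}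
    (h : ∀ Y, WF P.r a Y → Y.size = A.size + 1 → Φ Y ≤ Φ' Y) : Gr P a A Φ ≤ Gr P a A Φ' := by
  induction A generalizing a Φ Φ' with
  | leaf =>
    simp only [Gr_leaf]
    refine sum_le_sum fun t ht => mul_le_mul_of_nonneg_left (h _ ?_ rfl) (pw_nonneg P t)
    exact ⟨(mem_Ioc.1 ht).1.le, (mem_Ioc.1 ht).2, trivial, trivial⟩
  | node k l r ih1 ih2 =>
    obtain ⟨h1, h2, h3, h4⟩ := hA
    simp only [Gr_node]
    refine add_le_add (add_le_add (add_le_add (sum_le_sum fun t ht => ?_) ?_) ?_) ?_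
    · refine mul_le_mul_of_nonneg_left (h _ ?_ rfl) (pw_nonneg P t)
      exact ⟨(mem_Ioc.1 ht).1.le, (mem_Ioc.1 ht).2.trans h2, ⟨(mem_Ioc.1 ht).2, h2, h3, h4⟩, trivial⟩
    · exact mul_le_mul_of_nonneg_left (h _ ⟨h1, h2, ⟨le_rfl, h2, h3, h4⟩, trivial⟩ rfl) (P.pos k).le
    · exact ih1 h3 fun Y hY hs => h _ ⟨h1, h2, hY, h4⟩ (by simp only [size, hs]; ring)
    · exact ih2 h4 fun Y hY hs => h _ ⟨h1, h2, h3, hY⟩ (by simp only [size, hs]; ring)

lemma Gr_const {a : ℕ} (ha : a ≤ P.r) {A : BT} (hA : WF P.r a A) (c : ℝ) :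
    Gr P a A (fun _ => c) = (A.size - P.m a) * c := by
  induction A generalizing a with
  | leaf => rw [Gr_leaf, ← sum_mul, sum_pw P ha, P.top _ le_rfl]; simp [size]
  | node k l r ih1 ih2 =>
    obtain ⟨h1, h2, h3, h4⟩ := hA
    rw [Gr_node, ← sum_mul, sum_pw P h1, ih1 h2 h3, ih2 h2 h4, size]
    push_cast; ring

lemma Gr_deriv {a : ℕ} {A : BT} (hA : WF P.r a A) {Φ : ℝ → BT → ℝ} {Φ' : BT → ℝ} {s₀ : ℝ}
    (h : ∀ Y, WF P.r a Y → Y.size = A.size + 1 → HasDerivAt (fun s => Φ s Y) (Φ' Y) s₀) :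
    HasDerivAt (fun s => Gr P a A (Φ s)) (Gr P a A Φ') s₀ := by
  induction A generalizing a Φ Φ' with
  | leaf =>
    simp only [Gr_leaf]
    refine HasDerivAt.fun_sum fun t ht => (h _ ?_ rfl).const_mul _
    exact ⟨(mem_Ioc.1 ht).1.le, (mem_Ioc.1 ht).2, trivial, trivial⟩
  | node k l r ih1 ih2 =>
    obtain ⟨h1, h2, h3, h4⟩ := hA
    simp only [Gr_node]
    refine (((HasDerivAt.fun_sum fun t ht => (h _ ?_ rfl).const_mul _).fun_add ?_).fun_add
      ?_).fun_add ?_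
    · exact ⟨(mem_Ioc.1 ht).1.le, (mem_Ioc.1 ht).2.trans h2, ⟨(mem_Ioc.1 ht).2, h2, h3, h4⟩, trivial⟩
    · exact (h (node k (node k l r) leaf) ⟨h1, h2, ⟨le_rfl, h2, h3, h4⟩, trivial⟩ rfl).const_mul _
    · exact ih1 h3 (Φ := fun s Y => Φ s (node k Y r))
        fun Y hY hs => h _ ⟨h1, h2, hY, h4⟩ (by simp only [size, hs]; ring)
    · exact ih2 h4 (Φ := fun s Y => Φ s (node k l Y))
        fun Y hY hs => h _ ⟨h1, h2, h3, hY⟩ (by simp only [size, hs]; ring)

/-- the law of the tree of `n + 1` replicas started at level `a` -/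
noncomputable def Q (a : ℕ) : ℕ → (BT → ℝ) →ₗ[ℝ] ℝ
  | 0 => LinearMap.proj leaf
  | n + 1 => Q a n ∘ₗ LinearMap.pi fun A =>
      ((n + 1 : ℝ)⁻¹) • (Gr P a A + P.m a • LinearMap.proj (node a A leaf))

lemma Q_zero (a : ℕ) (Φ : BT → ℝ) : Q P a 0 Φ = Φ leaf := rfl

lemma Q_succ (a n : ℕ) (Φ : BT → ℝ) : Q P a (n + 1) Φ =
    Q P a n fun A => (n + 1 : ℝ)⁻¹ * (Gr P a A Φ + P.m a * Φ (node a A leaf)) := rfl

lemma Q_lin {B : Type*} (Λ : (B → ℝ) →ₗ[ℝ] ℝ) (a n : ℕ) (F : BT → B → ℝ) :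
    Λ (fun x => Q P a n fun Y => F Y x) = Q P a n fun Y => Λ (F Y) := by
  induction n generalizing F with
  | zero => rfl
  | succ n ih =>
    simp only [Q_succ]
    rw [ih fun A x => (n + 1 : ℝ)⁻¹ * (Gr P a A (fun Y => F Y x) + P.m a * F (node a A leaf) x)]
    simp only [lin_mul, lin_add, Gr_lin]

lemma Q_mono {a : ℕ} (ha : a ≤ P.r) (n : ℕ) {Φ Φ' : BT → ℝ}
    (h : ∀ Y, WF P.r a Y → Y.size = n + 1 → Φ Y ≤ Φ' Y) : Q P a n Φ ≤ Q P a n Φ' := by
  induction n generalizing Φ Φ' with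
  | zero => exact h _ trivial rfl
  | succ n ih =>
    simp only [Q_succ]
    refine ih fun A hA hs => mul_le_mul_of_nonneg_left (add_le_add ?_ ?_) (by positivity)
    · exact Gr_mono P hA fun Y hY hY' => h Y hY (by rw [hY', hs])
    · exact mul_le_mul_of_nonneg_left (h _ ⟨le_rfl, ha, hA, trivial⟩ (by simp [size, hs]))
        (P.pos a).le

lemma Q_congr {a : ℕ} (ha : a ≤ P.r) (n : ℕ) {Φ Φ' : BT → ℝ}
    (h : ∀ Y, WF P.r a Y → Y.size = n + 1 → Φ Y = Φ' Y) : Q P a n Φ = Q P a n Φ' :=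
  le_antisymm (Q_mono P ha n fun Y h1 h2 => (h Y h1 h2).le)
    (Q_mono P ha n fun Y h1 h2 => (h Y h1 h2).ge)

lemma Q_const {a : ℕ} (ha : a ≤ P.r) (n : ℕ) (c : ℝ) : Q P a n (fun _ => c) = c := by
  induction n with
  | zero => rfl
  | succ n ih =>
    rw [Q_succ]
    refine (Q_congr P ha n fun A hA hs => ?_).trans ih
    rw [Gr_const P ha hA, hs]
    push_cast; field_simp; ring

lemma Q_abs_le {a : ℕ} (ha : a ≤ P.r) (n : ℕ) {Φ Φ' : BT → ℝ}
    (h : ∀ Y, WF P.r a Y → Y.size = n + 1 → |Φ Y| ≤ Φ' Y) : |Q P a n Φ| ≤ Q P a n Φ' := by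
  rw [abs_le, ← lin_neg]
  exact ⟨Q_mono P ha n fun Y h1 h2 => (abs_le.1 (h Y h1 h2)).1,
    Q_mono P ha n fun Y h1 h2 => (abs_le.1 (h Y h1 h2)).2⟩

lemma Q_deriv {a : ℕ} (ha : a ≤ P.r) (n : ℕ) {Φ : ℝ → BT → ℝ} {Φ' : BT → ℝ} {s₀ : ℝ}
    (h : ∀ Y, WF P.r a Y → Y.size = n + 1 → HasDerivAt (fun s => Φ s Y) (Φ' Y) s₀) :
    HasDerivAt (fun s => Q P a n (Φ s)) (Q P a n Φ') s₀ := by
  induction n generalizing Φ Φ' with
  | zero => exact h _ trivial rfl
  | succ n ih =>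
    simp only [Q_succ]
    refine ih (Φ := fun s A => (n + 1 : ℝ)⁻¹ * (Gr P a A (Φ s) + P.m a * Φ s (node a A leaf)))
      fun A hA hs => HasDerivAt.const_mul _ (HasDerivAt.fun_add ?_ ?_)
    · exact Gr_deriv P hA fun Y hY hY' => h Y hY (by rw [hY', hs])
    · exact (h (node a A leaf) ⟨le_rfl, ha, hA, trivial⟩ (by simp [size, hs])).const_mul _

/-! ### derivatives -/

lemma hasDerivAt_expect {B : Type*} [Fintype B] {F : ℝ → B → ℝ} {F' : B → ℝ} {s₀ : ℝ}
    (h : ∀ b, HasDerivAt (fun s => F s b) (F' b) s₀) :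
    HasDerivAt (fun s => 𝔼 b, F s b) (𝔼 b, F' b) s₀ := by
  simp only [Fintype.expect_eq_sum_div_card]
  exact (HasDerivAt.fun_sum fun b _ => h b).div_const _

variable [Nonempty S]

lemma X_deriv {Hs : ℝ → Path S → ℝ} {g : Path S → ℝ} {s₀ : ℝ}
    (hH : ∀ ω, HasDerivAt (fun s => Hs s ω) (g ω) s₀) (t : ℕ) (ω : Path S) :
    HasDerivAt (fun s => X P (Hs s) t ω) (E P (Hs s₀) t ω g) s₀ := by
  induction t using P.down generalizing ω with
  | h0 t ht => simpa only [X_top P _ ht, E_top P _ ht] using hH ω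
  | hs t ht ih =>
    simp only [X_step P _ ht, stepX]
    have h1 := ((hasDerivAt_expect fun b : S =>
      ((ih (update ω t b)).const_mul (P.m t)).exp).log (expect_exp_pos _).ne').div_const (P.m t)
    refine HasDerivAt.congr_deriv h1 (Eq.symm ?_)
    rw [E_step P _ ht, KK_eq P _ ht, div_div, mul_comm _ (P.m t), ← div_div, expect_div _ _ (P.m t)]
    congr 1
    refine expect_congr rfl fun b _ => ?_
    field_simp [(P.pos t).ne']

omit [Nonempty S] in
lemma Lin_step (H : Path S → ℝ) {t : ℕ} (ht : t ≤ P.r) (g : Path S → ℝ) (ω : Path S) :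
    Lin P H t g ω = P.m t * (E P H (t + 1) ω g - E P H t ω g) + Lin P H (t + 1) g ω := by
  rw [Lin, Lin, sum_eq_sum_Ico_succ_bot (by omega)]

lemma E_deriv {Hs : ℝ → Path S → ℝ} {g : Path S → ℝ} {s₀ : ℝ}
    (hH : ∀ ω, HasDerivAt (fun s => Hs s ω) (g ω) s₀) {f : ℝ → Path S → ℝ} {f' : Path S → ℝ}
    (hf : ∀ ω, HasDerivAt (fun s => f s ω) (f' ω) s₀) (t : ℕ) (ω : Path S) :
    HasDerivAt (fun s => E P (Hs s) t ω (f s))
      (E P (Hs s₀) t ω fun x => f' x + f s₀ x * Lin P (Hs s₀) t g x) s₀ := by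
  induction t using P.down generalizing ω with
  | h0 t ht =>
    simpa [E_top P _ ht, Lin, Ico_eq_empty_of_le (show P.r + 1 ≤ t by omega)] using hf ω
  | hs t ht ih =>
    simp only [E_step P _ ht, KK_apply, rho]
    refine hasDerivAt_expect fun b => ?_
    have h1 := ((((X_deriv P hH (t + 1) (update ω t b)).fun_sub
      (X_deriv P hH t (update ω t b))).const_mul (P.m t)).exp).fun_mul (ih (update ω t b))
    refine HasDerivAt.congr_deriv h1 (Eq.symm ?_)
    have hm : Meas P (t + 1) fun x => P.m t * (E P (Hs s₀) (t + 1) x g - E P (Hs s₀) t x g) :=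
      Meas.map₂ (fun a b => P.m t * (a - b)) (E_meas P _ _ _)
        ((E_meas P _ t _).mono (Nat.le_succ t))
    have e : (fun x => f' x + f s₀ x * Lin P (Hs s₀) t g x) = fun x =>
        P.m t * (E P (Hs s₀) (t + 1) x g - E P (Hs s₀) t x g) * f s₀ x +
          (f' x + f s₀ x * Lin P (Hs s₀) (t + 1) g x) := by
      funext x; rw [Lin_step P _ ht]; ring
    rw [e, lin_add, E_mul_meas P _ hm]
    ring

lemma E_mul_Lin (H : Path S → ℝ) {a k : ℕ} (hak : a ≤ k) (hk : k ≤ P.r + 1) {f : Path S → ℝ}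
    (hf : Meas P k f) (g : Path S → ℝ) (ω : Path S) :
    E P H a ω (fun x => f x * Lin P H a g x) =
      P.m k * E P H a ω (fun x => f x * E P H k x g) -
      ∑ t ∈ Ioc a k, pw P t * E P H a ω (fun x => f x * E P H t x g) -
      P.m a * (E P H a ω f * E P H a ω g) := by
  have e : ∀ u, k ≤ u → E P H a ω (fun x => f x * E P H u x g) = E P H a ω fun x => f x * g x :=
    fun u hu => E_mul_E P H (hak.trans hu) (hf.mono hu) g ω
  have e1 : (fun x => f x * Lin P H a g x) = fun x => ∑ u ∈ Ico a (P.r + 1),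
      P.m u * (f x * E P H (u + 1) x g - f x * E P H u x g) := by
    funext x
    rw [Lin, mul_sum]
    exact sum_congr rfl fun u _ => by ring
  rw [e1]
  simp only [lin_sum, lin_mul, lin_sub]
  rw [← sum_Ico_consecutive _ hak hk, sum_eq_zero (s := Ico k (P.r + 1)), add_zero,
    abel_sum P (fun u => E P H a ω fun x => f x * E P H u x g) hak]
  · congr 2
    simp only [mul_comm (f _)]
    rw [E_mul_meas P H (E_meas P H a g), mul_comm]
  · intro u hu
    rw [e u (mem_Ico.1 hu).1, e (u + 1) ((mem_Ico.1 hu).1.trans (Nat.le_succ u))]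
    simp

omit [Nonempty S] in
lemma mom_meas (H : Path S → ℝ) (k : ℕ) (l r : BT) (f : (node k l r).Lf → Path S → ℝ) :
    Meas P k (mom P H (node k l r) f) := Meas.map₂ (· * ·) (E_meas P H k _) (E_meas P H k _)

lemma mom_deriv {Hs : ℝ → Path S → ℝ} {g : ℝ → Path S → ℝ} {s₀ : ℝ}
    (hH : ∀ ω, HasDerivAt (fun s => Hs s ω) (g s₀ ω) s₀)
    (hg : ∀ ω, HasDerivAt (fun s => g s ω) (-(g s₀ ω * g s₀ ω)) s₀) {a : ℕ} (ha : a ≤ P.r)
    {A : BT} (hA : WF P.r a A) (ω : Path S) :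
    HasDerivAt (fun s => E P (Hs s) a ω (mom P (Hs s) A fun _ => g s))
      (-(Gr P a A (fun Y => E P (Hs s₀) a ω (mom P (Hs s₀) Y fun _ => g s₀)) +
        P.m a * (E P (Hs s₀) a ω (mom P (Hs s₀) A fun _ => g s₀) * E P (Hs s₀) a ω (g s₀)))) s₀ := by
  have key : ∀ (t : ℕ) (Y : BT), a ≤ t →
      E P (Hs s₀) a ω (mom P (Hs s₀) (node t Y leaf) fun _ => g s₀) =
      E P (Hs s₀) a ω fun x => (mom P (Hs s₀) Y (fun _ => g s₀)) x * E P (Hs s₀) t x (g s₀) := by
    intro t Y ht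
    simp only [mom, mul_comm _ (E P (Hs s₀) t _ (g s₀))]
    exact E_mul_E P _ ht (E_meas P _ t _) _ ω
  induction A generalizing a ω with
  | leaf =>
    have h1 := E_deriv P hH hg a ω
    refine HasDerivAt.congr_deriv h1 (Eq.symm ?_)
    rw [lin_add, E_mul_Lin P _ (k := P.r + 1) (by omega) le_rfl (fun u h1 h2 => by omega),
      sum_Ioc_succ_top ha, Gr_leaf, sum_congr rfl fun t ht => by rw [key t _ (mem_Ioc.1 ht).1.le]]
    simp only [E_top P _ (Nat.lt_succ_self _), lin_neg, pw, Nat.add_sub_cancel, P.top _ le_rfl,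
      P.top _ (Nat.le_succ _), mom]
    ring
  | node k l r ih1 ih2 =>
    obtain ⟨h1, h2, h3, h4⟩ := hA
    have key' : ∀ (ω : Path S) (t : ℕ) (Y : BT), k ≤ t →
        E P (Hs s₀) k ω (mom P (Hs s₀) (node t Y leaf) fun _ => g s₀) =
        E P (Hs s₀) k ω fun x => (mom P (Hs s₀) Y (fun _ => g s₀)) x * E P (Hs s₀) t x (g s₀) := by
      intro ω t Y ht
      simp only [mom, mul_comm _ (E P (Hs s₀) t _ (g s₀))]
      exact E_mul_E P _ ht (E_meas P _ t _) _ ω
    have h5 := E_deriv P hH (f := fun s => mom P (Hs s) (node k l r) fun _ => g s)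
      (fun x => (ih1 h2 h3 x (key' x)).fun_mul (ih2 h2 h4 x (key' x))) a ω
    refine HasDerivAt.congr_deriv h5 (Eq.symm ?_)
    rw [lin_add, E_mul_Lin P _ h1 (by omega) (mom_meas P _ k l r _), Gr_node,
      sum_congr rfl fun t ht => by rw [key t _ (mem_Ioc.1 ht).1.le], key k _ h1]
    have e1 := Gr_lin P (E P (Hs s₀) a ω) k l fun Y => mom P (Hs s₀) (node k Y r) fun _ => g s₀
    have e2 := Gr_lin P (E P (Hs s₀) a ω) k r fun Y => mom P (Hs s₀) (node k l Y) fun _ => g s₀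
    rw [← e1, ← e2]
    simp only [mom, lin_mul, lin_mul']
    have e3 : ∀ u v w : Path S → ℝ, ∀ G G' : Path S → ℝ, E P (Hs s₀) a ω (fun x =>
        -(G x + P.m k * (u x * w x)) * v x + u x * -(G' x + P.m k * (v x * w x))) =
        -E P (Hs s₀) a ω (fun x => G x * v x) - E P (Hs s₀) a ω (fun x => u x * G' x) -
          2 * P.m k * E P (Hs s₀) a ω (fun x => u x * v x * w x) := by
      intro u v w G G'
      rw [← lin_neg, ← lin_sub, ← lin_mul, ← lin_sub]
      congr 1; funext x; ring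
    rw [e3]
    ring

/-- the tree expansion of the nested functional -/
theorem expansion (H D : Path S → ℝ) {d : ℝ} (hD : ∀ ω, |D ω| ≤ d) (hd : d < 1) {a : ℕ}
    (ha : a ≤ P.r) (ω : Path S) (n : ℕ) :
    |Psi P H (fun x => Real.log (1 + D x)) a ω - ∑ j ∈ range n, (-1) ^ j / (j + 1) *
      Q P a j (fun A => E P H a ω (mom P H A fun _ => D))| ≤ d ^ (n + 1) / (1 - d) := by
  have hd0 : 0 ≤ d := (abs_nonneg _).trans (hD ω)
  let Hs : ℝ → Path S → ℝ := fun s x => H x + Real.log (1 + s * D x)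
  let g : ℝ → Path S → ℝ := fun s x => D x / (1 + s * D x)
  let b : ℕ → ℝ → ℝ := fun j s => Q P a j fun A => E P (Hs s) a ω (mom P (Hs s) A fun _ => g s)
  have hpos : ∀ s ∈ Set.Icc (0 : ℝ) 1, ∀ x, 1 - s * d ≤ 1 + s * D x := by
    intro s hs x
    have := mul_le_mul_of_nonneg_left (abs_le.1 (hD x)).1 hs.1
    linarith
  have hpos' : ∀ s ∈ Set.Icc (0 : ℝ) 1, 1 - d ≤ 1 - s * d := by
    intro s hs
    have := mul_le_mul_of_nonneg_right hs.2 hd0
    linarith
  have hne : ∀ s ∈ Set.Icc (0 : ℝ) 1, ∀ x, 1 + s * D x ≠ 0 := fun s hs x => by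
    linarith [hpos s hs x, hpos' s hs] |> ne_of_gt
  have hH : ∀ s ∈ Set.Icc (0 : ℝ) 1, ∀ x, HasDerivAt (fun s => Hs s x) (g s x) s := by
    intro s hs x
    have := (((hasDerivAt_id s).mul_const (D x)).const_add 1).log (hne s hs x)
    simpa [Hs, g] using this.const_add (H x)
  have hg : ∀ s ∈ Set.Icc (0 : ℝ) 1, ∀ x, HasDerivAt (fun s => g s x) (-(g s x * g s x)) s := by
    intro s hs x
    have := (hasDerivAt_const s (D x)).fun_div (((hasDerivAt_id s).mul_const (D x)).const_add 1)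
      (hne s hs x)
    refine HasDerivAt.congr_deriv this (Eq.symm ?_)
    have := hne s hs x
    simp only [g, id]
    field_simp
    ring
  have hb : ∀ s ∈ Set.Icc (0 : ℝ) 1, ∀ j, HasDerivAt (b j) (-((j + 1) * b (j + 1) s)) s := by
    intro s hs j
    have := Q_deriv P ha j
      (Φ := fun s A => E P (Hs s) a ω (mom P (Hs s) A fun _ => g s))
      fun A hA _ => mom_deriv P (hH s hs) (hg s hs) ha hA ω
    refine HasDerivAt.congr_deriv this (Eq.symm ?_)
    simp only [b, Q_succ]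
    rw [← lin_mul, ← lin_neg]
    congr 1; funext A
    have e : E P (Hs s) a ω (mom P (Hs s) (node a A leaf) fun _ => g s) =
        E P (Hs s) a ω (mom P (Hs s) A fun _ => g s) * E P (Hs s) a ω (g s) :=
      E_of_meas P _ (mom_meas P _ a A leaf _) ω
    rw [e]
    field_simp
  let T : ℕ → ℝ → ℝ := fun n s => X P (Hs s) a ω +
    ∑ j ∈ range n, (-1) ^ j / (j + 1) * ((1 - s) ^ (j + 1) * b j s)
  have hT : ∀ s ∈ Set.Icc (0 : ℝ) 1, ∀ n, HasDerivAt (T n) ((-1) ^ n * ((1 - s) ^ n * b n s)) s := by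
    intro s hs n
    induction n with
    | zero => simpa [T, b, Q_zero, mom] using X_deriv P (hH s hs) a ω
    | succ n ih =>
      have h1 := ((((hasDerivAt_id s).const_sub 1).fun_pow (n + 1)).fun_mul
        (hb s hs n)).const_mul ((-1) ^ n / (n + 1) : ℝ)
      have h2 := ih.fun_add h1
      have e : T (n + 1) = fun s => T n s + (-1) ^ n / (n + 1) * ((1 - s) ^ (n + 1) * b n s) := by
        funext s
        simp only [T, sum_range_succ, add_assoc]
      rw [e]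
      refine HasDerivAt.congr_deriv h2 ?_
      simp only [id, Nat.add_sub_cancel]
      push_cast
      field_simp
      ring
  have hbound : ∀ s ∈ Set.Ico (0 : ℝ) 1,
      ‖(-1 : ℝ) ^ n * ((1 - s) ^ n * b n s)‖ ≤ d ^ (n + 1) / (1 - d) := by
    intro s hs
    have hs' : s ∈ Set.Icc (0 : ℝ) 1 := ⟨hs.1, hs.2.le⟩
    have h0 : 0 < 1 - s * d := by linarith [hpos' s hs']
    have h1 : ∀ x, |g s x| ≤ d / (1 - s * d) := by
      intro x
      rw [abs_div, abs_of_pos (h0.trans_le (hpos s hs' x))]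
      exact div_le_div₀ hd0 (hD x) h0 (hpos s hs' x)
    have h2 : |b n s| ≤ (d / (1 - s * d)) ^ (n + 1) := by
      refine (Q_abs_le P ha n (Φ' := fun _ => (d / (1 - s * d)) ^ (n + 1))
        fun A _ hs => ?_).trans_eq (Q_const P ha n _)
      rw [← hs]
      exact (E_isP P _ a ω).abs_le_of (mom_abs P _ A _ fun _ => h1)
    have h3 : (1 - s) * (d / (1 - s * d)) ≤ d := by
      rw [← mul_div_assoc, div_le_iff₀ h0]
      have := mul_nonneg (mul_nonneg hs.1 hd0) (sub_nonneg.2 hd.le)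
      nlinarith
    have h4 : d / (1 - s * d) ≤ d / (1 - d) :=
      div_le_div_of_nonneg_left hd0 (by linarith) (hpos' s hs')
    have h5 : 0 ≤ 1 - s := by linarith [hs.2]
    rw [Real.norm_eq_abs, abs_mul, abs_mul, abs_pow, abs_neg, abs_one, one_pow, one_mul,
      abs_of_nonneg (pow_nonneg h5 n)]
    calc (1 - s) ^ n * |b n s| ≤ (1 - s) ^ n * (d / (1 - s * d)) ^ (n + 1) := by gcongr
      _ = ((1 - s) * (d / (1 - s * d))) ^ n * (d / (1 - s * d)) := by rw [mul_pow]; ring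
      _ ≤ d ^ n * (d / (1 - d)) := by gcongr
      _ = d ^ (n + 1) / (1 - d) := by ring
  have := norm_image_sub_le_of_norm_deriv_le_segment_01'
    (fun s hs => (hT s hs n).hasDerivWithinAt) hbound
  rw [Real.norm_eq_abs] at this
  convert this using 2
  simp [T, Psi, Hs, b, g]
  ring

end Crest.Agent.R141
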