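import Crest.Agent.R141.Defs
import Crest.Agent.R141.Tree

/-! Row 141, key inequality: the finite part (tree expansion of the three increments). -/

set_option autoImplicit false
open Finset Function
open scoped BigOperators
open Crest.ProbabilityR.Diluted

namespace Crest.Agent.R141.KeyAux

/-- raw data of an increment -/
structure Dat where
  P : Par
  a : ℕ
  N : ℕ
  I : Type
  S : Type
  S' : Type
  [nN : Nonempty (Fin N)]
  [fI : Fintype I]
  [nI : Nonempty I]
  [fS : Fintype S]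
  [nS : Nonempty S]
  [fS' : Fintype S']
  [nS' : Nonempty S']
  H : Path S → ℝ
  H' : I → Path S' → ℝ
  σ : S → Fin N → Bool
  s : I → S' → Bool
  ω : Path S
  ω' : Path S'

instance (d : Dat) : Nonempty (Fin d.N) := d.nN
instance (d : Dat) : Fintype d.I := d.fI
instance (d : Dat) : Nonempty d.I := d.nI
instance (d : Dat) : Fintype d.S := d.fS
instance (d : Dat) : Nonempty d.S := d.nS
instance (d : Dat) : Fintype d.S' := d.fS'
instance (d : Dat) : Nonempty d.S' := d.nS'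

variable (d : Dat) {p : ℕ}

noncomputable def HH (ι : Fin p → d.I) (x : Path (d.S × (Fin p → d.S'))) : ℝ :=
  d.H (Prod.fst ∘ x) + ∑ l, d.H' (ι l) fun t => (x t).2 l

def sp (c : Fin p → Bool) (idx : Fin p → Fin d.N) (ι : Fin p → d.I)
    (x : Path (d.S × (Fin p → d.S'))) : Fin p → Bool :=
  fun l => if c l then d.σ (x d.P.r).1 (idx l) else d.s (ι l) ((x d.P.r).2 l)

def w0 (p : ℕ) : Path (d.S × (Fin p → d.S')) := fun t => (d.ω t, fun _ => d.ω' t)

noncomputable def incD (c : Fin p → Bool) (θ : Inter p) : ℝ :=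
  𝔼 idx : Fin p → Fin d.N, 𝔼 ι : Fin p → d.I,
    Psi d.P (HH d ι) (fun x => θ (sp d c idx ι x)) d.a (w0 d p)

lemma exp2_abs {A B : Type} [Fintype A] [Fintype B] [Nonempty A] [Nonempty B] {F : A → B → ℝ}
    {e : ℝ} (h : ∀ a b, |F a b| ≤ e) : |𝔼 a, 𝔼 b, F a b| ≤ e :=
  (avg_isP A).abs_le_of (f := fun a => 𝔼 b, F a b) fun a => (avg_isP B).abs_le_of (h a)

lemma incD_lip (c : Fin p → Bool) {θ θ' : Inter p} {e : ℝ} (h : ∀ s, |θ s - θ' s| ≤ e) :
    |incD d c θ - incD d c θ'| ≤ e := by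
  simp only [incD, ← expect_sub_distrib]
  exact exp2_abs fun _ _ => Psi_lip d.P _ (fun _ => h _) _ _

lemma incD_abs (c : Fin p → Bool) {θ : Inter p} {e : ℝ} (h : ∀ s, |θ s| ≤ e) :
    |incD d c θ| ≤ e :=
  exp2_abs fun _ _ => Psi_abs d.P (fun _ => h _) _ _

lemma incD_add_const (c : Fin p → Bool) (θ : Inter p) (e : ℝ) :
    incD d c (fun s => θ s + e) = incD d c θ + e := by
  simp only [incD, Psi_add_const, expect_add_distrib, Fintype.expect_const]

lemma incD_cont (c : Fin p → Bool) : Continuous (incD d c : Inter p → ℝ) := by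
  refine (LipschitzWith.of_dist_le_mul (K := 1) fun θ θ' => ?_).continuous
  rw [Real.dist_eq, NNReal.coe_one, one_mul]
  exact incD_lip d c fun s => by rw [← Real.dist_eq]; exact dist_le_pi_dist θ θ' s

/-- enumeration of the leaves -/
noncomputable def eqv {A : BT} {n : ℕ} (h : A.size = n) : Fin n ≃ A.Lf :=
  (Fintype.equivFinOfCardEq (A.card_Lf.trans h)).symm

/-- the law of the spin pattern of `j + 1` replicas -/
noncomputable def LL (c : Fin p → Bool) (j : ℕ) :
    ((Fin (j + 1) → Fin p → Bool) → ℝ) →ₗ[ℝ] ℝ :=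
  avg (Fin p → Fin d.N) ∘ₗ LinearMap.pi fun idx => avg (Fin p → d.I) ∘ₗ LinearMap.pi fun ι =>
    Q d.P d.a j ∘ₗ LinearMap.pi fun A =>
      if h : A.size = j + 1 then nuE d.P (HH d ι) d.a A (w0 d p) ∘ₗ
        LinearMap.funLeft ℝ ℝ (fun y i => sp d c idx ι (y (eqv h i))) else 0

lemma LL_apply (c : Fin p → Bool) (j : ℕ) (Φ : (Fin (j + 1) → Fin p → Bool) → ℝ) :
    LL d c j Φ = 𝔼 idx : Fin p → Fin d.N, 𝔼 ι : Fin p → d.I, Q d.P d.a j fun A =>
      if h : A.size = j + 1 then nuE d.P (HH d ι) d.a A (w0 d p)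
        (fun y => Φ fun i => sp d c idx ι (y (eqv h i))) else 0 := by
  simp only [LL, LinearMap.comp_apply, avg_apply, LinearMap.pi_apply]
  refine expect_congr rfl fun idx _ => expect_congr rfl fun ι _ => ?_
  congr 1; funext A
  rw [LinearMap.pi_apply]
  split_ifs with h
  · rfl
  · rfl

lemma incD_expand (ha : d.a ≤ d.P.r) (c : Fin p → Bool) {x : Inter p} {e : ℝ}
    (hx : ∀ s, |x s| ≤ e) (he : e < 1) (n : ℕ) :
    |incD d c (fun s => Real.log (1 + x s)) -
      ∑ j ∈ range n, (-1) ^ j / (j + 1) * LL d c j (fun k => ∏ i, x (k i))| ≤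
      e ^ (n + 1) / (1 - e) := by
  simp only [incD, LL_apply, mul_expect, ← expect_sum_comm, ← expect_sub_distrib]
  refine exp2_abs fun idx ι => ?_
  have := expansion d.P (HH d ι) (fun y => x (sp d c idx ι y)) (fun _ => hx _) he ha (w0 d p) n
  convert this using 5 with j hj
  refine Q_congr d.P ha j fun A _ hA => ?_
  rw [dif_pos hA, ← nuE_prod]
  congr 1; funext y
  exact (eqv hA).prod_comp fun l => x (sp d c idx ι (y l))

/-- base average -/
noncomputable def xx {n : ℕ} (m : (Fin n → Bool) → ℝ) {A : BT} (h : A.size = n)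
    (y : A.Lf → Path d.S) : ℝ :=
  𝔼 i : Fin d.N, m fun k => d.σ (y (eqv h k) d.P.r) i

/-- trial average -/
noncomputable def qq {n : ℕ} (m : (Fin n → Bool) → ℝ) {A : BT} (h : A.size = n) : ℝ :=
  𝔼 ι : d.I, nuE d.P (d.H' ι) d.a A d.ω' fun y => m fun k => d.s ι (y (eqv h k) d.P.r)

lemma nu_factor (c : Fin p → Bool) {n : ℕ} (m : (Fin n → Bool) → ℝ) {A : BT} (h : A.size = n) :
    (𝔼 idx : Fin p → Fin d.N, 𝔼 ι : Fin p → d.I, nuE d.P (HH d ι) d.a A (w0 d p)
        (fun y => ∏ l, m fun i => sp d c idx ι (y (eqv h i)) l)) =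
      nuE d.P d.H d.a A d.ω fun y => ∏ l, if c l then xx d m h y else qq d m h := by
  have e1 : ∀ (idx : Fin p → Fin d.N) (ι : Fin p → d.I),
      nuE d.P (HH d ι) d.a A (w0 d p) (fun y => ∏ l, m fun i => sp d c idx ι (y (eqv h i)) l) =
      nuE d.P d.H d.a A d.ω
          (fun y => ∏ l, if c l then m fun k => d.σ (y (eqv h k) d.P.r) (idx l) else 1) *
        ∏ l, nuE d.P (d.H' (ι l)) d.a A d.ω'
          fun y => if c l then 1 else m fun k => d.s (ι l) (y (eqv h k) d.P.r) := by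
    intro idx ι
    have h2 := nuE_pi d.P (indep_pi (L := Fin p) (T := fun _ => d.S')) (fun l => d.H' (ι l)) d.a A
      (fun l y => if c l then 1 else m fun k => d.s (ι l) (y (eqv h k) d.P.r))
      (Prod.snd ∘ w0 d p)
    have h1 := nuE_prod₂ d.P (indep_prod (S₁ := d.S) (S₂ := Fin p → d.S')) d.H
      (fun x => ∑ l, d.H' (ι l) ((fun s : Fin p → d.S' => s l) ∘ x)) d.a A
      (fun y => ∏ l, if c l then m fun k => d.σ (y (eqv h k) d.P.r) (idx l) else 1)
      (fun y => ∏ l, if c l then 1 else m fun k => d.s (ι l) (y (eqv h k) d.P.r l)) (w0 d p)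
    refine Eq.trans ?_ (h1.trans ?_)
    · congr 1; funext y
      rw [← prod_mul_distrib]
      refine prod_congr rfl fun l _ => ?_
      by_cases hc : c l <;> simp [sp, hc]
    · congr 1
  simp only [e1, ← mul_expect, ← expect_mul]
  have e2 := indep_pi (L := Fin p) (T := fun _ => d.I) fun l ι => nuE d.P (d.H' ι) d.a A d.ω'
          fun y => if c l then 1 else m fun k => d.s ι (y (eqv h k) d.P.r)
  rw [e2, ← lin_expect, ← lin_mul']
  congr 1; funext y
  have e3 := indep_pi (L := Fin p) (T := fun _ => Fin d.N) fun l i =>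
    if c l then m fun k => d.σ (y (eqv h k) d.P.r) i else 1
  rw [e3, ← prod_mul_distrib]
  refine prod_congr rfl fun l _ => ?_
  by_cases hc : c l
  · simp [hc, xx, (nuE_isP d.P _ _ _ _).one]
  · simp [hc, qq]

lemma LL_prod (c : Fin p → Bool) (j : ℕ) (m : (Fin (j + 1) → Bool) → ℝ) :
    LL d c j (fun k => ∏ l, m fun i => k i l) = Q d.P d.a j fun A =>
      if h : A.size = j + 1 then
        nuE d.P d.H d.a A d.ω (fun y => ∏ l, if c l then xx d m h y else qq d m h) else 0 := by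
  rw [LL_apply]
  have e1 : ∀ idx : Fin p → Fin d.N, _ := fun idx => Q_lin d.P (avg (Fin p → d.I)) d.a j
    fun A ι => if h : A.size = j + 1 then nuE d.P (HH d ι) d.a A (w0 d p)
        (fun y => ∏ l, m fun i => sp d c idx ι (y (eqv h i)) l) else 0
  simp only [avg_apply] at e1
  simp only [e1]
  have e2 := Q_lin d.P (avg (Fin p → Fin d.N)) d.a j
    fun A idx => 𝔼 ι : Fin p → d.I, if h : A.size = j + 1 then nuE d.P (HH d ι) d.a A (w0 d p)
        (fun y => ∏ l, m fun i => sp d c idx ι (y (eqv h i)) l) else 0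
  simp only [avg_apply] at e2
  rw [e2]
  congr 1; funext A
  split_ifs with h
  · exact nu_factor d c m h
  · simp

lemma young {p : ℕ} (hp : Even p) (h2 : 2 ≤ p) (x q : ℝ) :
    x * q ^ (p - 1) - 1 / (p : ℝ) * x ^ p - (p - 1 : ℝ) / p * q ^ p ≤ 0 := by
  have h1 := pow_add_mul_le_add_pow (a := |q|) (b := |x| - |q|) (abs_nonneg q)
    (by linarith [abs_nonneg q, abs_nonneg x]) p
  rw [add_sub_cancel, hp.pow_abs, hp.pow_abs] at h1
  have h3 : x * q ^ (p - 1) ≤ |x| * |q| ^ (p - 1) := by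
    rw [← abs_pow, ← abs_mul]; exact le_abs_self _
  have h4 : |q| ^ (p - 1) * |q| = q ^ p := by
    rw [← pow_succ, Nat.sub_add_cancel (by omega), hp.pow_abs]
  have hp0 : (0 : ℝ) < p := by exact_mod_cast (by omega : 0 < p)
  have : x * q ^ (p - 1) - 1 / (p : ℝ) * x ^ p - (p - 1 : ℝ) / p * q ^ p =
      (p * (x * q ^ (p - 1)) - x ^ p - (p - 1) * q ^ p) / p := by field_simp
  rw [this]
  refine div_nonpos_of_nonpos_of_nonneg ?_ hp0.le
  nlinarith [mul_le_mul_of_nonneg_left h3 hp0.le]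

lemma prod_last {p : ℕ} (h2 : 2 ≤ p) (x q : ℝ) :
    (∏ l : Fin p, if lastMask p l then x else q) = x * q ^ (p - 1) := by
  obtain ⟨k, rfl⟩ : ∃ k, p = k + 1 := ⟨p - 1, by omega⟩
  rw [Fin.prod_univ_castSucc]
  simp [lastMask, mul_comm]

/-- the combination of the three laws -/
noncomputable def LD (p j : ℕ) : ((Fin (j + 1) → Fin p → Bool) → ℝ) →ₗ[ℝ] ℝ :=
  LL d (lastMask p) j - (1 / (p : ℝ)) • LL d (fun _ => true) j -
    ((p - 1 : ℝ) / p) • LL d (fun _ => false) j

lemma LD_apply (j : ℕ) (Φ : (Fin (j + 1) → Fin p → Bool) → ℝ) :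
    LD d p j Φ = LL d (lastMask p) j Φ - 1 / (p : ℝ) * LL d (fun _ => true) j Φ -
      (p - 1 : ℝ) / p * LL d (fun _ => false) j Φ := rfl

lemma LD_nonpos (ha : d.a ≤ d.P.r) (hp : Even p) (h2 : 2 ≤ p) (j : ℕ)
    (m : (Fin (j + 1) → Bool) → ℝ) : LD d p j (fun k => ∏ l, m fun i => k i l) ≤ 0 := by
  rw [LD_apply, LL_prod, LL_prod, LL_prod, ← lin_mul, ← lin_mul, ← lin_sub, ← lin_sub]
  refine (Q_mono d.P ha j (Φ' := fun _ => 0) fun A _ hA => ?_).trans_eq (Q_const d.P ha j 0)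
  simp only [dif_pos hA]
  rw [← lin_mul, ← lin_mul, ← lin_sub, ← lin_sub]
  refine (nuE_isP d.P _ _ _ _).le fun y => ?_
  rw [prod_last h2]
  simpa using young hp h2 (xx d m hA y) (qq d m hA)

/-- the combination of the three increments -/
noncomputable def DD (θ : Inter p) : ℝ :=
  incD d (lastMask p) θ - 1 / (p : ℝ) * incD d (fun _ => true) θ -
    (p - 1 : ℝ) / p * incD d (fun _ => false) θ

lemma comb_abs (h2 : 2 ≤ p) {u v w e : ℝ} (hu : |u| ≤ e) (hv : |v| ≤ e) (hw : |w| ≤ e) :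
    |u - 1 / (p : ℝ) * v - (p - 1 : ℝ) / p * w| ≤ 2 * e := by
  have hp0 : (2 : ℝ) ≤ p := by exact_mod_cast h2
  have a1 : (0 : ℝ) ≤ 1 / p := by positivity
  have a2 : (0 : ℝ) ≤ (p - 1) / p := div_nonneg (by linarith) (by linarith)
  have a3 : (1 : ℝ) / p + (p - 1) / p = 1 := by field_simp; ring
  have b1 := mul_le_mul_of_nonneg_left (abs_le.1 hv).1 a1
  have b2 := mul_le_mul_of_nonneg_left (abs_le.1 hv).2 a1
  have b3 := mul_le_mul_of_nonneg_left (abs_le.1 hw).1 a2
  have b4 := mul_le_mul_of_nonneg_left (abs_le.1 hw).2 a2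
  have b5 : 1 / (p : ℝ) * e + (p - 1) / p * e = e := by rw [← add_mul, a3, one_mul]
  rw [abs_le] at hu ⊢
  constructor <;> nlinarith

lemma DD_cont : Continuous (DD d : Inter p → ℝ) :=
  ((incD_cont d _).sub (continuous_const.mul (incD_cont d _))).sub
    (continuous_const.mul (incD_cont d _))

lemma DD_abs (h2 : 2 ≤ p) {θ : Inter p} {e : ℝ} (h : ∀ s, |θ s| ≤ e) : |DD d θ| ≤ 2 * e :=
  comb_abs h2 (incD_abs d _ h) (incD_abs d _ h) (incD_abs d _ h)

lemma DD_add_const (h2 : 2 ≤ p) (θ : Inter p) (e : ℝ) : DD d (fun s => θ s + e) = DD d θ := by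
  have hp0 : (2 : ℝ) ≤ p := by exact_mod_cast h2
  simp only [DD, incD_add_const]
  field_simp
  ring

lemma DD_expand (ha : d.a ≤ d.P.r) (h2 : 2 ≤ p) {x : Inter p} {e : ℝ}
    (hx : ∀ s, |x s| ≤ e) (he : e < 1) (n : ℕ) :
    |DD d (fun s => Real.log (1 + x s)) -
      ∑ j ∈ range n, (-1) ^ j / (j + 1) * LD d p j (fun k => ∏ i, x (k i))| ≤
      2 * (e ^ (n + 1) / (1 - e)) := by
  have := comb_abs h2 (incD_expand d ha (lastMask p) hx he n)
    (incD_expand d ha (fun _ => true) hx he n) (incD_expand d ha (fun _ => false) hx he n)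
  convert this using 2
  simp only [DD, LD_apply, mul_sub, sum_sub_distrib, mul_sum, mul_left_comm]
  ring

end Crest.Agent.R141.KeyAux
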