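import Crest.Agent.R141.Stmts

/-! Row 141: finite-valued random variables on probability spaces with prescribed weights. -/

set_option autoImplicit false
open MeasureTheory Finset Function
open scoped BigOperators

namespace Crest.Agent.R141

/-- `f` is a finite-valued random variable with weights `w` -/
def Rep {U S : Type*} [MeasurableSpace U] (κ : Measure U) (f : U → S) (w : S → ℝ) : Prop :=
  (∀ s, MeasurableSet (f ⁻¹' {s})) ∧ ∀ s, κ.real (f ⁻¹' {s}) = w s

lemma integral_pi_rep {L : Type*} [Fintype L] [DecidableEq L] {U S : Type*} [MeasurableSpace U]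
    [Fintype S] (κ : Measure U) [IsProbabilityMeasure κ] (f : L → U → S) (w : L → S → ℝ)
    (h : ∀ l, Rep κ (f l) (w l)) (G : (L → S) → ℝ) :
    ∫ v : L → U, G (fun l => f l (v l)) ∂(Measure.pi fun _ => κ) =
      ∑ s : L → S, (∏ l, w l (s l)) * G s := by
  classical
  have e : ∀ v : L → U, G (fun l => f l (v l)) =
      ∑ s : L → S, (∏ l, (f l ⁻¹' {s l}).indicator (fun _ => (1 : ℝ)) (v l)) * G s := by
    intro v
    rw [Finset.sum_eq_single (fun l => f l (v l))]
    · simp
    · intro s _ hs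
      obtain ⟨l, hl⟩ := Function.ne_iff.1 hs
      rw [Finset.prod_eq_zero (Finset.mem_univ l), zero_mul]
      simp [Set.indicator, hl.symm]
    · simp
  simp_rw [e]
  rw [integral_finsetSum]
  · refine Finset.sum_congr rfl fun s _ => ?_
    rw [integral_mul_const, integral_fintype_prod_eq_prod
      (fun l u => (f l ⁻¹' {s l}).indicator (fun _ => (1 : ℝ)) u)]
    congr 1
    refine Finset.prod_congr rfl fun l _ => ?_
    rw [integral_indicator ((h l).1 _), ← (h l).2]
    simp
  · intro s _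
    refine Integrable.mul_const ?_ _
    exact Integrable.fintype_prod (f := fun l u => (f l ⁻¹' {s l}).indicator (fun _ => (1 : ℝ)) u)
      fun l => (integrable_const _).indicator ((h l).1 _)

lemma Rep.comp {U V S : Type*} [MeasurableSpace U] [MeasurableSpace V] {κ : Measure U}
    {κ' : Measure V} {f : U → S} {w : S → ℝ} (h : Rep κ f w) {φ : V → U}
    (hφ : MeasurePreserving φ κ' κ) : Rep κ' (fun v => f (φ v)) w := by
  refine ⟨fun s => hφ.measurable (h.1 s), fun s => ?_⟩
  rw [← h.2 s, Measure.real, Measure.real, ← hφ.measure_preimage (h.1 s).nullMeasurableSet]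
  rfl

lemma exists_rep {S : Type} [Fintype S] [Nonempty S] (w : S → ℝ) (h0 : ∀ s, 0 ≤ w s)
    (h1 : ∑ s, w s = 1) : ∃ f : unitInterval → S, Rep volume f w := by
  classical
  letI : MeasurableSpace S := ⊤
  haveI : DiscreteMeasurableSpace S := ⟨fun _ => trivial⟩
  let μ : Measure S := ∑ s, ENNReal.ofReal (w s) • Measure.dirac s
  have hμ : ∀ s, μ {s} = ENNReal.ofReal (w s) := by
    intro s
    simp only [μ, Measure.coe_finsetSum, Finset.sum_apply, Measure.smul_apply,
      Measure.dirac_apply, smul_eq_mul]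
    rw [Finset.sum_eq_single s]
    · simp
    · intro b _ hb; simp [hb]
    · simp
  haveI : IsProbabilityMeasure μ := ⟨by
    simp only [μ, Measure.coe_finsetSum, Finset.sum_apply, Measure.smul_apply, measure_univ,
      smul_eq_mul, mul_one]
    rw [← ENNReal.ofReal_sum_of_nonneg fun s _ => h0 s, h1, ENNReal.ofReal_one]⟩
  obtain ⟨f, hf, hm⟩ := Measure.exists_measurable_map_eq μ
  refine ⟨f, fun s => hf trivial, fun s => ?_⟩
  rw [Measure.real, ← Measure.map_apply hf trivial, hm, hμ, ENNReal.toReal_ofReal (h0 s)]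

/-- functions whose values may be used as a parameter of measurable functions -/
def Bnd {U A : Type*} [MeasurableSpace U] (f : U → A) : Prop :=
  ∀ (g : A → U → ℝ), (∀ a, Measurable (g a)) → Measurable fun u => g (f u) u

lemma Bnd.const {U A : Type*} [MeasurableSpace U] (a : A) : Bnd fun _ : U => a :=
  fun _ hg => hg a

lemma Bnd.bind {U A B C : Type*} [MeasurableSpace U] {f : U → A} (hf : Bnd f) {h : A → U → B}
    (hh : ∀ a, Bnd (h a)) (k : A → B → C) : Bnd fun u => k (f u) (h (f u) u) :=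
  fun g hg => hf (fun a u => g (k a (h a u)) u) fun a => hh a (fun b u => g (k a b) u)
    fun _ => hg _

lemma bnd_of_fiber {U S : Type*} [MeasurableSpace U] [Finite S] {f : U → S}
    (hf : ∀ s, MeasurableSet (f ⁻¹' {s})) : Bnd f := fun g hg =>
  SimpleFunc.measurable_bind ⟨f, hf, Set.toFinite _⟩ g hg

/-- uniform cells of small diameter -/
lemma exists_cells_fin (K : ℕ) (hK : 0 < K) :
    ∃ (c : unitInterval → Fin K) (z : Fin K → unitInterval),
      Rep volume c (fun _ => (K : ℝ)⁻¹) ∧ ∀ u, dist u (z (c u)) ≤ (K : ℝ)⁻¹ := by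
  have hK' : (0 : ℝ) < K := by exact_mod_cast hK
  let c : unitInterval → Fin K := fun u => ⟨min ⌊(K : ℝ) * u⌋₊ (K - 1), by omega⟩
  have hz : ∀ j : ℕ, j ≤ K → (j : ℝ) / K ∈ unitInterval := fun j hj =>
    ⟨by positivity, (div_le_one hK').2 (by exact_mod_cast hj)⟩
  let z : Fin K → unitInterval := fun j => ⟨(j : ℕ) / K, hz j j.2.le⟩
  let z' : Fin K → unitInterval := fun j => ⟨((j : ℕ) + 1 : ℕ) / K, hz _ j.2⟩
  have hmeas : Measurable fun u : unitInterval => min ⌊(K : ℝ) * u⌋₊ (K - 1) := by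
    have : Measurable fun u : unitInterval => ⌊(K : ℝ) * u⌋₊ :=
      Measurable.nat_floor (measurable_subtype_coe.const_mul _)
    exact (measurable_from_top (f := fun n : ℕ => min n (K - 1))).comp this
  have hsub : ∀ j u, c u = j → u ∈ Set.Icc (z j) (z' j) := by
    intro j u hu
    have hj : min ⌊(K : ℝ) * u⌋₊ (K - 1) = j := congrArg Fin.val hu
    have h0 : (0 : ℝ) ≤ K * u := mul_nonneg hK'.le u.2.1
    constructor
    · show ((j : ℕ) : ℝ) / K ≤ u
      rw [div_le_iff₀ hK', mul_comm]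
      have : (j : ℕ) ≤ ⌊(K : ℝ) * u⌋₊ := by omega
      exact (Nat.le_floor_iff h0).1 this
    · show (u : ℝ) ≤ (((j : ℕ) + 1 : ℕ) : ℝ) / K
      rw [le_div_iff₀ hK', mul_comm]
      rcases le_total ⌊(K : ℝ) * u⌋₊ (K - 1) with h | h
      · have h1 : ⌊(K : ℝ) * u⌋₊ = j := by omega
        have := Nat.lt_floor_add_one ((K : ℝ) * u)
        rw [h1] at this
        push_cast; exact this.le
      · have h1 : (j : ℕ) + 1 = K := by omega
        rw [h1]
        nlinarith [u.2.2]
  have hsup : ∀ j u, u ∈ Set.Ico (z j) (z' j) → c u = j := by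
    intro j u hu
    have h1 : ((j : ℕ) : ℝ) / K ≤ u := hu.1
    have h2 : (u : ℝ) < (((j : ℕ) + 1 : ℕ) : ℝ) / K := hu.2
    rw [div_le_iff₀ hK', mul_comm] at h1
    rw [lt_div_iff₀ hK', mul_comm] at h2
    have h0 : (0 : ℝ) ≤ K * u := mul_nonneg hK'.le u.2.1
    have : ⌊(K : ℝ) * u⌋₊ = j := (Nat.floor_eq_iff h0).2 ⟨h1, by exact_mod_cast h2⟩
    apply Fin.ext
    show min ⌊(K : ℝ) * u⌋₊ (K - 1) = j
    have := j.2
    omega
  have hd : ∀ j, (z' j : ℝ) - z j = (K : ℝ)⁻¹ := by
    intro j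
    show (((j : ℕ) + 1 : ℕ) : ℝ) / K - ((j : ℕ) : ℝ) / K = _
    push_cast; field_simp; ring
  refine ⟨c, z, ⟨fun j => ?_, fun j => ?_⟩, fun u => ?_⟩
  · have : c ⁻¹' {j} = (fun u : unitInterval => min ⌊(K : ℝ) * u⌋₊ (K - 1)) ⁻¹' {(j : ℕ)} := by
      ext u; simp [c, Fin.ext_iff]
    rw [this]; exact hmeas (measurableSet_singleton _)
  · have h1 : volume (c ⁻¹' {j}) ≤ ENNReal.ofReal (K : ℝ)⁻¹ := by
      rw [← hd j, ← unitInterval.volume_Icc]
      exact measure_mono fun u hu => hsub j u hu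
    have h2 : ENNReal.ofReal (K : ℝ)⁻¹ ≤ volume (c ⁻¹' {j}) := by
      rw [← hd j, ← unitInterval.volume_Ico]
      exact measure_mono fun u hu => hsup j u hu
    rw [Measure.real, le_antisymm h1 h2, ENNReal.toReal_ofReal (by positivity)]
  · have h := hsub (c u) u rfl
    have h1 : (z (c u) : ℝ) ≤ u := h.1
    have h2 : (u : ℝ) ≤ z' (c u) := h.2
    rw [Subtype.dist_eq, Real.dist_eq, abs_of_nonneg (by linarith), ← hd (c u)]
    linarith

lemma exists_cells {δ : ℝ} (hδ : 0 < δ) :
    ∃ (K : ℕ) (c : unitInterval → Fin (K + 1) × Bool) (z : Fin (K + 1) × Bool → unitInterval),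
      Rep volume c (fun _ => (Fintype.card (Fin (K + 1) × Bool) : ℝ)⁻¹) ∧
        ∀ u, dist u (z (c u)) ≤ δ := by
  obtain ⟨K, hK⟩ := exists_nat_one_div_lt hδ
  obtain ⟨c, z, h1, h2⟩ := exists_cells_fin (Fintype.card (Fin (K + 1) × Bool)) Fintype.card_pos
  let e := Fintype.equivFin (Fin (K + 1) × Bool)
  refine ⟨K, fun u => e.symm (c u), fun s => z (e s), ⟨fun s => ?_, fun s => ?_⟩, fun u => ?_⟩
  · have : (fun u => e.symm (c u)) ⁻¹' {s} = c ⁻¹' {e s} := by
      ext u; simp [Equiv.symm_apply_eq]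
    rw [this]; exact h1.1 _
  · have : (fun u => e.symm (c u)) ⁻¹' {s} = c ⁻¹' {e s} := by
      ext u; simp [Equiv.symm_apply_eq]
    rw [this]; exact h1.2 _
  · simp only [Equiv.apply_symm_apply]
    refine (h2 u).trans (le_trans ?_ hK.le)
    rw [one_div]
    refine inv_anti₀ (by positivity) ?_
    simp only [Fintype.card_prod, Fintype.card_fin, Fintype.card_bool]
    push_cast
    have : (0 : ℝ) ≤ K := Nat.cast_nonneg _
    linarith

end Crest.Agent.R141
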