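import Crest.Agent.R141.Sim1

/-! Row 141: nested power means of a simulated finite trial. -/

set_option autoImplicit false
open MeasureTheory Finset Function
open scoped BigOperators
open Crest.ProbabilityR.Diluted

namespace Crest.Agent.R141

/-- the mixture of `exp v` under independent spins with messages `x` -/
noncomputable def mixV {L : Type} [Fintype L] [DecidableEq L] (v : (L → Bool) → ℝ) (x : L → ℝ) :
    ℝ :=
  ∑ s : L → Bool, Real.exp (v s) * ∏ l, tilt (x l) (s l)

/-- the cavity functional of a measurable trial -/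
noncomputable def cavV (r : ℕ) (m : Fin r → ℝ) (X : (Fin (r + 1) → unitInterval) → ℝ)
    (L : Type) [Fintype L] [DecidableEq L] (v : (L → Bool) → ℝ) : ℝ :=
  ∫ u, Real.log (powerMeans m
      (fun u' : L → Fin (r + 1) → unitInterval => mixV v fun l => X (u' l)) u)
    ∂(uniformArrays L r)

lemma powerMeans_ind {L : Type*} [Fintype L] {r : ℕ} (m : Fin r → ℝ)
    (W : (L → Fin (r + 1) → unitInterval) → ℝ)
    (Q : ℕ → ((L → Fin (r + 1) → unitInterval) → ℝ) → Prop) (h0 : Q r W)
    (hs : ∀ (d : Fin r) acc, Q (d + 1) acc → Q d (pmStep (m d) d.succ acc)) :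
    Q 0 (powerMeans m W) := by
  have key : ∀ n, n ≤ r → Q (r - n)
      (((List.finRange r).drop (r - n)).foldr (fun d acc => pmStep (m d) d.succ acc) W) := by
    intro n
    induction n with
    | zero =>
      intro _
      rw [List.drop_eq_nil_of_le (by simp)]
      simpa using h0
    | succ n ih =>
      intro hn
      have hlt : r - (n + 1) < (List.finRange r).length := by simp; omega
      rw [List.drop_eq_getElem_cons hlt, List.foldr_cons]
      have e : (List.finRange r)[r - (n + 1)] = (⟨r - (n + 1), by omega⟩ : Fin r) := by simp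
      rw [e]
      refine hs ⟨r - (n + 1), by omega⟩ _ ?_
      have := ih (by omega)
      rw [show r - n = r - (n + 1) + 1 by omega] at this
      exact this
  simpa [powerMeans] using key r le_rfl

lemma tilt_half_log {a b : ℝ} (ha : 0 < a) (hb : 0 < b) (h : a + b = 1) (s : Bool) :
    tilt ((1 / 2) * Real.log (a / b)) s = if s then a else b := by
  set x := (1 / 2) * Real.log (a / b) with hx
  have hE : Real.exp x * Real.exp x = a / b := by
    rw [← Real.exp_add, hx, ← add_mul]
    norm_num
    exact Real.exp_log (div_pos ha hb)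
  have hp := Real.exp_pos x
  have hb' : b = 1 - a := by linarith
  have h2 : a = Real.exp x * Real.exp x * b := by rw [hE]; field_simp
  cases s
  · simp only [tilt, spinVal, Real.cosh_eq, Real.exp_neg, Bool.false_eq_true, if_false, mul_neg,
      mul_one]
    field_simp
    nlinarith
  · simp only [tilt, spinVal, Real.cosh_eq, Real.exp_neg, if_true, mul_one]
    field_simp
    nlinarith

section E
variable {S : Type} [Fintype S] [Nonempty S] (P : Par)

lemma E_pos (H : Path S → ℝ) {f : Path S → ℝ} (hf : ∀ x, 0 ≤ f x) (ω : Path S) (s : S)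
    (hs : 0 < f (update ω P.r s)) : 0 < E P H P.r ω f := by
  rw [E_step P H le_rfl, KK_apply]
  simp only [E_top P H (Nat.lt_succ_self _)]
  rw [Fintype.expect_eq_sum_div_card]
  refine div_pos (Finset.sum_pos' (fun i _ => mul_nonneg (Real.exp_pos _).le (hf _))
    ⟨s, mem_univ _, mul_pos (Real.exp_pos _) hs⟩) (by exact_mod_cast Fintype.card_pos)

end E

namespace Trial
variable (T : Trial)

/-- the weights of the step `t` -/
noncomputable def wt (ι : T.I) (ω : Path T.S) (t : ℕ) (s : T.S) : ℝ :=
  rho T.P (T.H ι) t (update ω t s) / Fintype.card T.S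

lemma wt_nonneg (ι : T.I) (ω : Path T.S) (t : ℕ) (s : T.S) : 0 ≤ T.wt ι ω t s :=
  div_nonneg (Real.exp_pos _).le (Nat.cast_nonneg _)

lemma wt_sum (ι : T.I) (ω : Path T.S) {t : ℕ} (ht : t ≤ T.P.r) : ∑ s, T.wt ι ω t s = 1 := by
  have := (KK_isP T.P (T.H ι) ht ω).one
  rw [KK_apply, Fintype.expect_eq_sum_div_card, Finset.sum_div] at this
  simpa [wt] using this

/-- the law of the spin at the last level -/
noncomputable def pb (ι : T.I) (ω : Path T.S) (b : Bool) : ℝ :=
  E T.P (T.H ι) T.P.r ω fun x => if T.s ι (x T.P.r) = b then 1 else 0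

lemma pb_pos (ι : T.I) (ω : Path T.S) (b : Bool) : 0 < T.pb ι ω b := by
  obtain ⟨s, hs⟩ := T.surj ι b
  refine E_pos T.P _ (fun x => by positivity) ω s ?_
  simp [hs]

lemma pb_sum (ι : T.I) (ω : Path T.S) : T.pb ι ω true + T.pb ι ω false = 1 := by
  rw [pb, pb, ← lin_add]
  refine Eq.trans ?_ (E_isP T.P (T.H ι) T.P.r ω).one
  congr 1; funext x
  cases T.s ι (x T.P.r) <;> simp

/-- the message -/
noncomputable def msg (ι : T.I) (ω : Path T.S) : ℝ :=
  (1 / 2) * Real.log (T.pb ι ω true / T.pb ι ω false)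

lemma tilt_msg (ι : T.I) (ω : Path T.S) (b : Bool) : tilt (T.msg ι ω) b = T.pb ι ω b := by
  rw [msg, tilt_half_log (T.pb_pos _ _ _) (T.pb_pos _ _ _) (T.pb_sum _ _)]
  cases b <;> simp

/-- the simulated path -/
noncomputable def pth (π : T.I → Path T.S → ℕ → unitInterval → T.S) (ι : T.I)
    (u : ℕ → unitInterval) : ℕ → Path T.S
  | 0 => T.ω₀
  | d + 1 => update (pth π ι u d) (T.a + d) (π ι (pth π ι u d) (T.a + d) (u (d + 1)))

lemma pth_congr (π : T.I → Path T.S → ℕ → unitInterval → T.S) (ι : T.I)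
    {u u' : ℕ → unitInterval} (d : ℕ) (h : ∀ j, j ≤ d → u j = u' j) :
    T.pth π ι u d = T.pth π ι u' d := by
  induction d with
  | zero => rfl
  | succ d ih => simp only [pth, ih fun j hj => h j (by omega), h (d + 1) le_rfl]

end Trial

/-- extension of a finite array of uniforms -/
def extU {r : ℕ} (u : Fin (r + 1) → unitInterval) (j : ℕ) : unitInterval :=
  if h : j < r + 1 then u ⟨j, h⟩ else 0

lemma measurable_extU (r j : ℕ) : Measurable fun u : Fin (r + 1) → unitInterval => extU u j := by
  unfold extU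
  split_ifs
  · exact measurable_pi_apply _
  · exact measurable_const

namespace Trial
variable (T : Trial)

/-- the simulated message -/
noncomputable def simX (π₀ : unitInterval → T.I) (π : T.I → Path T.S → ℕ → unitInterval → T.S)
    (r : ℕ) (u : Fin (r + 1) → unitInterval) : ℝ :=
  T.msg (π₀ (u 0)) (T.pth π (π₀ (u 0)) (extU u) r)

lemma measurable_simX {π₀ : unitInterval → T.I} {π : T.I → Path T.S → ℕ → unitInterval → T.S}
    (r : ℕ) (h0 : ∀ ι, MeasurableSet (π₀ ⁻¹' {ι}))
    (h : ∀ ι ω d, d < r → ∀ s, MeasurableSet (π ι ω (T.a + d) ⁻¹' {s})) :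
    Measurable (T.simX π₀ π r) := by
  have hb : ∀ ι d, d ≤ r → Bnd fun u : Fin (r + 1) → unitInterval => T.pth π ι (extU u) d := by
    intro ι d
    induction d with
    | zero => intro _; exact Bnd.const _
    | succ d ih =>
      intro hd
      exact (ih (by omega)).bind (h := fun ω u => π ι ω (T.a + d) (extU u (d + 1)))
        (fun ω => bnd_of_fiber fun s => measurable_extU r (d + 1) (h ι ω d (by omega) s))
        fun ω s => update ω (T.a + d) s
  have h1 : Bnd fun u : Fin (r + 1) → unitInterval => π₀ (u 0) :=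
    bnd_of_fiber fun ι => measurable_pi_apply (X := fun _ => unitInterval) 0 (h0 ι)
  exact (h1.bind (h := fun ι u => T.pth π ι (extU u) r) (fun ι => hb ι r le_rfl)
    fun ι ω => T.msg ι ω) (fun a _ => a) fun _ => measurable_const

lemma last_level {L : Type} [Fintype L] [DecidableEq L] (ι : L → T.I) (v : (L → Bool) → ℝ)
    (ω : Path (L → T.S)) :
    Real.exp (Psi T.P (fun x : Path (L → T.S) => ∑ l, T.H (ι l) fun t => x t l)
      (fun x => v fun l => T.s (ι l) (x T.P.r l)) T.P.r ω) =
      mixV v fun l => T.msg (ι l) fun t => ω t l := by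
  have h := exp_Psi T.P (fun x : Path (L → T.S) => ∑ l, T.H (ι l) fun t => x t l)
    (fun x => v fun l => T.s (ι l) (x T.P.r l)) le_rfl ω
  simp only [T.P.top _ le_rfl, one_mul, Psi_top T.P _ _ (Nat.lt_succ_self _)] at h
  rw [h, mixV]
  have e : (fun x : Path (L → T.S) => Real.exp (v fun l => T.s (ι l) (x T.P.r l))) = fun x =>
      ∑ σ : L → Bool, Real.exp (v σ) * ∏ l, (if T.s (ι l) (x T.P.r l) = σ l then 1 else 0) := by
    funext x
    rw [Finset.sum_eq_single (fun l => T.s (ι l) (x T.P.r l))]
    · simp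
    · intro σ _ hσ
      obtain ⟨l, hl⟩ := Function.ne_iff.1 hσ
      rw [Finset.prod_eq_zero (Finset.mem_univ l), mul_zero]
      simp [hl.symm]
    · simp
  rw [e, lin_sum]
  refine Finset.sum_congr rfl fun σ _ => ?_
  rw [lin_mul]
  congr 1
  simp only [tilt_msg]
  exact E_pi T.P (indep_pi (T := fun _ : L => T.S)) (fun l => T.H (ι l))
    (fun l x => if T.s (ι l) (x T.P.r) = σ l then 1 else 0) T.P.r ω

lemma mid_level {L : Type} [Fintype L] [DecidableEq L] (ι : L → T.I) (δ : Path (L → T.S) → ℝ)
    {t : ℕ} (ht : t ≤ T.P.r) (ω : Path (L → T.S)) :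
    Real.exp (T.P.m t * Psi T.P (fun x : Path (L → T.S) => ∑ l, T.H (ι l) fun t => x t l) δ t ω) =
      ∑ s : L → T.S, (∏ l, T.wt (ι l) (fun t => ω t l) t (s l)) *
        Real.exp (T.P.m t * Psi T.P (fun x : Path (L → T.S) => ∑ l, T.H (ι l) fun t => x t l) δ
          (t + 1) (update ω t s)) := by
  rw [exp_Psi T.P _ δ ht, E_eq_KK T.P _ ht ((Psi_meas T.P _ δ _).map
    fun y => Real.exp (T.P.m t * y)), KK_apply, Fintype.expect_eq_sum_div_card, Finset.sum_div]
  refine Finset.sum_congr rfl fun s _ => ?_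
  rw [mul_div_right_comm]
  congr 1
  have hX := fun t' x => X_pi T.P (indep_pi (T := fun _ : L => T.S)) (fun l => T.H (ι l)) t' x
  simp only [wt, Finset.prod_div_distrib, Fintype.card_pi, Nat.cast_prod]
  congr 1
  rw [rho]
  erw [hX, hX]
  rw [← Finset.sum_sub_distrib, Finset.mul_sum, Real.exp_sum]
  refine Finset.prod_congr rfl fun l _ => ?_
  rw [rho, comp_update]
  rfl

theorem cavV_simX {π₀ : unitInterval → T.I} {π : T.I → Path T.S → ℕ → unitInterval → T.S}
    {r : ℕ} (hr : T.a + r = T.P.r) (h0 : Rep volume π₀ fun _ => (Fintype.card T.I : ℝ)⁻¹)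
    (h : ∀ ι ω d, d < r → Rep volume (π ι ω (T.a + d)) (T.wt ι ω (T.a + d)))
    {m : Fin r → ℝ} (hm : ∀ d, m d = T.P.m (T.a + d))
    (L : Type) [Fintype L] [DecidableEq L] (v : (L → Bool) → ℝ) :
    cavV r m (T.simX π₀ π r) L v = TV T L v := by
  let Ψ : (L → T.I) → ℕ → Path (L → T.S) → ℝ := fun ι =>
    Psi T.P (fun x : Path (L → T.S) => ∑ l, T.H (ι l) fun t => x t l)
      (fun x => v fun l => T.s (ι l) (x T.P.r l))
  have key := powerMeans_ind m
    (fun u' : L → Fin (r + 1) → unitInterval => mixV v fun l => T.simX π₀ π r (u' l))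
    (fun d acc => ∀ u, acc u = Real.exp (Ψ (fun l => π₀ (u l 0)) (T.a + d)
      fun t l => T.pth π (π₀ (u l 0)) (extU (u l)) d t))
    (fun u => by rw [hr]; exact (T.last_level _ v _).symm) ?_
  · rw [cavV]
    simp only [key, Real.log_exp, pth]
    have h1 : ∀ _ : L, Rep (Measure.pi fun _ : Fin (r + 1) => (volume : Measure unitInterval))
        (fun u => π₀ (u 0)) fun _ => (Fintype.card T.I : ℝ)⁻¹ := fun _ =>
      h0.comp (measurePreserving_eval (fun _ : Fin (r + 1) => (volume : Measure unitInterval)) 0)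
    rw [uniformArrays, integral_pi_rep _ _ _ h1 fun ι => Ψ ι (T.a + 0) fun t _ => T.ω₀ t, TV,
      Fintype.expect_eq_sum_div_card, Finset.sum_div]
    refine Finset.sum_congr rfl fun ι _ => ?_
    simp [Ψ, div_eq_inv_mul]
  · intro d acc ih u
    have hd : T.a + d ≤ T.P.r := by omega
    have hp := T.P.pos (T.a + d)
    have e : ∀ w : L → unitInterval, acc (fun l j => if j = d.succ then w l else u l j) ^ m d =
        (fun s : L → T.S => Real.exp (T.P.m (T.a + d) * Ψ (fun l => π₀ (u l 0)) (T.a + d + 1)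
          (update (fun t l => T.pth π (π₀ (u l 0)) (extU (u l)) d t) (T.a + d) s)))
        fun l => π (π₀ (u l 0)) (T.pth π (π₀ (u l 0)) (extU (u l)) d) (T.a + d) (w l) := by
      intro w
      rw [ih, ← Real.exp_mul, hm, mul_comm]
      have h0' : (0 : Fin (r + 1)) ≠ d.succ := (Fin.succ_ne_zero d).symm
      simp only [h0', if_false]
      congr 3
      funext t l
      have e1 : T.pth π (π₀ (u l 0)) (extU fun j => if j = d.succ then w l else u l j) d =
          T.pth π (π₀ (u l 0)) (extU (u l)) d := by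
        refine T.pth_congr π _ d fun j hj => ?_
        have hj' : j < r + 1 := by omega
        have : (⟨j, hj'⟩ : Fin (r + 1)) ≠ d.succ := by
          simp only [ne_eq, Fin.ext_iff, Fin.val_succ]; omega
        simp [extU, hj', this]
      have e2 : (extU fun j => if j = d.succ then w l else u l j) (d + 1) = w l := by
        have hj' : (d : ℕ) + 1 < r + 1 := by omega
        have : (⟨d + 1, hj'⟩ : Fin (r + 1)) = d.succ := rfl
        simp only [extU, hj', dif_pos, this, if_true]
      simp only [pth, e1, e2]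
      by_cases ht : t = T.a + d
      · subst ht; simp
      · simp [update_of_ne ht]
    rw [pmStep]
    simp only [e]
    rw [integral_pi_rep _ _ _
      (fun l => h (π₀ (u l 0)) (T.pth π (π₀ (u l 0)) (extU (u l)) d) d d.2)
      (fun s : L → T.S => Real.exp (T.P.m (T.a + d) * Ψ (fun l => π₀ (u l 0)) (T.a + d + 1)
          (update (fun t l => T.pth π (π₀ (u l 0)) (extU (u l)) d t) (T.a + d) s))),
      ← T.mid_level (fun l => π₀ (u l 0)) _ hd
        (fun t l => T.pth π (π₀ (u l 0)) (extU (u l)) d t), ← Real.exp_mul, hm]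
    congr 1
    field_simp
    rfl

end Trial

end Crest.Agent.R141
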