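import Crest.Agent.R141.Sim2

/-! Row 141: the trial functional of finitely supported laws; simulation of finite trials. -/

set_option autoImplicit false
open MeasureTheory Finset Function
open scoped BigOperators
open Crest.ProbabilityR.Diluted

namespace Crest.Agent.R141

lemma integral_sum_dirac {A B : Type*} [MeasurableSpace A] [MeasurableSingletonClass A] [Fintype B]
    (w : B → ℝ) (hw : ∀ b, 0 ≤ w b) (val : B → A) (g : A → ℝ) :
    ∫ a, g a ∂(∑ x, ENNReal.ofReal (w x) • Measure.dirac (val x)) = ∑ x, w x * g (val x) := by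
  rw [integral_finsetSum_measure fun x _ =>
    (integrable_dirac (by simp)).smul_measure ENNReal.ofReal_ne_top]
  refine Finset.sum_congr rfl fun x _ => ?_
  rw [integral_smul_measure, integral_dirac, ENNReal.toReal_ofReal (hw x), smul_eq_mul]

instance FLaw.toM_prob {A : Type} [MeasurableSpace A] (μ : FLaw A) :
    IsProbabilityMeasure μ.toM := ⟨by
  simp only [FLaw.toM, Measure.coe_finsetSum, Finset.sum_apply, Measure.smul_apply, measure_univ,
    smul_eq_mul, mul_one]
  rw [← ENNReal.ofReal_sum_of_nonneg fun s _ => μ.w0 s, μ.w1, ENNReal.ofReal_one]⟩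

lemma FLaw.integral_toM {A : Type} [MeasurableSpace A] [MeasurableSingletonClass A] (μ : FLaw A)
    (g : A → ℝ) : ∫ a, g a ∂μ.toM = μ.ex g :=
  integral_sum_dirac μ.w μ.w0 μ.val g

lemma FLaw.pi_toM {A : Type} [MeasurableSpace A] (μ : FLaw A) (K : Type) [Fintype K]
    [DecidableEq K] : (Measure.pi fun _ : K => μ.toM) =
      ∑ a : K → μ.Θ, ENNReal.ofReal (∏ k, μ.w (a k)) • Measure.dirac fun k => μ.val (a k) := by
  classical
  refine Measure.pi_eq fun s hs => ?_
  simp only [FLaw.toM, Measure.coe_finsetSum, Finset.sum_apply, Measure.smul_apply, smul_eq_mul]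
  rw [Fintype.prod_sum]
  refine Finset.sum_congr rfl fun a _ => ?_
  rw [Finset.prod_mul_distrib, ENNReal.ofReal_prod_of_nonneg fun k _ => μ.w0 _,
    Measure.dirac_apply' _ (MeasurableSet.univ_pi hs)]
  congr 1
  simp only [Measure.dirac_apply' _ (hs _)]
  by_cases h : (fun k => μ.val (a k)) ∈ Set.univ.pi s
  · rw [Set.indicator_of_mem h]
    exact (Finset.prod_eq_one fun k _ => Set.indicator_of_mem (h k trivial) _).symm
  · rw [Set.indicator_of_notMem h]
    simp only [Set.mem_pi, Set.mem_univ, true_imp_iff, not_forall] at h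
    obtain ⟨k, hk⟩ := h
    exact (Finset.prod_eq_zero (Finset.mem_univ k) (Set.indicator_of_notMem hk _)).symm

lemma FLaw.integral_pi_toM {A : Type} [MeasurableSpace A] [MeasurableSingletonClass A]
    (μ : FLaw A) (K : Type) [Fintype K] [DecidableEq K] (g : (K → A) → ℝ) :
    ∫ a, g a ∂(Measure.pi fun _ : K => μ.toM) = μ.exPi K g := by
  rw [μ.pi_toM K]
  exact integral_sum_dirac _ (fun a => Finset.prod_nonneg fun k _ => μ.w0 _) _ g

lemma tilt_pos (x : ℝ) (s : Bool) : 0 < tilt x s :=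
  div_pos (Real.exp_pos _) (mul_pos two_pos (Real.cosh_pos x))

lemma tilt_sum (x : ℝ) : tilt x true + tilt x false = 1 := by
  have := Real.cosh_pos x
  simp only [tilt, spinVal, if_true, Bool.false_eq_true, if_false, mul_one, mul_neg]
  rw [← add_div, div_eq_one_iff_eq (by positivity), Real.cosh_eq]
  ring

lemma edgeTerm_eq {p : ℕ} (θ : Inter p) (x : Fin p → ℝ) : edgeTerm θ x = mixV θ x := rfl

lemma siteTerm_eq {p k : ℕ} (h : ℝ) (θs : Fin k → Inter p) (x : Fin k × Fin (p - 1) → ℝ) :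
    siteTerm h θs (fun j ℓ => x (j, ℓ)) = mixV (siteV h θs) x := by
  have hpos : ∀ s : Fin k × Fin (p - 1) → Bool, 0 < (1 / 2) * ∑ ε : Bool, Real.exp (h * spinVal ε +
      ∑ j, θs j fun ℓ => if hl : ℓ.val < p - 1 then s (j, ⟨ℓ.val, hl⟩) else ε) := fun s =>
    mul_pos (by norm_num) (Finset.sum_pos (fun _ _ => Real.exp_pos _) Finset.univ_nonempty)
  simp only [siteTerm, mixV, siteV, Real.exp_log (hpos _)]
  simp only [Finset.mul_sum, Finset.sum_mul]
  rw [Finset.sum_comm]
  refine Finset.sum_congr rfl fun ε _ => ?_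
  simp only [Real.exp_add, Real.exp_sum, siteMessage]
  rw [Finset.prod_congr rfl fun j _ => Real.exp_log (Finset.sum_pos (fun _ _ =>
    mul_pos (Real.exp_pos _) (Finset.prod_pos fun _ _ => tilt_pos _ _)) Finset.univ_nonempty),
    Fintype.prod_sum, Finset.mul_sum, Finset.mul_sum]
  refine Fintype.sum_equiv (Equiv.curry (Fin k) (Fin (p - 1)) Bool).symm _ _ fun s => ?_
  rw [Finset.prod_mul_distrib, Fintype.prod_prod_type]
  simp only [Equiv.curry_symm_apply, Function.uncurry_apply_pair]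
  ring

lemma trialFunctional_eq (p : ℕ) (α : ℝ) (μ : Measure (Inter p)) (ν : Measure ℝ) (r : ℕ)
    (m : Fin r → ℝ) (X : (Fin (r + 1) → unitInterval) → ℝ) :
    trialFunctional p α μ ν r m X = Real.log 2 +
      (∑' k : ℕ, poissonWeight (α * p) k * ∫ θs, ∫ h, cavV r m X (Fin k × Fin (p - 1)) (siteV h θs)
        ∂ν ∂(Measure.pi fun _ : Fin k => μ)) - α * (p - 1 : ℝ) * ∫ θ, cavV r m X (Fin p) θ ∂μ := by
  simp only [trialFunctional, cavV, ← siteTerm_eq, edgeTerm_eq]

lemma trialFunctional_toM (p : ℕ) (α : ℝ) (μ : FLaw (Inter p)) (ν : FLaw ℝ) (r : ℕ)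
    (m : Fin r → ℝ) (X : (Fin (r + 1) → unitInterval) → ℝ) :
    trialFunctional p α μ.toM ν.toM r m X = Real.log 2 +
      (∑' k : ℕ, poissonWeight (α * p) k * μ.exPi (Fin k) fun θs => ν.ex fun h =>
        cavV r m X (Fin k × Fin (p - 1)) (siteV h θs)) -
      α * (p - 1 : ℝ) * μ.ex fun θ => cavV r m X (Fin p) θ := by
  simp only [trialFunctional_eq, FLaw.integral_toM, FLaw.integral_pi_toM]

theorem sim : SimStmt := by
  intro p _ α _ μ ν T hT
  obtain ⟨r, hr⟩ := Nat.exists_eq_add_of_le hT.1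
  have hc : (0 : ℝ) < Fintype.card T.I := by exact_mod_cast Fintype.card_pos
  obtain ⟨π₀, h0⟩ := exists_rep (fun _ : T.I => (Fintype.card T.I : ℝ)⁻¹)
    (fun _ => by positivity) (by simp [hc.ne'])
  have hex : ∀ ι ω t, ∃ f : unitInterval → T.S, t ≤ T.P.r → Rep volume f (T.wt ι ω t) := by
    intro ι ω t
    by_cases ht : t ≤ T.P.r
    · obtain ⟨f, hf⟩ := exists_rep _ (T.wt_nonneg ι ω t) (T.wt_sum ι ω ht)
      exact ⟨f, fun _ => hf⟩
    · exact ⟨fun _ => Classical.arbitrary _, fun h => absurd h ht⟩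
  choose π hπ using hex
  have h : ∀ ι ω d, d < r → Rep volume (π ι ω (T.a + d)) (T.wt ι ω (T.a + d)) :=
    fun ι ω d hd => hπ ι ω _ (by omega)
  refine ⟨r, fun d => T.P.m (T.a + d), T.simX π₀ π r, ⟨fun d d' hd => ?_, fun d => ⟨T.P.pos _, ?_⟩⟩,
    T.measurable_simX r h0.1 fun ι ω d hd => (h ι ω d hd).1, ?_⟩
  · have := d.2; have := d'.2
    exact hT.2 (by simp; omega) (by simp; omega) (by simpa using hd)
  · have := d.2
    rw [← T.P.top T.P.r le_rfl]
    exact hT.2 (by simp; omega) (by simp) (by omega)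
  · rw [trialFunctional_toM, finTrial]
    simp only [T.cavV_simX hr.symm h0 h fun _ => rfl]

end Crest.Agent.R141
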