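import Crest.Agent.R141.SimPM

/-! Row 141: approximation of measurable trials by finite trials. -/

set_option autoImplicit false
open MeasureTheory Finset Function
open scoped BigOperators
open Crest.ProbabilityR.Diluted

namespace Crest.Agent.R141

lemma abs_prod_sub_prod {L : Type*} (s : Finset L) (a b : L → ℝ) (ha : ∀ l, |a l| ≤ 1)
    (hb : ∀ l, |b l| ≤ 1) : |∏ l ∈ s, a l - ∏ l ∈ s, b l| ≤ ∑ l ∈ s, |a l - b l| := by
  classical
  induction s using Finset.induction_on with
  | empty => simp
  | insert i s hi ih =>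
    rw [prod_insert hi, prod_insert hi, sum_insert hi]
    have h1 : |∏ l ∈ s, a l| ≤ 1 := by
      rw [abs_prod]; exact prod_le_one (fun _ _ => abs_nonneg _) fun l _ => ha l
    have e : a i * ∏ l ∈ s, a l - b i * ∏ l ∈ s, b l =
        (a i - b i) * ∏ l ∈ s, a l + b i * (∏ l ∈ s, a l - ∏ l ∈ s, b l) := by ring
    rw [e]
    refine (abs_add_le _ _).trans ?_
    rw [abs_mul, abs_mul]
    have := hb i
    nlinarith [abs_nonneg (a i - b i), abs_nonneg (∏ l ∈ s, a l - ∏ l ∈ s, b l), abs_nonneg (b i)]

lemma abs_tilt_le (x : ℝ) (b : Bool) : |tilt x b| ≤ 1 := by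
  have := tilt_sum x
  have h1 := tilt_pos x true
  have h2 := tilt_pos x false
  rw [abs_of_pos (tilt_pos x b)]
  cases b <;> linarith

section
variable {L : Type} [Fintype L] [DecidableEq L]

lemma mixV_l1 {v : (L → Bool) → ℝ} {B : ℝ} (hv : ∀ s, |v s| ≤ B) (x x' : L → ℝ) :
    |mixV v x - mixV v x'| ≤
      2 ^ Fintype.card L * Real.exp B * ∑ l, |tilt (x l) true - tilt (x' l) true| := by
  rw [mixV, mixV, ← Finset.sum_sub_distrib]
  refine (Finset.abs_sum_le_sum_abs _ _).trans ((Finset.sum_le_card_nsmul _ _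
    (Real.exp B * ∑ l, |tilt (x l) true - tilt (x' l) true|) fun s _ => ?_).trans (le_of_eq ?_))
  · rw [← mul_sub, abs_mul, abs_of_pos (Real.exp_pos _)]
    refine mul_le_mul (Real.exp_le_exp.2 (abs_le.1 (hv s)).2) ((abs_prod_sub_prod _ _ _
      (fun l => abs_tilt_le _ _) fun l => abs_tilt_le _ _).trans (le_of_eq ?_)) (abs_nonneg _)
      (Real.exp_pos _).le
    refine Finset.sum_congr rfl fun l _ => ?_
    cases s l
    · rw [abs_sub_comm]; congr 1; linarith [tilt_sum (x l), tilt_sum (x' l)]
    · rfl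
  · simp [mul_assoc]

lemma cavV_l1 {r : ℕ} {m : Fin r → ℝ} (hm : AdmissibleExponents m)
    {X X' : (Fin (r + 1) → unitInterval) → ℝ} (hX : Measurable X) (hX' : Measurable X')
    {v : (L → Bool) → ℝ} {B : ℝ} (hv : ∀ s, |v s| ≤ B) :
    |cavV r m X L v - cavV r m X' L v| ≤
      Real.exp (2 * B) ^ r * (Real.exp B * (2 ^ Fintype.card L * Real.exp B * Fintype.card L)) *
        ∫ u, |tilt (X u) true - tilt (X' u) true|
          ∂(Measure.pi fun _ : Fin (r + 1) => (volume : Measure unitInterval)) := by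
  have g := cav_good hX hv
  have g' := cav_good hX' hv
  have hm0 := fun d => (hm.2 d).1
  have hd : Measurable fun u => |tilt (X u) true - tilt (X' u) true| :=
    (((measurable_tilt _).comp hX).sub ((measurable_tilt _).comp hX')).abs
  have hi : Integrable (fun u => |tilt (X u) true - tilt (X' u) true|)
      (Measure.pi fun _ : Fin (r + 1) => (volume : Measure unitInterval)) :=
    Integrable.of_bound hd.aestronglyMeasurable 2 (ae_of_all _ fun u => by
      rw [Real.norm_eq_abs, abs_abs]
      exact (abs_sub _ _).trans (by linarith [abs_tilt_le (X u) true, abs_tilt_le (X' u) true]))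
  have hmp := fun l : L => measurePreserving_eval
    (fun _ : L => Measure.pi fun _ : Fin (r + 1) => (volume : Measure unitInterval)) l
  have hil : ∀ l : L, Integrable (fun u : L → Fin (r + 1) → unitInterval =>
      |tilt (X (u l)) true - tilt (X' (u l)) true|) (uniformArrays L r) := fun l =>
    (hmp l).integrable_comp_of_integrable hi
  rw [cavV, cavV, ← integral_sub ((g.powerMeans hm0).integrable_log _)
    ((g'.powerMeans hm0).integrable_log _)]
  refine abs_integral_le_integral_abs.trans ((powerMeans_l1 g g' hm0 fun d => (hm.2 d).2.le).trans ?_)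
  rw [mul_assoc]
  refine mul_le_mul_of_nonneg_left ?_ (by positivity)
  refine (integral_mono ((g.integrable_log _).sub (g'.integrable_log _)).abs
    (((integrable_finsetSum Finset.univ fun l _ => hil l).const_mul
      (2 ^ Fintype.card L * Real.exp B)).const_mul (Real.exp B)) fun u => ?_).trans (le_of_eq ?_)
  · exact (abs_log_sub_log (g.2 u).1 (g'.2 u).1).trans
      (mul_le_mul_of_nonneg_left (mixV_l1 hv _ _) (Real.exp_pos _).le)
  · rw [integral_const_mul, integral_const_mul, integral_finsetSum _ fun l _ => hil l]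
    erw [Finset.sum_congr rfl fun l _ => integral_comp_mp (hmp l) hd.aestronglyMeasurable]
    simp only [Finset.sum_const, Finset.card_univ, nsmul_eq_mul]
    ring

end

/-- the cascade parameters attached to admissible exponents -/
noncomputable def parOf {r : ℕ} {m : Fin r → ℝ} (hm : AdmissibleExponents m) : Par where
  r := r
  m t := if h : t < r then m ⟨t, h⟩ else 1
  pos t := by
    split_ifs
    · exact (hm.2 _).1
    · exact one_pos
  mono a b hab := by
    dsimp only
    split_ifs with h1 h2 h2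
    · exact hm.1.monotone hab
    · exact (hm.2 _).2.le
    · omega
    · exact le_rfl
  top t ht := dif_neg (by omega)

lemma expect_snd {A : Type} [Fintype A] [Nonempty A] (g : Bool → ℝ) :
    𝔼 s : A × Bool, g s.2 = (g true + g false) / 2 := by
  have : (0 : ℝ) < Fintype.card A := by exact_mod_cast Fintype.card_pos
  rw [Fintype.expect_eq_sum_div_card, Fintype.sum_prod_type]
  simp only [Fintype.sum_bool, Finset.sum_const, Finset.card_univ, nsmul_eq_mul,
    Fintype.card_prod, Fintype.card_bool, Nat.cast_mul, Nat.cast_ofNat]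
  field_simp

/-- a trial with uniform kernels and spin law `Y` -/
noncomputable def cellTrial (P : Par) (A : Type) [Fintype A] [Nonempty A]
    (Y : A × Bool → Path (A × Bool) → ℝ) : Trial where
  P := P
  a := 0
  I := A × Bool
  S := A × Bool
  H ι ω := Real.log (2 * if (ω P.r).2 then Y ι ω else 1 - Y ι ω)
  s _ z := z.2
  surj _ b := ⟨(Classical.arbitrary _, b), rfl⟩
  ω₀ _ := Classical.arbitrary _

section cell
variable {P : Par} {A : Type} [Fintype A] [Nonempty A] {Y : A × Bool → Path (A × Bool) → ℝ}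

lemma cell_exp (hY : ∀ ι ω, 0 < Y ι ω ∧ Y ι ω < 1) (hm : ∀ ι, Meas P P.r (Y ι)) (ι : A × Bool)
    (ω : Path (A × Bool)) (s : A × Bool) :
    Real.exp ((cellTrial P A Y).H ι (update ω P.r s)) =
      2 * if s.2 then Y ι ω else 1 - Y ι ω := by
  have := hY ι ω
  simp only [cellTrial, update_self, hm ι P.r le_rfl le_rfl]
  rw [Real.exp_log]
  split_ifs <;> linarith

lemma cell_X (hY : ∀ ι ω, 0 < Y ι ω ∧ Y ι ω < 1) (hm : ∀ ι, Meas P P.r (Y ι)) (ι : A × Bool)
    (t : ℕ) : t ≤ P.r → ∀ ω, X P ((cellTrial P A Y).H ι) t ω = 0 := by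
  induction t using P.down with
  | h0 t ht => intro h; omega
  | hs t ht ih =>
    intro _ ω
    rw [X_step P _ ht, stepX]
    rcases ht.eq_or_lt with rfl | h
    · simp only [X_top P _ (Nat.lt_succ_self _), P.top _ le_rfl, one_mul]
      erw [expect_congr rfl fun s _ => cell_exp hY hm ι ω s]
      erw [expect_snd (A := A) fun b => 2 * if b then Y ι ω else 1 - Y ι ω]
      simp only [if_true, Bool.false_eq_true, if_false]
      rw [show (2 * Y ι ω + 2 * (1 - Y ι ω)) / 2 = 1 by ring]
      simp
    · erw [expect_congr rfl fun s _ => by rw [ih h]]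
      simp

lemma cell_wt (hY : ∀ ι ω, 0 < Y ι ω ∧ Y ι ω < 1) (hm : ∀ ι, Meas P P.r (Y ι)) (ι : A × Bool)
    (ω : Path (A × Bool)) {t : ℕ} (ht : t < P.r) :
    (cellTrial P A Y).wt ι ω t = fun _ => (Fintype.card (A × Bool) : ℝ)⁻¹ := by
  funext s
  rw [Trial.wt, rho]
  erw [cell_X hY hm ι t ht.le, cell_X hY hm ι (t + 1) ht]
  simp only [sub_self, mul_zero, Real.exp_zero, one_div]
  rfl

lemma cell_pb (hY : ∀ ι ω, 0 < Y ι ω ∧ Y ι ω < 1) (hm : ∀ ι, Meas P P.r (Y ι)) (ι : A × Bool)
    (ω : Path (A × Bool)) : (cellTrial P A Y).pb ι ω true = Y ι ω := by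
  rw [Trial.pb]
  erw [E_step P _ le_rfl, KK_apply]
  have e : ∀ s : A × Bool, rho P ((cellTrial P A Y).H ι) P.r (update ω P.r s) *
      E P ((cellTrial P A Y).H ι) (P.r + 1) (update ω P.r s) (fun x : Path (A × Bool) =>
        if (x P.r).2 = true then (1 : ℝ) else 0) =
      (fun b : Bool => (2 * if b then Y ι ω else 1 - Y ι ω) * if b then 1 else 0) s.2 := by
    intro s
    rw [rho]
    erw [cell_X hY hm ι P.r le_rfl, X_top P _ (Nat.lt_succ_self _), E_top P _ (Nat.lt_succ_self _)]
    rw [P.top _ le_rfl, one_mul, sub_zero, cell_exp hY hm]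
    simp
  erw [expect_congr rfl fun s _ => e s]
  erw [expect_snd (A := A) fun b => (2 * if b then Y ι ω else 1 - Y ι ω) * if b then 1 else 0]
  simp

lemma cell_pth (c : unitInterval → A × Bool) (ι : A × Bool) (u : ℕ → unitInterval) (d t : ℕ)
    (ht : t < d) : (cellTrial P A Y).pth (fun _ _ _ => c) ι u d t = c (u (t + 1)) := by
  induction d with
  | zero => omega
  | succ d ih =>
    rw [Trial.pth]
    have ha : (cellTrial P A Y).a + d = d := zero_add d
    rw [ha]
    rcases (Nat.lt_succ_iff.1 ht).eq_or_lt with rfl | h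
    · exact update_self ..
    · rw [update_of_ne h.ne]; exact ih h

end cell

lemma abs_clip_sub {κ x y : ℝ} (hκ : 0 ≤ κ) (hκ' : κ ≤ 1 / 2) (h0 : 0 ≤ y) (h1 : y ≤ 1) :
    |max κ (min (1 - κ) x) - y| ≤ |x - y| + κ := by
  have a1 := le_abs_self (x - y)
  have a2 := neg_abs_le (x - y)
  have a3 := abs_nonneg (x - y)
  rw [abs_le, max_def, min_def]
  split_ifs <;> constructor <;> linarith

lemma exists_approx_trial {r : ℕ} {m : Fin r → ℝ} (hm : AdmissibleExponents m)
    {X : (Fin (r + 1) → unitInterval) → ℝ} (hX : Measurable X) {η : ℝ} (hη : 0 < η) :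
    ∃ (T : Trial) (X' : (Fin (r + 1) → unitInterval) → ℝ), T.a ≤ T.P.r ∧ Measurable X' ∧
      (∀ (L : Type) [Fintype L] [DecidableEq L] (v : (L → Bool) → ℝ),
        cavV r m X' L v = TV T L v) ∧
      ∫ u, |tilt (X u) true - tilt (X' u) true|
          ∂(Measure.pi fun _ : Fin (r + 1) => (volume : Measure unitInterval)) ≤ η := by
  set μ := Measure.pi fun _ : Fin (r + 1) => (volume : Measure unitInterval) with hμ
  have hy : Measurable fun u => tilt (X u) true := (measurable_tilt _).comp hX
  have hi : Integrable (fun u => tilt (X u) true) μ :=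
    Integrable.of_bound hy.aestronglyMeasurable 1 (ae_of_all _ fun u => abs_tilt_le _ _)
  obtain ⟨g, hg, hgi⟩ := hi.exists_boundedContinuous_integral_sub_le (ε := η / 3) (by positivity)
  obtain ⟨δ, hδ, hgδ⟩ := Metric.uniformContinuous_iff_le.1
    (CompactSpace.uniformContinuous_of_continuous g.continuous) (η / 3) (by positivity)
  obtain ⟨K, c, z, hc, hz⟩ := exists_cells hδ
  set κ := min (η / 3) (1 / 2) with hκ
  have hκ0 : 0 < κ := lt_min (by positivity) (by norm_num)
  have hκ1 : κ ≤ 1 / 2 := min_le_right _ _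
  let Y : Fin (K + 1) × Bool → Path (Fin (K + 1) × Bool) → ℝ := fun ι ω =>
    max κ (min (1 - κ) (g fun j => z (Fin.cases (motive := fun _ => _) ι (fun d => ω d) j)))
  have hY : ∀ ι ω, 0 < Y ι ω ∧ Y ι ω < 1 := fun ι ω =>
    ⟨hκ0.trans_le (le_max_left _ _), max_lt (by linarith) (min_lt_of_left_lt (by linarith))⟩
  have hYm : ∀ ι, Meas (parOf hm) (parOf hm).r (Y ι) := by
    intro ι t h1 _ ω s
    have : (fun d : Fin r => update ω t s d) = fun d : Fin r => ω d := by
      funext d
      exact update_of_ne (by have := d.2; have : r ≤ t := h1; omega) _ _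
    simp only [Y, this]
  let T := cellTrial (parOf hm) (Fin (K + 1)) Y
  have hrep : ∀ ι ω d, d < r → Rep volume ((fun _ _ _ => c : T.I → Path T.S → ℕ → _) ι ω (T.a + d))
      (T.wt ι ω (T.a + d)) := by
    intro ι ω d hd
    rw [cell_wt hY hYm ι ω (show T.a + d < r by simpa [T, cellTrial] using hd)]
    exact hc
  have hXm := T.measurable_simX (π₀ := c) (π := fun _ _ _ => c) r hc.1 fun ι ω d hd => hc.1
  refine ⟨T, T.simX c (fun _ _ _ => c) r, Nat.zero_le _, hXm,
    fun L _ _ v => T.cavV_simX (zero_add r) hc hrep (fun d => ?_) L v, ?_⟩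
  · show m d = (parOf hm).m (0 + d)
    simp [parOf]
  · have e : ∀ u, tilt (T.simX c (fun _ _ _ => c) r u) true =
        max κ (min (1 - κ) (g fun j => z (c (u j)))) := by
      intro u
      rw [Trial.simX, Trial.tilt_msg]
      erw [cell_pb hY hYm]
      simp only [Y]
      congr 3
      funext j
      refine Fin.cases rfl (fun d => ?_) j
      simp only [Fin.cases_succ]
      erw [cell_pth c _ _ r d d.2]
      simp [extU]
      rfl
    have hb : ∀ u, |tilt (X u) true - tilt (T.simX c (fun _ _ _ => c) r u) true| ≤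
        ‖tilt (X u) true - g u‖ + 2 * η / 3 := by
      intro u
      rw [e, abs_sub_comm]
      refine (abs_clip_sub hκ0.le hκ1 (tilt_pos _ _).le (abs_le.1 (abs_tilt_le _ _)).2).trans ?_
      have h1 := hgδ (a := u) (b := fun j => z (c (u j))) ((dist_pi_le_iff hδ.le).2 fun j => hz _)
      rw [Real.dist_eq] at h1
      have h2 : κ ≤ η / 3 := min_le_left _ _
      have h3 := abs_sub_le (g fun j => z (c (u j))) (g u) (tilt (X u) true)
      rw [Real.norm_eq_abs, abs_sub_comm (tilt (X u) true)]
      rw [abs_sub_comm] at h1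
      linarith
    refine (integral_mono_of_nonneg (ae_of_all _ fun u => abs_nonneg _)
      ((hi.sub hgi).norm.add (integrable_const (2 * η / 3))) (ae_of_all _ hb)).trans ?_
    erw [integral_add (hi.sub hgi).norm (integrable_const _)]
    simp only [integral_const, probReal_univ, one_smul, Pi.sub_apply]
    linarith

end Crest.Agent.R141
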