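import Crest.Agent.R141.Sim4

/-! Row 141: the approximation statement. -/

set_option autoImplicit false
open MeasureTheory Finset Function
open scoped BigOperators
open Crest.ProbabilityR.Diluted

namespace Crest.Agent.R141

lemma poi_nonneg {lam : ℝ} (h : 0 ≤ lam) (k : ℕ) : 0 ≤ poissonWeight lam k := by
  unfold poissonWeight; positivity

lemma summable_poi_exp (lam C : ℝ) :
    Summable fun k : ℕ => poissonWeight lam k * Real.exp (C * (k + 1)) := by
  refine ((Real.summable_pow_div_factorial (lam * Real.exp C)).mul_left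
    (Real.exp (-lam) * Real.exp C)).congr fun k => ?_
  rw [poissonWeight, mul_add, Real.exp_add, mul_one, mul_comm C, Real.exp_nat_mul, mul_pow]
  ring

lemma summable_poi {lam C : ℝ} (h : 0 ≤ lam) {a : ℕ → ℝ} (ha : ∀ k, |a k| ≤ Real.exp (C * (k + 1))) :
    Summable fun k => poissonWeight lam k * a k :=
  (summable_poi_exp lam C).of_norm_bounded fun k => by
    rw [Real.norm_eq_abs, abs_mul, abs_of_nonneg (poi_nonneg h k)]
    exact mul_le_mul_of_nonneg_left (ha k) (poi_nonneg h k)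

lemma tsum_poi_lip {lam : ℝ} (h : 0 ≤ lam) {a b D : ℕ → ℝ}
    (ha : Summable fun k => poissonWeight lam k * a k)
    (hb : Summable fun k => poissonWeight lam k * b k)
    (hD : Summable fun k => poissonWeight lam k * D k) (hab : ∀ k, |a k - b k| ≤ D k) :
    |∑' k, poissonWeight lam k * a k - ∑' k, poissonWeight lam k * b k| ≤
      ∑' k, poissonWeight lam k * D k := by
  rw [← ha.tsum_sub hb, ← Real.norm_eq_abs]
  refine tsum_of_norm_bounded hD.hasSum fun k => ?_
  rw [← mul_sub, Real.norm_eq_abs, abs_mul, abs_of_nonneg (poi_nonneg h k)]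
  exact mul_le_mul_of_nonneg_left (hab k) (poi_nonneg h k)

lemma abs_wsum_le {B : Type*} [Fintype B] {w g : B → ℝ} {c : ℝ} (h0 : ∀ b, 0 ≤ w b)
    (h1 : ∑ b, w b = 1) (hg : ∀ b, |g b| ≤ c) : |∑ b, w b * g b| ≤ c := by
  refine (Finset.abs_sum_le_sum_abs _ _).trans ?_
  calc ∑ b, |w b * g b| ≤ ∑ b, w b * c := Finset.sum_le_sum fun b _ => by
        rw [abs_mul, abs_of_nonneg (h0 b)]; exact mul_le_mul_of_nonneg_left (hg b) (h0 b)
    _ = c := by rw [← Finset.sum_mul, h1, one_mul]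

namespace FLaw
variable {A : Type} (μ : FLaw A)

lemma ex_abs {g : A → ℝ} {c : ℝ} (h : ∀ x, |g (μ.val x)| ≤ c) : |μ.ex g| ≤ c :=
  abs_wsum_le μ.w0 μ.w1 h

lemma ex_lip {g g' : A → ℝ} {c : ℝ} (h : ∀ x, |g (μ.val x) - g' (μ.val x)| ≤ c) :
    |μ.ex g - μ.ex g'| ≤ c := by
  have := μ.ex_abs (g := fun a => g a - g' a) h
  simpa [ex, mul_sub] using this

lemma exPi_abs {K : Type} [Fintype K] [DecidableEq K] {g : (K → A) → ℝ} {c : ℝ}
    (h : ∀ a : K → μ.Θ, |g fun k => μ.val (a k)| ≤ c) : |μ.exPi K g| ≤ c :=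
  abs_wsum_le (fun a => Finset.prod_nonneg fun k _ => μ.w0 _)
    (by rw [← Fintype.prod_sum fun (_ : K) x => μ.w x]; simp [μ.w1]) h

lemma exPi_lip {K : Type} [Fintype K] [DecidableEq K] {g g' : (K → A) → ℝ} {c : ℝ}
    (h : ∀ a : K → μ.Θ, |(g fun k => μ.val (a k)) - g' fun k => μ.val (a k)| ≤ c) :
    |μ.exPi K g - μ.exPi K g'| ≤ c := by
  have := μ.exPi_abs (g := fun a => g a - g' a) h
  simpa [exPi, mul_sub] using this

end FLaw

lemma abs_spinVal (b : Bool) : |spinVal b| = 1 := by cases b <;> simp [spinVal]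

lemma siteV_le {p k : ℕ} {h h' : ℝ} {θs θs' : Fin k → Inter p} {c : Fin k → ℝ}
    (hθ : ∀ j s, θs j s ≤ θs' j s + c j) (s : Fin k × Fin (p - 1) → Bool) :
    siteV h θs s ≤ siteV h' θs' s + (|h - h'| + ∑ j, c j) := by
  have hp : ∀ (h : ℝ) (θs : Fin k → Inter p), 0 < (1 / 2) * ∑ ε : Bool, Real.exp (h * spinVal ε +
      ∑ j, θs j fun ℓ => if hl : ℓ.val < p - 1 then s (j, ⟨ℓ.val, hl⟩) else ε) := fun h θs =>
    mul_pos (by norm_num) (Finset.sum_pos (fun _ _ => Real.exp_pos _) Finset.univ_nonempty)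
  rw [siteV, siteV, ← Real.log_exp (|h - h'| + ∑ j, c j),
    ← Real.log_mul (hp _ _).ne' (Real.exp_pos _).ne']
  refine Real.log_le_log (hp _ _) ?_
  rw [mul_assoc, Finset.sum_mul]
  refine mul_le_mul_of_nonneg_left (Finset.sum_le_sum fun ε _ => ?_) (by norm_num)
  rw [← Real.exp_add]
  refine Real.exp_le_exp.2 ?_
  have h1 : (h - h') * spinVal ε ≤ |h - h'| := by
    have := le_abs_self ((h - h') * spinVal ε)
    rwa [abs_mul, abs_spinVal, mul_one] at this
  have h2 := Finset.sum_le_sum (s := Finset.univ) fun j _ =>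
    hθ j fun ℓ => if hl : ℓ.val < p - 1 then s (j, ⟨ℓ.val, hl⟩) else ε
  rw [Finset.sum_add_distrib] at h2
  linarith

lemma siteV_lip {p k : ℕ} {h h' : ℝ} {θs θs' : Fin k → Inter p} {c : Fin k → ℝ}
    (hθ : ∀ j s, |θs j s - θs' j s| ≤ c j) (s : Fin k × Fin (p - 1) → Bool) :
    |siteV h θs s - siteV h' θs' s| ≤ |h - h'| + ∑ j, c j := by
  have h1 := siteV_le (h := h) (h' := h') (θs := θs) (θs' := θs') (c := c)
    (fun j s => by linarith [abs_le.1 (hθ j s)]) s
  have h2 := siteV_le (h := h') (h' := h) (θs := θs') (θs' := θs) (c := c)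
    (fun j s => by linarith [abs_le.1 (hθ j s)]) s
  rw [abs_sub_comm h'] at h2
  rw [abs_le]; constructor <;> linarith

lemma siteV_zero {p k : ℕ} (s : Fin k × Fin (p - 1) → Bool) :
    siteV 0 (fun (_ : Fin k) (_ : Fin p → Bool) => 0) s = 0 := by
  simp [siteV]

lemma siteV_abs {p k : ℕ} {h : ℝ} {θs : Fin k → Inter p} {c : Fin k → ℝ}
    (hθ : ∀ j s, |θs j s| ≤ c j) (s : Fin k × Fin (p - 1) → Bool) :
    |siteV h θs s| ≤ |h| + ∑ j, c j := by
  have := siteV_lip (h := h) (h' := 0) (θs := θs) (θs' := fun _ _ => 0) (c := c)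
    (by simpa using hθ) s
  simpa [siteV_zero] using this

lemma const_le_exp (r n : ℕ) (B : ℝ) :
    Real.exp (2 * B) ^ r * (Real.exp B * (2 ^ n * Real.exp B * n)) ≤
      Real.exp ((2 * r + 2) * B + 2 * n) := by
  have h1 : (2 : ℝ) ^ n ≤ Real.exp n := by
    rw [← Real.exp_one_pow]
    exact pow_le_pow_left₀ (by norm_num) (by linarith [Real.add_one_le_exp 1]) n
  have h2 : (n : ℝ) ≤ Real.exp n := by linarith [Real.add_one_le_exp n]
  have e : Real.exp ((2 * r + 2) * B + 2 * n) =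
      Real.exp (2 * B) ^ r * (Real.exp B * (Real.exp n * Real.exp B * Real.exp n)) := by
    rw [← Real.exp_nat_mul, ← Real.exp_add, ← Real.exp_add, ← Real.exp_add, ← Real.exp_add]
    congr 1; ring
  rw [e]
  gcongr

theorem approx' (p : ℕ) (hp : 2 ≤ p) (α : ℝ) (hα : 0 < α) (μ : FLaw (Inter p)) (ν : FLaw ℝ)
    (r : ℕ) (m : Fin r → ℝ) (X : (Fin (r + 1) → unitInterval) → ℝ) (hm : AdmissibleExponents m)
    (hX : Measurable X) (ε : ℝ) (hε : 0 < ε) : ∃ T : Trial, T.a ≤ T.P.r ∧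
      |trialFunctional p α μ.toM ν.toM r m X - finTrial p α μ ν T| ≤ ε := by
  have hm0 := fun d => (hm.2 d).1
  obtain ⟨B₁, hB₁⟩ : ∃ B, ∀ q : μ.Θ × (Fin p → Bool), |μ.val q.1 q.2| ≤ B :=
    (Set.finite_range fun q : μ.Θ × (Fin p → Bool) => |μ.val q.1 q.2|).bddAbove.imp
      fun _ h q => h ⟨q, rfl⟩
  obtain ⟨B₂, hB₂⟩ : ∃ B, ∀ x, |ν.val x| ≤ B :=
    (Set.finite_range fun x => |ν.val x|).bddAbove.imp fun _ h q => h ⟨q, rfl⟩
  set B := max (max B₁ B₂) 0
  have hB : 0 ≤ B := le_max_right _ _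
  have hμ : ∀ x s, |μ.val x s| ≤ B := fun x s =>
    (hB₁ (x, s)).trans ((le_max_left _ _).trans (le_max_left _ _))
  have hν : ∀ x, |ν.val x| ≤ B := fun x =>
    (hB₂ x).trans ((le_max_right _ _).trans (le_max_left _ _))
  have hsite : ∀ (k : ℕ) (a : Fin k → μ.Θ) (x : ν.Θ) s,
      |siteV (ν.val x) (fun j => μ.val (a j)) s| ≤ B * (k + 1) := by
    intro k a x s
    refine (siteV_abs (c := fun _ => B) (fun j s => hμ _ _) s).trans ?_
    have := hν x
    simp only [Finset.sum_const, Finset.card_univ, Fintype.card_fin, nsmul_eq_mul]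
    linarith
  set C := (2 * r + 2) * B + 2 * p with hC
  have hp' : (2 : ℝ) ≤ p := by exact_mod_cast hp
  have hlam : 0 ≤ α * p := by positivity
  set D := ∑' k : ℕ, poissonWeight (α * p) k * Real.exp (C * (k + 1)) with hD
  have hD0 : 0 ≤ D := tsum_nonneg fun k => mul_nonneg (poi_nonneg hlam k) (Real.exp_pos _).le
  set A := D + α * (p - 1) * Real.exp C with hA
  have hA0 : 0 < A := by
    have : 0 < α * (p - 1) * Real.exp C := by
      have : (0 : ℝ) < p - 1 := by linarith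
      positivity
    linarith
  obtain ⟨T, X', ha, hX', hT, hη⟩ := exists_approx_trial hm hX (div_pos hε hA0)
  refine ⟨T, ha, ?_⟩
  set η := ε / A
  have hη0 : 0 ≤ η := (div_pos hε hA0).le
  rw [trialFunctional_toM, finTrial]
  simp only [← hT]
  have hs : ∀ Z : (Fin (r + 1) → unitInterval) → ℝ, Measurable Z → Summable fun k : ℕ =>
      poissonWeight (α * p) k * μ.exPi (Fin k) fun θs => ν.ex fun h =>
        cavV r m Z (Fin k × Fin (p - 1)) (siteV h θs) := fun Z hZ =>
    summable_poi (C := B) hlam fun k => (μ.exPi_abs fun a => ν.ex_abs fun x =>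
      cavV_abs hm0 hZ (hsite k a x)).trans (by linarith [Real.add_one_le_exp (B * (k + 1))])
  have h1 := tsum_poi_lip hlam (hs X hX) (hs X' hX')
    (D := fun k => η * Real.exp (C * (k + 1)))
    (((summable_poi_exp (α * p) C).mul_left η).congr fun k => by ring) fun k =>
    μ.exPi_lip fun a => ν.ex_lip fun x => (cavV_l1 hm hX hX' (hsite k a x)).trans (by
      rw [mul_comm η]
      refine mul_le_mul ((const_le_exp _ _ _).trans (Real.exp_le_exp.2 ?_)) hη
        (integral_nonneg fun _ => abs_nonneg _) (Real.exp_pos _).le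
      simp only [Fintype.card_prod, Fintype.card_fin, Nat.cast_mul, hC]
      have h1 : ((p - 1 : ℕ) : ℝ) ≤ p := by exact_mod_cast Nat.sub_le p 1
      have h2 : (0 : ℝ) ≤ k := Nat.cast_nonneg k
      nlinarith)
  have e1 : ∑' k : ℕ, poissonWeight (α * p) k * (η * Real.exp (C * (k + 1))) = η * D := by
    rw [hD, ← tsum_mul_left]; exact tsum_congr fun k => by ring
  rw [e1] at h1
  have h2 : |(μ.ex fun θ => cavV r m X (Fin p) θ) - μ.ex fun θ => cavV r m X' (Fin p) θ| ≤
      Real.exp C * η := μ.ex_lip fun x => (cavV_l1 hm hX hX' (hμ x)).trans (by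
    refine mul_le_mul ((const_le_exp _ _ _).trans (le_of_eq ?_)) hη
      (integral_nonneg fun _ => abs_nonneg _) (Real.exp_pos _).le
    simp [hC])
  have h3 : 0 ≤ α * (p - 1) := mul_nonneg hα.le (by linarith)
  have h4 := mul_le_mul_of_nonneg_left h2 h3
  rw [← abs_of_nonneg h3, ← abs_mul, abs_of_nonneg h3, mul_sub] at h4
  have h5 : η * A = ε := div_mul_cancel₀ _ hA0.ne'
  rw [abs_le] at h1 h4 ⊢
  constructor <;> nlinarith

theorem approx : ApproxStmt := fun p hp α hα μ ν r m X hm hX ε hε =>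
  (approx' p hp α hα μ ν r m X hm hX ε hε).imp fun _ h => h.2

end Crest.Agent.R141
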