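import Crest.Agent.R141.Sim3

/-! Row 141: measurability, bounds and Lipschitz properties of the nested power means. -/

set_option autoImplicit false
open MeasureTheory Finset Function
open scoped BigOperators
open Crest.ProbabilityR.Diluted

namespace Crest.Agent.R141

section
variable {L : Type*} [Fintype L] {r : ℕ}

/-- resampling of one level -/
def resamp (lvl : Fin (r + 1)) (u : L → Fin (r + 1) → unitInterval) (v : L → unitInterval) :
    L → Fin (r + 1) → unitInterval := fun l j => if j = lvl then v l else u l j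

omit [Fintype L] in
lemma measurable_resamp (lvl : Fin (r + 1)) :
    Measurable fun q : (L → Fin (r + 1) → unitInterval) × (L → unitInterval) =>
      resamp lvl q.1 q.2 := by
  refine measurable_pi_lambda _ fun l => measurable_pi_lambda _ fun j => ?_
  unfold resamp
  split_ifs
  · exact (measurable_pi_apply l).comp measurable_snd
  · exact (measurable_pi_apply j).comp ((measurable_pi_apply l).comp measurable_fst)

lemma pmStep_eq (m : ℝ) (lvl : Fin (r + 1)) (W : (L → Fin (r + 1) → unitInterval) → ℝ)
    (u : L → Fin (r + 1) → unitInterval) :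
    pmStep m lvl W u = (∫ v : L → unitInterval, W (resamp lvl u v) ^ m
      ∂(Measure.pi fun _ : L => (volume : Measure unitInterval))) ^ (1 / m) := rfl

lemma measurePreserving_update {J U : Type*} [Fintype J] [DecidableEq J] [MeasurableSpace U]
    (κ : Measure U) [IsProbabilityMeasure κ] (i : J) :
    MeasurePreserving (fun q : (J → U) × U => update q.1 i q.2)
      ((Measure.pi fun _ : J => κ).prod κ) (Measure.pi fun _ : J => κ) := by
  have hm : Measurable fun q : (J → U) × U => update q.1 i q.2 := measurable_update'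
  refine ⟨hm, (Measure.pi_eq fun s hs => ?_).symm⟩
  rw [Measure.map_apply hm (MeasurableSet.univ_pi hs)]
  have : (fun q : (J → U) × U => update q.1 i q.2) ⁻¹' Set.univ.pi s =
      (Set.univ.pi (update s i Set.univ)) ×ˢ s i := by
    ext ⟨x, y⟩
    simp only [Set.mem_preimage, Set.mem_pi, Set.mem_univ, true_imp_iff, Set.mem_prod]
    constructor
    · intro h
      refine ⟨fun j => ?_, by simpa using h i⟩
      by_cases hj : j = i
      · subst hj; simp
      · simpa [hj] using h j
    · rintro ⟨h1, h2⟩ j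
      by_cases hj : j = i
      · subst hj; simpa using h2
      · simpa [hj] using h1 j
  rw [this, Measure.prod_prod, Measure.pi_pi, ← Finset.mul_prod_erase _ _ (mem_univ i),
    ← Finset.mul_prod_erase _ _ (mem_univ i), update_self, measure_univ, one_mul, mul_comm]
  congr 1
  exact Finset.prod_congr rfl fun j hj => by rw [update_of_ne (Finset.ne_of_mem_erase hj)]

instance uniformArrays_prob : IsProbabilityMeasure (uniformArrays L r) := by
  unfold uniformArrays; infer_instance

lemma measurePreserving_resamp (lvl : Fin (r + 1)) :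
    MeasurePreserving (fun q : (L → Fin (r + 1) → unitInterval) × (L → unitInterval) =>
      resamp lvl q.1 q.2) ((uniformArrays L r).prod
        (Measure.pi fun _ : L => (volume : Measure unitInterval))) (uniformArrays L r) := by
  have h1 := (measurePreserving_arrowProdEquivProdArrow (Fin (r + 1) → unitInterval) unitInterval L
    (fun _ => Measure.pi fun _ : Fin (r + 1) => (volume : Measure unitInterval))
    (fun _ => (volume : Measure unitInterval))).symm
  have h2 := measurePreserving_pi _ _ fun _ : L =>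
    measurePreserving_update (J := Fin (r + 1)) (volume : Measure unitInterval) lvl
  unfold uniformArrays
  convert h2.comp h1 using 1
  funext q l j
  simp [resamp, update_apply, MeasurableEquiv.arrowProdEquivProdArrow]

/-- measurable, with logarithm bounded by `B` -/
def Good {U : Type*} [MeasurableSpace U] (B : ℝ) (W : U → ℝ) : Prop :=
  Measurable W ∧ ∀ u, Real.exp (-B) ≤ W u ∧ W u ≤ Real.exp B

lemma Good.pos {U : Type*} [MeasurableSpace U] {B : ℝ} {W : U → ℝ} (h : Good B W) (u : U) :
    0 < W u := (Real.exp_pos _).trans_le (h.2 u).1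

lemma Good.abs_log {U : Type*} [MeasurableSpace U] {B : ℝ} {W : U → ℝ} (h : Good B W) (u : U) :
    |Real.log (W u)| ≤ B :=
  abs_le.2 ⟨(Real.le_log_iff_exp_le (h.pos u)).2 (h.2 u).1,
    (Real.log_le_iff_le_exp (h.pos u)).2 (h.2 u).2⟩

lemma Good.rpow {U : Type*} [MeasurableSpace U] {B : ℝ} {W : U → ℝ} (h : Good B W) {m : ℝ}
    (hm : 0 ≤ m) : Good (B * m) fun u => W u ^ m := by
  refine ⟨h.1.pow_const _, fun u => ?_⟩
  rw [← neg_mul, Real.exp_mul, Real.exp_mul]
  exact ⟨Real.rpow_le_rpow (Real.exp_pos _).le (h.2 u).1 hm,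
    Real.rpow_le_rpow (h.pos u).le (h.2 u).2 hm⟩

lemma Good.comp {U V : Type*} [MeasurableSpace U] [MeasurableSpace V] {B : ℝ} {W : U → ℝ}
    (h : Good B W) {φ : V → U} (hφ : Measurable φ) : Good B fun v => W (φ v) :=
  ⟨h.1.comp hφ, fun _ => h.2 _⟩

lemma Good.integrable {U : Type*} [MeasurableSpace U] {B : ℝ} {W : U → ℝ} (h : Good B W)
    (κ : Measure U) [IsFiniteMeasure κ] : Integrable W κ :=
  Integrable.of_bound h.1.aestronglyMeasurable (Real.exp B) (ae_of_all _ fun u => by
    rw [Real.norm_eq_abs, abs_of_pos (h.pos u)]; exact (h.2 u).2)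

lemma Good.integrable_log {U : Type*} [MeasurableSpace U] {B : ℝ} {W : U → ℝ} (h : Good B W)
    (κ : Measure U) [IsFiniteMeasure κ] : Integrable (fun u => Real.log (W u)) κ :=
  Integrable.of_bound h.1.log.aestronglyMeasurable B (ae_of_all _ h.abs_log)

lemma Good.integral {U V : Type*} [MeasurableSpace U] [MeasurableSpace V] {B : ℝ} {W : U × V → ℝ}
    (h : Good B W) (κ : Measure V) [IsProbabilityMeasure κ] : Good B fun u => ∫ v, W (u, v) ∂κ := by
  refine ⟨h.1.stronglyMeasurable.integral_prod_right'.measurable, fun u => ?_⟩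
  have hi : Integrable (fun v => W (u, v)) κ := (h.comp measurable_prodMk_left).integrable κ
  constructor
  · simpa using integral_mono (integrable_const (Real.exp (-B))) hi fun v => (h.2 (u, v)).1
  · simpa using integral_mono hi (integrable_const (Real.exp B)) fun v => (h.2 (u, v)).2

lemma Good.pmIn {B : ℝ} {W : (L → Fin (r + 1) → unitInterval) → ℝ} (h : Good B W) {m : ℝ}
    (hm : 0 < m) (lvl : Fin (r + 1)) : Good (B * m) fun u => ∫ v : L → unitInterval,
      W (resamp lvl u v) ^ m ∂(Measure.pi fun _ : L => (volume : Measure unitInterval)) :=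
  ((h.comp (measurable_resamp lvl)).rpow hm.le).integral _

lemma Good.pmStep {B : ℝ} {W : (L → Fin (r + 1) → unitInterval) → ℝ} (h : Good B W) {m : ℝ}
    (hm : 0 < m) (lvl : Fin (r + 1)) : Good B (pmStep m lvl W) := by
  have := (h.pmIn hm lvl).rpow (one_div_pos.2 hm).le
  rwa [mul_assoc, mul_one_div_cancel hm.ne', mul_one] at this

lemma Good.foldr {B : ℝ} {W : (L → Fin (r + 1) → unitInterval) → ℝ} (h : Good B W)
    {m : Fin r → ℝ} (hm : ∀ d, 0 < m d) (ds : List (Fin r)) :
    Good B (ds.foldr (fun d acc => Crest.ProbabilityR.Diluted.pmStep (m d) d.succ acc) W) := by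
  induction ds with
  | nil => exact h
  | cons d ds ih => exact ih.pmStep (hm d) _

lemma Good.powerMeans {B : ℝ} {W : (L → Fin (r + 1) → unitInterval) → ℝ} (h : Good B W)
    {m : Fin r → ℝ} (hm : ∀ d, 0 < m d) : Good B (powerMeans m W) := h.foldr hm _

lemma log_pmStep {B : ℝ} {W : (L → Fin (r + 1) → unitInterval) → ℝ} (h : Good B W) {m : ℝ}
    (hm : 0 < m) (lvl : Fin (r + 1)) (u : L → Fin (r + 1) → unitInterval) :
    Real.log (pmStep m lvl W u) = 1 / m * Real.log (∫ v : L → unitInterval, W (resamp lvl u v) ^ m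
      ∂(Measure.pi fun _ : L => (volume : Measure unitInterval))) := by
  rw [pmStep_eq, Real.log_rpow ((h.pmIn hm lvl).pos u)]

lemma pmStep_le {B B' c : ℝ} {W W' : (L → Fin (r + 1) → unitInterval) → ℝ} (h : Good B W)
    (h' : Good B' W') (hc : ∀ u, Real.log (W u) ≤ Real.log (W' u) + c) {m : ℝ} (hm : 0 < m)
    (lvl : Fin (r + 1)) (u : L → Fin (r + 1) → unitInterval) :
    Real.log (pmStep m lvl W u) ≤ Real.log (pmStep m lvl W' u) + c := by
  rw [log_pmStep h hm, log_pmStep h' hm]
  have i1 := ((h.comp ((measurable_resamp lvl).comp (measurable_prodMk_left (x := u)))).rpow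
    hm.le).integrable (Measure.pi fun _ : L => (volume : Measure unitInterval))
  have i2 := ((h'.comp ((measurable_resamp lvl).comp (measurable_prodMk_left (x := u)))).rpow
    hm.le).integrable (Measure.pi fun _ : L => (volume : Measure unitInterval))
  have h1 := integral_mono i1 (i2.mul_const (Real.exp (m * c))) fun v => by
    show W (resamp lvl u v) ^ m ≤ W' (resamp lvl u v) ^ m * Real.exp (m * c)
    rw [Real.rpow_def_of_pos (h.pos _), Real.rpow_def_of_pos (h'.pos _), ← Real.exp_add]
    exact Real.exp_le_exp.2 (by nlinarith [hc (resamp lvl u v)])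
  rw [integral_mul_const] at h1
  have h2 := Real.log_le_log ((h.pmIn hm lvl).pos u) h1
  erw [Real.log_mul ((h'.pmIn hm lvl).pos u).ne' (Real.exp_pos _).ne', Real.log_exp] at h2
  have h3 := mul_le_mul_of_nonneg_left h2 (one_div_pos.2 hm).le
  rw [mul_add, ← mul_assoc, one_div_mul_cancel hm.ne', one_mul] at h3
  exact h3

lemma powerMeans_le {B B' c : ℝ} {W W' : (L → Fin (r + 1) → unitInterval) → ℝ} (h : Good B W)
    (h' : Good B' W') (hc : ∀ u, Real.log (W u) ≤ Real.log (W' u) + c) {m : Fin r → ℝ}
    (hm : ∀ d, 0 < m d) (u : L → Fin (r + 1) → unitInterval) :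
    Real.log (powerMeans m W u) ≤ Real.log (powerMeans m W' u) + c := by
  unfold powerMeans
  induction (List.finRange r) generalizing u with
  | nil => exact hc u
  | cons d ds ih => exact pmStep_le (h.foldr hm ds) (h'.foldr hm ds) ih (hm d) _ u

lemma abs_exp_sub_exp {a b B : ℝ} (ha : a ≤ B) (hb : b ≤ B) :
    |Real.exp a - Real.exp b| ≤ Real.exp B * |a - b| := by
  wlog hab : b ≤ a generalizing a b
  · rw [abs_sub_comm, abs_sub_comm a]; exact this hb ha (le_of_not_ge hab)
  rw [abs_of_nonneg (sub_nonneg.2 (Real.exp_le_exp.2 hab)), abs_of_nonneg (sub_nonneg.2 hab)]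
  have h1 := Real.add_one_le_exp (b - a)
  have h2 : Real.exp b = Real.exp a * Real.exp (b - a) := by rw [← Real.exp_add]; congr 1; ring
  have h3 := Real.exp_le_exp.2 ha
  have h4 := Real.exp_pos a
  rw [h2]
  nlinarith

lemma abs_log_sub_log {x y B : ℝ} (hx : Real.exp (-B) ≤ x) (hy : Real.exp (-B) ≤ y) :
    |Real.log x - Real.log y| ≤ Real.exp B * |x - y| := by
  wlog hxy : y ≤ x generalizing x y
  · rw [abs_sub_comm, abs_sub_comm x]; exact this hy hx (le_of_not_ge hxy)
  have hy0 := (Real.exp_pos _).trans_le hy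
  have hx0 := (Real.exp_pos _).trans_le hx
  rw [abs_of_nonneg (sub_nonneg.2 (Real.log_le_log hy0 hxy)), abs_of_nonneg (sub_nonneg.2 hxy),
    ← Real.log_div hx0.ne' hy0.ne']
  refine (Real.log_le_sub_one_of_pos (div_pos hx0 hy0)).trans ?_
  rw [div_sub_one hy0.ne', div_le_iff₀ hy0]
  have h1 : 1 ≤ Real.exp B * y := by
    have := mul_le_mul_of_nonneg_left hy (Real.exp_pos B).le
    rwa [← Real.exp_add, add_neg_cancel, Real.exp_zero] at this
  nlinarith

lemma integral_comp_mp {U V : Type*} [MeasurableSpace U] [MeasurableSpace V] {κ : Measure U}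
    {κ' : Measure V} {φ : U → V} (hφ : MeasurePreserving φ κ κ') {g : V → ℝ}
    (hg : AEStronglyMeasurable g κ') : ∫ u, g (φ u) ∂κ = ∫ v, g v ∂κ' := by
  rw [← hφ.map_eq] at hg ⊢
  rw [integral_map hφ.measurable.aemeasurable hg]

lemma pmStep_l1 {B : ℝ} {W W' : (L → Fin (r + 1) → unitInterval) → ℝ} (h : Good B W)
    (h' : Good B W') {m : ℝ} (hm : 0 < m) (hm1 : m ≤ 1) (lvl : Fin (r + 1)) :
    ∫ u, |Real.log (pmStep m lvl W u) - Real.log (pmStep m lvl W' u)| ∂(uniformArrays L r) ≤
      Real.exp (2 * B) * ∫ u, |Real.log (W u) - Real.log (W' u)| ∂(uniformArrays L r) := by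
  set κ := Measure.pi fun _ : L => (volume : Measure unitInterval)
  have hB : 0 ≤ B := (abs_nonneg _).trans (h.abs_log fun _ _ => 0)
  have hmp := measurePreserving_resamp (L := L) lvl
  have hi : Integrable (fun u => |Real.log (W u) - Real.log (W' u)|) (uniformArrays L r) :=
    ((h.integrable_log _).sub (h'.integrable_log _)).abs
  have hi2 := hmp.integrable_comp_of_integrable hi
  rw [← integral_comp_mp hmp hi.aestronglyMeasurable]
  erw [integral_prod _ hi2]
  rw [← integral_const_mul]
  · refine integral_mono (((h.pmStep hm lvl).integrable_log _).sub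
      ((h'.pmStep hm lvl).integrable_log _)).abs (hi2.integral_prod_left.const_mul _) fun u => ?_
    have g1 : Good B fun v => W (resamp lvl u v) :=
      h.comp ((measurable_resamp lvl).comp (measurable_prodMk_left (x := u)))
    have g2 : Good B fun v => W' (resamp lvl u v) :=
      h'.comp ((measurable_resamp lvl).comp (measurable_prodMk_left (x := u)))
    show |Real.log (pmStep m lvl W u) - Real.log (pmStep m lvl W' u)| ≤ Real.exp (2 * B) *
      ∫ v, |Real.log (W (resamp lvl u v)) - Real.log (W' (resamp lvl u v))| ∂κ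
    rw [log_pmStep h hm, log_pmStep h' hm, ← mul_sub, abs_mul, abs_of_pos (one_div_pos.2 hm)]
    have a1 := abs_log_sub_log ((h.pmIn hm lvl).2 u).1 ((h'.pmIn hm lvl).2 u).1
    have a2 : |(∫ v, W (resamp lvl u v) ^ m ∂κ) - ∫ v, W' (resamp lvl u v) ^ m ∂κ| ≤
        Real.exp (B * m) * m * ∫ v, |Real.log (W (resamp lvl u v)) - Real.log (W' (resamp lvl u v))|
          ∂κ := by
      rw [← integral_sub ((g1.rpow hm.le).integrable _) ((g2.rpow hm.le).integrable _),
        ← integral_const_mul]
      refine abs_integral_le_integral_abs.trans (integral_mono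
        (((g1.rpow hm.le).integrable _).sub ((g2.rpow hm.le).integrable _)).abs
        (((g1.integrable_log _).sub (g2.integrable_log _)).abs.const_mul _) fun v => ?_)
      show |W (resamp lvl u v) ^ m - W' (resamp lvl u v) ^ m| ≤ _
      rw [Real.rpow_def_of_pos (h.pos _), Real.rpow_def_of_pos (h'.pos _)]
      refine (abs_exp_sub_exp (B := B * m)
        (mul_le_mul_of_nonneg_right (abs_le.1 (h.abs_log _)).2 hm.le)
        (mul_le_mul_of_nonneg_right (abs_le.1 (h'.abs_log _)).2 hm.le)).trans (le_of_eq ?_)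
      rw [← sub_mul, abs_mul, abs_of_pos hm]
      ring
    have a3 : 0 ≤ ∫ v, |Real.log (W (resamp lvl u v)) - Real.log (W' (resamp lvl u v))| ∂κ :=
      integral_nonneg fun _ => abs_nonneg _
    have a4 : Real.exp (B * m) * Real.exp (B * m) ≤ Real.exp (2 * B) := by
      rw [← Real.exp_add]; exact Real.exp_le_exp.2 (by nlinarith)
    have a5 := a1.trans (mul_le_mul_of_nonneg_left a2 (Real.exp_pos _).le)
    refine (mul_le_mul_of_nonneg_left a5 (one_div_pos.2 hm).le).trans ?_
    refine le_trans (le_of_eq ?_) (mul_le_mul_of_nonneg_right a4 a3)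
    field_simp

lemma powerMeans_l1 {B : ℝ} {W W' : (L → Fin (r + 1) → unitInterval) → ℝ} (h : Good B W)
    (h' : Good B W') {m : Fin r → ℝ} (hm : ∀ d, 0 < m d) (hm1 : ∀ d, m d ≤ 1) :
    ∫ u, |Real.log (powerMeans m W u) - Real.log (powerMeans m W' u)| ∂(uniformArrays L r) ≤
      Real.exp (2 * B) ^ r * ∫ u, |Real.log (W u) - Real.log (W' u)| ∂(uniformArrays L r) := by
  have key : ∀ ds : List (Fin r),
      ∫ u, |Real.log (ds.foldr (fun d acc => pmStep (m d) d.succ acc) W u) -
        Real.log (ds.foldr (fun d acc => pmStep (m d) d.succ acc) W' u)| ∂(uniformArrays L r) ≤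
      Real.exp (2 * B) ^ ds.length *
        ∫ u, |Real.log (W u) - Real.log (W' u)| ∂(uniformArrays L r) := by
    intro ds
    induction ds with
    | nil => simp
    | cons d ds ih =>
      refine (pmStep_l1 (h.foldr hm ds) (h'.foldr hm ds) (hm d) (hm1 d) _).trans ?_
      rw [List.length_cons, pow_succ', mul_assoc]
      exact mul_le_mul_of_nonneg_left ih (Real.exp_pos _).le
  simpa [powerMeans] using key (List.finRange r)

end

section mix
variable {L : Type} [Fintype L] [DecidableEq L]

lemma sum_prod_tilt (x : L → ℝ) : ∑ s : L → Bool, ∏ l, tilt (x l) (s l) = 1 := by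
  rw [← Fintype.prod_sum fun l b => tilt (x l) b]
  simp [tilt_sum]

lemma mixV_pos (v : (L → Bool) → ℝ) (x : L → ℝ) : 0 < mixV v x :=
  Finset.sum_pos (fun _ _ => mul_pos (Real.exp_pos _) (Finset.prod_pos fun _ _ => tilt_pos _ _))
    Finset.univ_nonempty

lemma mixV_le {v v' : (L → Bool) → ℝ} {c : ℝ} (h : ∀ s, v s ≤ v' s + c) (x : L → ℝ) :
    mixV v x ≤ mixV v' x * Real.exp c := by
  rw [mixV, mixV, Finset.sum_mul]
  refine Finset.sum_le_sum fun s _ => ?_
  rw [mul_right_comm, ← Real.exp_add]
  exact mul_le_mul_of_nonneg_right (Real.exp_le_exp.2 (h s))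
    (Finset.prod_nonneg fun _ _ => (tilt_pos _ _).le)

lemma log_mixV_le {v v' : (L → Bool) → ℝ} {c : ℝ} (h : ∀ s, v s ≤ v' s + c) (x : L → ℝ) :
    Real.log (mixV v x) ≤ Real.log (mixV v' x) + c := by
  have := Real.log_le_log (mixV_pos v x) (mixV_le h x)
  rwa [Real.log_mul (mixV_pos _ _).ne' (Real.exp_pos _).ne', Real.log_exp] at this

lemma mixV_const (c : ℝ) (x : L → ℝ) : mixV (fun _ => c) x = Real.exp c := by
  rw [mixV, ← Finset.mul_sum, sum_prod_tilt, mul_one]

lemma measurable_tilt (b : Bool) : Measurable fun x => tilt x b := by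
  unfold tilt; fun_prop

lemma mixV_good {U : Type*} [MeasurableSpace U] {v : (L → Bool) → ℝ} {B : ℝ} (hv : ∀ s, |v s| ≤ B)
    {x : U → L → ℝ} (hx : ∀ l, Measurable fun u => x u l) : Good B fun u => mixV v (x u) := by
  refine ⟨Finset.measurable_sum _ fun s _ => Measurable.const_mul
    (Finset.measurable_prod _ fun l _ => (measurable_tilt _).comp (hx l)) _, fun u => ⟨?_, ?_⟩⟩
  · have := mixV_le (v := fun _ => -B) (v' := v) (c := 0) (fun s => by linarith [abs_le.1 (hv s)])
      (x u)
    simpa [mixV_const] using this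
  · have := mixV_le (v := v) (v' := fun _ => B) (c := 0) (fun s => by linarith [abs_le.1 (hv s)])
      (x u)
    simpa [mixV_const] using this

variable {r : ℕ} {m : Fin r → ℝ} {X : (Fin (r + 1) → unitInterval) → ℝ}

lemma exists_bound (v : (L → Bool) → ℝ) : ∃ B, ∀ s, |v s| ≤ B :=
  ⟨∑ s, |v s|, fun s => Finset.single_le_sum (f := fun s => |v s|) (fun _ _ => abs_nonneg _)
    (mem_univ s)⟩

lemma cav_good (hX : Measurable X) {v : (L → Bool) → ℝ} {B : ℝ} (hv : ∀ s, |v s| ≤ B) :
    Good B fun u' : L → Fin (r + 1) → unitInterval => mixV v fun l => X (u' l) :=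
  mixV_good hv fun l => hX.comp (measurable_pi_apply l)

lemma cavV_le (hm : ∀ d, 0 < m d) (hX : Measurable X) {v v' : (L → Bool) → ℝ} {c : ℝ}
    (h : ∀ s, v s ≤ v' s + c) : cavV r m X L v ≤ cavV r m X L v' + c := by
  obtain ⟨B, hB⟩ := exists_bound v
  obtain ⟨B', hB'⟩ := exists_bound v'
  have g := cav_good hX hB
  have g' := cav_good hX hB'
  have := integral_mono ((g.powerMeans hm).integrable_log (uniformArrays L r))
    (((g'.powerMeans hm).integrable_log (uniformArrays L r)).add (integrable_const c))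
    fun u => powerMeans_le g g' (fun u => log_mixV_le h _) hm u
  rw [integral_add' ((g'.powerMeans hm).integrable_log _) (integrable_const c)] at this
  simpa [cavV] using this

lemma cavV_lip (hm : ∀ d, 0 < m d) (hX : Measurable X) {v v' : (L → Bool) → ℝ} {c : ℝ}
    (h : ∀ s, |v s - v' s| ≤ c) : |cavV r m X L v - cavV r m X L v'| ≤ c := by
  have h1 := cavV_le hm hX (v := v) (v' := v') (c := c) fun s => by linarith [abs_le.1 (h s)]
  have h2 := cavV_le hm hX (v := v') (v' := v) (c := c) fun s => by linarith [abs_le.1 (h s)]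
  rw [abs_le]; constructor <;> linarith

lemma cavV_add_const (hm : ∀ d, 0 < m d) (hX : Measurable X) (v : (L → Bool) → ℝ) (c : ℝ) :
    cavV r m X L (fun s => v s + c) = cavV r m X L v + c := by
  have h1 := cavV_le hm hX (v := fun s => v s + c) (v' := v) (c := c) fun s => le_rfl
  have h2 := cavV_le hm hX (v := v) (v' := fun s => v s + c) (c := -c) fun s => by simp
  linarith

lemma cavV_abs (hm : ∀ d, 0 < m d) (hX : Measurable X) {v : (L → Bool) → ℝ} {B : ℝ}
    (hv : ∀ s, |v s| ≤ B) : |cavV r m X L v| ≤ B := by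
  have := norm_integral_le_of_norm_le_const (μ := uniformArrays L r) (C := B)
    (f := fun u => Real.log (powerMeans m
      (fun u' : L → Fin (r + 1) → unitInterval => mixV v fun l => X (u' l)) u))
    (ae_of_all _ ((cav_good hX hv).powerMeans hm).abs_log)
  simpa [cavV] using this

end mix

end Crest.Agent.R141
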