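import Mathlib
import Crest.Prelude.Def_DilutedSpinGlass

set_option autoImplicit false

namespace Crest.Agent.R141

open MeasureTheory Crest.ProbabilityR.Diluted

/-- Mean of `f` under the product of the one-spin laws with messages `x`. -/
noncomputable def mixF {L : Type} [Fintype L] [DecidableEq L] (f : (L → Bool) → ℝ) (x : L → ℝ) :
    ℝ :=
  ∑ s : L → Bool, f s * ∏ a, tilt (x a) (s a)

/-- The cavity functional of a positive function `f` of the spins of the labels `L`. -/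
noncomputable def cav {L : Type} [Fintype L] [DecidableEq L] (r : ℕ) (m : Fin r → ℝ)
    (X : (Fin (r + 1) → unitInterval) → ℝ) (f : (L → Bool) → ℝ) : ℝ :=
  ∫ u, Real.log (powerMeans m
      (fun u' : L → Fin (r + 1) → unitInterval => mixF f (fun a => X (u' a))) u)
    ∂(uniformArrays L r)

/-- The finite core of the lower bound: a perturbed free energy `Φ` whose cavity increments are
averages of cavity functionals of hierarchical trial laws. -/
def CoreStmt : Prop :=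
  ∀ (I : Type) [Fintype I] (L : I → Type) [∀ i, Fintype (L i)] [∀ i, DecidableEq (L i)]
    (C ε : ℝ), 0 < ε →
  ∃ (Φ : (N : ℕ) → ((Fin N → Bool) → ℝ) → ℝ) (C₀ : ℝ) (r : ℕ) (m : Fin r → ℝ),
    AdmissibleExponents m ∧
    (∀ N H, 1 ≤ N → |Φ N H - Real.log (∑ σ, Real.exp (H σ))| ≤ C₀) ∧
    (∀ N H H' (c : ℝ), (∀ σ, H σ ≤ H' σ + c) → Φ N H ≤ Φ N H' + c) ∧
    (∀ N (H : (Fin (N + 1) → Bool) → ℝ), 1 ≤ N →
      |Φ (N + 1) H - Φ N (fun σ => Real.log (∑ e : Bool, Real.exp (H (Fin.snoc σ e))))|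
        ≤ C₀ / N) ∧
    (∀ N H, 1 ≤ N → ∃ (Ξ : Type) (_ : Fintype Ξ) (π : Ξ → ℝ)
      (X : Ξ → (Fin (r + 1) → unitInterval) → ℝ),
      (∀ ξ, 0 ≤ π ξ) ∧ ∑ ξ, π ξ = 1 ∧ (∀ ξ, Measurable (X ξ)) ∧
      ∀ i (g : (L i → Bool) → ℝ), (∀ s, |g s| ≤ C) →
        |(Fintype.card (L i → Fin N) : ℝ)⁻¹ * ∑ ι : L i → Fin N,
            (Φ N (fun σ => H σ + g (fun a => σ (ι a))) - Φ N H)
          - ∑ ξ, π ξ * cav r m (X ξ) (fun s => Real.exp (g s))| ≤ ε)

/-- Upper bound (Franz-Leone / Panchenko-Talagrand interpolation). -/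
def UpperStmt : Prop :=
  ∀ (p : ℕ), Even p → 2 ≤ p → ∀ (α : ℝ), 0 < α → ∀ (μ : Measure (Inter p))
    [IsProbabilityMeasure μ] (ν : Measure ℝ) [IsProbabilityMeasure ν],
    Integrable (fun θ => supNorm θ) μ → Integrable (fun x : ℝ => x) ν → HasFactorization p μ →
    ∀ (r : ℕ) (m : Fin r → ℝ) (X : (Fin (r + 1) → unitInterval) → ℝ),
      AdmissibleExponents m → Measurable X →
      ∀ N : ℕ, 1 ≤ N → pressure p α μ ν N ≤ trialFunctional p α μ ν r m X

/-- Lower bound (cavity method). -/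
def LowerStmt : Prop :=
  ∀ (p : ℕ), 2 ≤ p → ∀ (α : ℝ), 0 < α → ∀ (μ : Measure (Inter p))
    [IsProbabilityMeasure μ] (ν : Measure ℝ) [IsProbabilityMeasure ν],
    Integrable (fun θ => supNorm θ) μ → Integrable (fun x : ℝ => x) ν → HasFactorization p μ →
    ∀ B : ℝ, (∀ (r : ℕ) (m : Fin r → ℝ) (X : (Fin (r + 1) → unitInterval) → ℝ),
      AdmissibleExponents m → Measurable X → B ≤ trialFunctional p α μ ν r m X) →
    ∀ ε : ℝ, 0 < ε → ∀ᶠ N : ℕ in Filter.atTop, B - ε ≤ pressure p α μ ν N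

end Crest.Agent.R141
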