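import Crest.Agent.R141.Defs

/-! Row 141: statements linking the finite model with measures. -/

set_option autoImplicit false
open MeasureTheory
open Crest.ProbabilityR.Diluted

namespace Crest.Agent.R141

/-- the measure of a finitely supported law -/
noncomputable def FLaw.toM {A : Type} [MeasurableSpace A] (μ : FLaw A) : Measure A :=
  ∑ x, ENNReal.ofReal (μ.w x) • Measure.dirac (μ.val x)

/-- every admissible finite trial is realised by a measurable function of uniforms -/
def SimStmt : Prop :=
  ∀ (p : ℕ), 2 ≤ p → ∀ (α : ℝ), 0 < α → ∀ (μ : FLaw (Inter p)) (ν : FLaw ℝ) (T : Trial), T.Adm →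
    ∃ (r : ℕ) (m : Fin r → ℝ) (X : (Fin (r + 1) → unitInterval) → ℝ),
      AdmissibleExponents m ∧ Measurable X ∧
        trialFunctional p α μ.toM ν.toM r m X = finTrial p α μ ν T

/-- every measurable trial is approximated by finite trials -/
def ApproxStmt : Prop :=
  ∀ (p : ℕ), 2 ≤ p → ∀ (α : ℝ), 0 < α → ∀ (μ : FLaw (Inter p)) (ν : FLaw ℝ)
    (r : ℕ) (m : Fin r → ℝ) (X : (Fin (r + 1) → unitInterval) → ℝ),
    AdmissibleExponents m → Measurable X → ∀ ε > 0,
      ∃ T : Trial, |trialFunctional p α μ.toM ν.toM r m X - finTrial p α μ ν T| ≤ ε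

end Crest.Agent.R141
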