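import Crest.Agent.R141.Sim5

/-! Row 141, upper bound: finite product weights, binomial averages, Poisson thinning. -/

set_option autoImplicit false
open Finset Function
open scoped BigOperators
open Crest.ProbabilityR.Diluted

namespace Crest.Agent.R141.Up

/-- weighted sum as a functional -/
noncomputable def wl {B : Type*} [Fintype B] (w : B → ℝ) : (B → ℝ) →ₗ[ℝ] ℝ where
  toFun F := ∑ b, w b * F b
  map_add' f g := by simp [mul_add, sum_add_distrib]
  map_smul' c f := by simp [mul_sum, mul_left_comm]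

lemma wl_apply {B : Type*} [Fintype B] (w F : B → ℝ) : wl w F = ∑ b, w b * F b := rfl

lemma wl_isP {B : Type*} [Fintype B] {w : B → ℝ} (h0 : ∀ b, 0 ≤ w b) (h1 : ∑ b, w b = 1) :
    IsP (wl w) :=
  ⟨fun f hf => sum_nonneg fun b _ => mul_nonneg (h0 b) (hf b), by simpa [wl_apply] using h1⟩

lemma wl_comm {A B : Type*} [Fintype A] [Fintype B] (w : A → ℝ) (w' : B → ℝ) (F : A → B → ℝ) :
    wl w (fun a => wl w' fun b => F a b) = wl w' fun b => wl w fun a => F a b := by
  simp only [wl_apply, mul_sum]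
  rw [sum_comm]
  exact sum_congr rfl fun _ _ => sum_congr rfl fun _ _ => by ring

/-- product weights -/
def pw {Θ : Type*} (w : Θ → ℝ) (K : Type*) [Fintype K] (a : K → Θ) : ℝ := ∏ k, w (a k)

section pw
variable {Θ : Type*} [Fintype Θ] {w : Θ → ℝ} {K : Type*} [Fintype K] [DecidableEq K]

lemma sum_pw (h1 : ∑ x, w x = 1) : ∑ a, pw w K a = 1 := by
  unfold pw
  rw [← Fintype.prod_sum fun (_ : K) x => w x]; simp [h1]

lemma pw_isP (h0 : ∀ x, 0 ≤ w x) (h1 : ∑ x, w x = 1) : IsP (wl (pw w K)) :=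
  wl_isP (fun _ => prod_nonneg fun _ _ => h0 _) (sum_pw h1)

lemma wl_comp (h1 : ∑ x, w x = 1) {A : Type*} [Fintype A] [DecidableEq A] {e : A → K}
    (he : Injective e) (F : (A → Θ) → ℝ) :
    wl (pw w K) (fun x => F fun a => x (e a)) = wl (pw w A) F := by
  classical
  let E : A ⊕ {k // k ∉ Set.range e} ≃ K :=
    ((Equiv.ofInjective e he).sumCongr (Equiv.refl _)).trans (Equiv.sumCompl (· ∈ Set.range e))
  have hE : ∀ a, E (Sum.inl a) = e a := fun a => rfl
  let Φ := (E.symm.arrowCongr (Equiv.refl Θ)).trans (Equiv.sumArrowEquivProdArrow _ _ Θ)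
  rw [wl_apply, wl_apply, Fintype.sum_equiv Φ _
    (fun q => pw w A q.1 * F q.1 * pw w _ q.2) fun x => ?_, Fintype.sum_prod_type]
  · simp only [← mul_sum, sum_pw h1, mul_one]
  · rw [mul_right_comm]
    congr 1
    rw [pw, ← E.prod_comp, Fintype.prod_sum_type]
    rfl

lemma wl_update (h1 : ∑ x, w x = 1) (k : K) (F : (K → Θ) → ℝ) :
    wl (pw w K) F = wl (pw w K) fun a => wl w fun x => F (update a k x) := by
  let Φ : (K → Θ) × Θ ≃ (K → Θ) × Θ := Involutive.toPerm (fun q => (update q.1 k q.2, q.1 k))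
    fun q => by simp
  have e1 : wl (pw w K) F = ∑ q : (K → Θ) × Θ, pw w K q.1 * w q.2 * F q.1 := by
    rw [Fintype.sum_prod_type, wl_apply]
    refine sum_congr rfl fun a _ => ?_
    simp only [mul_right_comm _ _ (F a), ← mul_sum, h1, mul_one]
  rw [e1, ← Φ.sum_comp, wl_apply, Fintype.sum_prod_type]
  refine sum_congr rfl fun a _ => ?_
  rw [wl_apply, mul_sum]
  refine sum_congr rfl fun x _ => ?_
  rw [← mul_assoc]
  congr 1
  show pw w K (update a k x) * w (a k) = _
  rw [pw, pw, ← mul_prod_erase _ _ (mem_univ k), ← mul_prod_erase _ (fun j => w (a j)) (mem_univ k),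
    update_self, prod_congr rfl fun j hj => by rw [update_of_ne (ne_of_mem_erase hj)]]
  ring

lemma wl_eval (h1 : ∑ x, w x = 1) (k : K) (f : Θ → ℝ) :
    wl (pw w K) (fun a => f (a k)) = wl w f := by
  rw [wl_update h1 k]
  simp only [update_self]
  rw [wl_apply, ← sum_mul, sum_pw h1, one_mul]

lemma wl_prod {Θ' : Type*} [Fintype Θ'] (w' : Θ' → ℝ) (F : (K → Θ × Θ') → ℝ) :
    wl (pw (fun q : Θ × Θ' => w q.1 * w' q.2) K) F =
      wl (pw w K) fun a => wl (pw w' K) fun b => F fun k => (a k, b k) := by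
  simp only [wl_apply, mul_sum]
  rw [← Fintype.sum_prod_type', Fintype.sum_equiv
    (Equiv.arrowProdEquivProdArrow K (fun _ => Θ) fun _ => Θ')]
  intro x
  simp [pw, prod_mul_distrib, mul_assoc]

end pw

/-- uniform weights -/
noncomputable def uw (Y : Type*) [Fintype Y] (_ : Y) : ℝ := (Fintype.card Y : ℝ)⁻¹

lemma wl_uw {Y : Type*} [Fintype Y] (F : Y → ℝ) : wl (uw Y) F = 𝔼 y, F y := by
  rw [wl_apply, Fintype.expect_eq_sum_div_card, sum_div]
  exact sum_congr rfl fun _ _ => by rw [uw, div_eq_inv_mul]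

lemma sum_uw (Y : Type*) [Fintype Y] [Nonempty Y] : ∑ y, uw Y y = 1 := by
  simp [uw]

lemma uw_nonneg {Y : Type*} [Fintype Y] (y : Y) : 0 ≤ uw Y y := by unfold uw; positivity

lemma pw_uw (Y K : Type*) [Fintype Y] [Fintype K] [DecidableEq K] : pw (uw Y) K = uw (K → Y) := by
  funext a; simp [pw, uw]

lemma expect_comp {Y K A : Type*} [Fintype Y] [Nonempty Y] [Fintype K] [DecidableEq K] [Fintype A]
    [DecidableEq A] {e : A → K} (he : Injective e) (F : (A → Y) → ℝ) :
    𝔼 x : K → Y, F (fun a => x (e a)) = 𝔼 y, F y := by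
  rw [← wl_uw, ← wl_uw, ← pw_uw, ← pw_uw, wl_comp (sum_uw Y) he]

lemma expect_update {Y K : Type*} [Fintype Y] [Nonempty Y] [Fintype K] [DecidableEq K] (k : K)
    (F : (K → Y) → ℝ) : 𝔼 x, F x = 𝔼 x, 𝔼 y, F (update x k y) := by
  simp only [← wl_uw, ← pw_uw]
  exact wl_update (sum_uw Y) k F

lemma expect_eval {Y K : Type*} [Fintype Y] [Nonempty Y] [Fintype K] [DecidableEq K] (k : K)
    (f : Y → ℝ) : 𝔼 x : K → Y, f (x k) = 𝔼 y, f y := by
  simp only [← wl_uw, ← pw_uw]
  exact wl_eval (sum_uw Y) k f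

/-- binomial average -/
noncomputable def Bin (q : ℝ) (n : ℕ) (g : ℕ → ℝ) : ℝ :=
  ∑ ij ∈ antidiagonal n, (n.choose ij.1 : ℝ) * (q ^ ij.1 * (1 - q) ^ ij.2 * g ij.1)

lemma Bin_zero (q : ℝ) (g : ℕ → ℝ) : Bin q 0 g = g 0 := by simp [Bin]

lemma Bin_succ (q : ℝ) (n : ℕ) (g : ℕ → ℝ) :
    Bin q (n + 1) g = q * Bin q n (fun a => g (a + 1)) + (1 - q) * Bin q n g := by
  rw [Bin, Finset.sum_antidiagonal_choose_succ_mul fun i j => q ^ i * (1 - q) ^ j * g i, add_comm,
    Bin, Bin, mul_sum, mul_sum]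
  congr 1
  · refine sum_congr rfl fun ij hij => ?_
    rw [Nat.choose_symm_of_eq_add (mem_antidiagonal.1 hij).symm]
    ring
  · exact sum_congr rfl fun ij _ => by ring

lemma expect_count {Y K : Type*} [Fintype Y] [Nonempty Y] [Fintype K] [DecidableEq K]
    (P : Y → Prop) [DecidablePred P] {q : ℝ} (hq : 𝔼 y, (if P y then (1 : ℝ) else 0) = q)
    (s : Finset K) (g : ℕ → ℝ) :
    𝔼 x : K → Y, g (s.filter fun k => P (x k)).card = Bin q s.card g := by
  induction s using Finset.induction_on generalizing g with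
  | empty => simp [Bin_zero]
  | insert k s hk ih =>
    rw [card_insert_of_notMem hk, Bin_succ, ← ih, ← ih, expect_update k, mul_expect, mul_expect,
      ← expect_add_distrib]
    refine expect_congr rfl fun x _ => ?_
    have e : ∀ y, g ((insert k s).filter fun j => P (update x k y j)).card =
        (if P y then 1 else 0) * (g ((s.filter fun j => P (x j)).card + 1) -
          g (s.filter fun j => P (x j)).card) + g (s.filter fun j => P (x j)).card := by
      intro y
      have : (s.filter fun j => P (update x k y j)) = s.filter fun j => P (x j) :=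
        filter_congr fun j hj => by rw [update_of_ne (ne_of_mem_of_not_mem hj hk)]
      rw [filter_insert, update_self, this]
      split_ifs
      · rw [card_insert_of_notMem fun h => hk (mem_filter.1 h).1]; ring
      · ring
    simp only [e, expect_add_distrib, ← expect_mul, hq, Fintype.expect_const]
    ring

lemma hasSum_poi (lam : ℝ) : HasSum (poissonWeight lam) 1 := by
  have := (NormedSpace.expSeries_div_hasSum_exp (𝔸 := ℝ) lam).mul_left (Real.exp (-lam))
  rw [← Real.exp_eq_exp_ℝ, ← Real.exp_add, neg_add_cancel, Real.exp_zero] at this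
  have e : poissonWeight lam = fun n : ℕ => Real.exp (-lam) * (lam ^ n / n.factorial) :=
    funext fun n => by rw [poissonWeight, mul_div_assoc]
  rw [e]; exact this

lemma hasSum_poi_mul (lam : ℝ) : HasSum (fun k : ℕ => poissonWeight lam k * k) lam := by
  rw [← hasSum_nat_add_iff' 1]
  simp only [range_one, sum_singleton, Nat.cast_zero, mul_zero, sub_zero]
  have := (hasSum_poi lam).mul_left lam
  rw [mul_one] at this
  refine (funext fun k => ?_ : _ = fun n : ℕ => poissonWeight lam (n + 1) * (n + 1 : ℕ)) ▸ this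
  rw [poissonWeight, poissonWeight, Nat.factorial_succ]
  push_cast
  field_simp
  ring

lemma hasSum_thin {lam q C : ℝ} (hl : 0 ≤ lam) (h0 : 0 ≤ q) {g : ℕ → ℝ}
    (hg : ∀ k, |g k| ≤ Real.exp (C * (k + 1))) :
    HasSum (fun n => poissonWeight lam n * Bin q n g)
      (∑' a, poissonWeight (q * lam) a * g a) := by
  have s1 : Summable fun a => ‖poissonWeight (q * lam) a * g a‖ :=
    (summable_poi (mul_nonneg h0 hl) hg).norm
  have s2 : Summable fun a => ‖poissonWeight ((1 - q) * lam) a‖ := (hasSum_poi _).summable.norm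
  have e := tsum_mul_tsum_eq_tsum_sum_antidiagonal_of_summable_norm s1 s2
  rw [(hasSum_poi _).tsum_eq, mul_one] at e
  rw [e]
  refine (funext fun n => ?_ : _ = fun n => poissonWeight lam n * Bin q n g) ▸
    (summable_norm_sum_mul_antidiagonal_of_summable_norm s1 s2).of_norm.hasSum
  rw [Bin, mul_sum]
  refine sum_congr rfl fun ij hij => ?_
  obtain ⟨i, j⟩ := ij
  have hn : i + j = n := mem_antidiagonal.1 hij
  subst hn
  have e2 : Real.exp (-lam) = Real.exp (-(q * lam)) * Real.exp (-((1 - q) * lam)) := by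
    rw [← Real.exp_add]; congr 1; ring
  simp only [poissonWeight, e2, Nat.cast_add_choose ℝ, mul_pow, pow_add]
  field_simp

end Crest.Agent.R141.Up
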