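import Crest.Agent.R141.Up1

/-! Row 141, upper bound: the interpolating systems. -/

set_option autoImplicit false
open Finset Function
open scoped BigOperators
open Crest.ProbabilityR.Diluted

namespace Crest.Agent.R141.Up

section
variable {S : Type} [Fintype S] [Nonempty S] (P : Par)

lemma X_last (F : S → ℝ) (t : ℕ) : t ≤ P.r → ∀ ω : Path S,
    X P (fun x => F (x P.r)) t ω = Real.log (𝔼 s, Real.exp (F s)) := by
  induction t using P.down with
  | h0 t ht => intro h; omega
  | hs t ht ih =>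
    intro _ ω
    rw [X_step P _ ht, stepX]
    rcases ht.eq_or_lt with rfl | h
    · simp only [X_top P _ (Nat.lt_succ_self _), P.top _ le_rfl, one_mul, update_self, div_one]
    · simp only [ih h, Fintype.expect_const, Real.log_exp]
      field_simp [(P.pos t).ne']

omit [Nonempty S] in
lemma X_marg {A : Type} [Fintype A] [Nonempty A] (H : A → Path S → ℝ) (t : ℕ) :
    t ≤ P.r → ∀ ω : Path (A × S), X P (fun x => H (x P.r).1 (Prod.snd ∘ x)) t ω =
      X P (fun y => Real.log (𝔼 a, Real.exp (H a y))) t (Prod.snd ∘ ω) := by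
  induction t using P.down with
  | h0 t ht => intro h; omega
  | hs t ht ih =>
    intro _ ω
    rw [X_step P _ ht, X_step P _ ht, stepX, stepX]
    congr 2
    rcases ht.eq_or_lt with rfl | h
    · simp only [X_top P _ (Nat.lt_succ_self _), P.top _ le_rfl, one_mul, update_self, comp_update,
        Real.exp_log (expect_exp_pos _)]
      rw [← univ_product_univ, expect_product, expect_comm]
    · simp only [ih h, comp_update]
      rw [← univ_product_univ, expect_product]
      simp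

end

variable (T : Trial) {p N K : ℕ}

/-- state space of the interpolating system -/
abbrev St (p N K : ℕ) : Type := (Fin N → Bool) × (Fin K → Fin p → T.S)

/-- arguments of an interaction -/
def arg (c : Fin p → Bool) (σ : Fin N → Bool) (i : Fin p → Fin N) (ι : Fin p → T.I)
    (y : Fin p → T.S) : Fin p → Bool := fun l => if c l then σ (i l) else T.s (ι l) (y l)

/-- one item of the interpolating system -/
abbrev Ev (p N : ℕ) : Type := Inter p × (Fin p → Fin N) × (Fin p → T.I)

/-- Hamiltonian with the items in `A` -/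
noncomputable def Hf (c : Fin K → Fin p → Bool) (h : Fin N → ℝ) (e : Fin K → Ev T p N)
    (A : Finset (Fin K)) (x : Path (St T p N K)) : ℝ :=
  ∑ i, h i * spinVal ((x T.P.r).1 i) + ∑ k ∈ A, (∑ l, T.H ((e k).2.2 l) (fun t => (x t).2 k l) +
    (e k).1 (arg T (c k) (x T.P.r).1 (e k).2.1 (e k).2.2 ((x T.P.r).2 k)))

/-- the starting path -/
def w0 (p N K : ℕ) : Path (St T p N K) := fun t => (fun _ => true, fun _ _ => T.ω₀ t)

/-- normalisation of one label -/
noncomputable def x0 (ι : T.I) : ℝ := X T.P (T.H ι) T.a T.ω₀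

/-- normalised free energy -/
noncomputable def V (c : Fin K → Fin p → Bool) (h : Fin N → ℝ) (e : Fin K → Ev T p N)
    (A : Finset (Fin K)) : ℝ :=
  X T.P (Hf T c h e A) T.a (w0 T p N K) - ∑ k ∈ A, ∑ l, x0 T ((e k).2.2 l)

lemma X_labels {L : Type} [Fintype L] [DecidableEq L] (ι : L → T.I) :
    X T.P (fun x : Path (L → T.S) => ∑ l, T.H (ι l) fun t => x t l) T.a (fun t _ => T.ω₀ t) =
      ∑ l, x0 T (ι l) :=
  X_pi T.P (indep_pi (T := fun _ : L => T.S)) (fun l => T.H (ι l)) T.a fun t _ => T.ω₀ t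

lemma V_update (c : Fin K → Fin p → Bool) (h : Fin N → ℝ) (e : Fin K → Ev T p N) (k : Fin K)
    (c' : Fin p → Bool) (e' : Ev T p N) :
    V T (update c k c') h (update e k e') univ = V T c h e (univ.erase k) +
      Psi T.P (fun x : Path (St T p N K × (Fin p → T.S)) =>
          Hf T c h e (univ.erase k) (Prod.fst ∘ x) + ∑ l, T.H (e'.2.2 l) fun t => (x t).2 l)
        (fun x => e'.1 fun l => if c' l then (x T.P.r).1.1 (e'.2.1 l)
          else T.s (e'.2.2 l) ((x T.P.r).2 l))
        T.a fun t => (w0 T p N K t, fun _ => T.ω₀ t) := by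
  let π : St T p N K × (Fin p → T.S) → St T p N K := fun q => (q.1.1, update q.1.2 k q.2)
  have hπ : Unif π := by
    intro g
    rw [← univ_product_univ, expect_product, ← univ_product_univ, expect_product, expect_product]
    refine expect_congr rfl fun σ _ => ?_
    exact (expect_update k fun y => g (σ, y)).symm
  have h1 := X_unif T.P hπ (Hf T (update c k c') h (update e k e') univ) T.a
    fun t => (w0 T p N K t, fun _ => T.ω₀ t)
  have h2 : π ∘ (fun t => (w0 T p N K t, fun _ => T.ω₀ t)) = w0 T p N K := by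
    funext t; simp [π, w0]
  have h3 := X_prod T.P indep_prod (Hf T c h e (univ.erase k))
    (fun x : Path (Fin p → T.S) => ∑ l, T.H (e'.2.2 l) fun t => x t l) T.a
    fun t => (w0 T p N K t, fun _ => T.ω₀ t)
  rw [h2] at h1
  have h5 : ∑ j ∈ univ.erase k, ∑ l, x0 T ((update e k e' j).2.2 l) =
      ∑ j ∈ univ.erase k, ∑ l, x0 T ((e j).2.2 l) :=
    sum_congr rfl fun j hj => by rw [update_of_ne (ne_of_mem_erase hj)]
  rw [V, V, Psi, ← h1, ← add_sum_erase _ _ (mem_univ k), update_self, h5]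
  erw [h3, X_labels]
  have h4 : (fun x : Path (St T p N K × (Fin p → T.S)) =>
      Hf T (update c k c') h (update e k e') univ (π ∘ x)) =
      fun x : Path (St T p N K × (Fin p → T.S)) =>
      (Hf T c h e (univ.erase k) (Prod.fst ∘ x) + ∑ l, T.H (e'.2.2 l) fun t => (x t).2 l) +
        e'.1 fun l => if c' l then (x T.P.r).1.1 (e'.2.1 l) else T.s (e'.2.2 l) ((x T.P.r).2 l) := by
    funext x
    rw [Hf, Hf, ← add_sum_erase _ _ (mem_univ k),
      sum_congr (s₁ := univ.erase k) rfl fun j hj => by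
        simp only [π, comp_apply, update_of_ne (ne_of_mem_erase hj)]; rfl]
    simp only [π, comp_apply, update_self]
    unfold arg
    ring
  rw [h4]
  have : (Prod.fst ∘ fun t => (w0 T p N K t, fun _ : Fin p => T.ω₀ t)) = w0 T p N K := rfl
  rw [this]
  ring

/-- the functional of the trial for fixed indices -/
noncomputable def tv {L : Type} [Fintype L] [DecidableEq L] (v : (L → Bool) → ℝ) (ι : L → T.I) :
    ℝ :=
  Psi T.P (fun ω : Path (L → T.S) => ∑ l, T.H (ι l) fun t => ω t l)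
    (fun ω => v fun l => T.s (ι l) (ω T.P.r l)) T.a fun t _ => T.ω₀ t

lemma TV_eq {L : Type} [Fintype L] [DecidableEq L] (v : (L → Bool) → ℝ) :
    TV T L v = 𝔼 ι, tv T v ι := rfl

lemma V_clause (ha : T.a ≤ T.P.r) (C : Finset (Fin K)) (h : Fin N → ℝ) (e : Fin K → Ev T p N) :
    V T (fun k _ => decide (k ∈ C)) h e univ =
      Real.log (𝔼 σ : Fin N → Bool, Real.exp (∑ k ∈ C, (e k).1 (fun l => σ ((e k).2.1 l)) +
        ∑ i, h i * spinVal (σ i))) + ∑ k ∈ Cᶜ, tv T (e k).1 (e k).2.2 := by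
  let G : Fin K → Path (Fin p → T.S) → ℝ := fun k y => ∑ l, T.H ((e k).2.2 l) (fun t => y t l) +
    if k ∈ C then 0 else (e k).1 fun l => T.s ((e k).2.2 l) (y T.P.r l)
  let F₁ : Path (Fin N → Bool) → ℝ := fun y => ∑ k ∈ C, (e k).1 (fun l => y T.P.r ((e k).2.1 l)) +
        ∑ i, h i * spinVal (y T.P.r i)
  let F₂ : Path (Fin K → Fin p → T.S) → ℝ := fun z => ∑ k, G k ((fun s => s k) ∘ z)
  have e1 : Hf T (fun k _ => decide (k ∈ C)) h e univ = fun x =>
      F₁ (Prod.fst ∘ x) + F₂ (Prod.snd ∘ x) := by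
    funext x
    simp only [Hf, G, F₁, F₂, comp_apply, sum_add_distrib]
    have : ∀ k, (e k).1 (arg T (fun _ => decide (k ∈ C)) (x T.P.r).1 (e k).2.1 (e k).2.2
        ((x T.P.r).2 k)) = (if k ∈ C then (e k).1 fun l => (x T.P.r).1 ((e k).2.1 l) else 0) +
        if k ∈ C then 0 else (e k).1 fun l => T.s ((e k).2.2 l) ((x T.P.r).2 k l) := by
      intro k
      unfold arg
      by_cases hk : k ∈ C <;> simp [hk]
    simp only [this, sum_add_distrib, sum_ite_mem, univ_inter]
    ring
  rw [V, e1, X_prod T.P indep_prod F₁ F₂,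
    X_pi T.P (indep_pi (T := fun _ : Fin K => Fin p → T.S)) G,
    X_last T.P (fun σ : Fin N → Bool => ∑ k ∈ C, (e k).1 (fun l => σ ((e k).2.1 l)) +
        ∑ i, h i * spinVal (σ i)) _ ha, add_sub_assoc, ← sum_sub_distrib,
    ← sum_filter_add_sum_filter_not univ (· ∈ C), filter_univ_mem, sum_eq_zero, zero_add]
  · congr 1
    refine sum_congr (by ext; simp) fun k hk => ?_
    rw [tv, Psi, X_labels]
    simp only [G, if_neg (mem_compl.1 hk)]
    rfl
  · intro k hk
    simp only [G, if_pos hk, add_zero]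
    erw [X_labels]
    exact sub_self _

lemma X_site (ha : T.a ≤ T.P.r) {n k : ℕ} (h : ℝ) (θ : Fin k → Crest.ProbabilityR.Diluted.Inter (n + 1))
    (ι : Fin k × Fin n → T.I) (b : Bool) :
    X T.P (fun x : Path (Bool × (Fin k × Fin n → T.S)) =>
      (∑ q, T.H (ι q) fun t => (x t).2 q) + (h * spinVal (x T.P.r).1 + ∑ j, θ j fun ℓ =>
        if hl : ℓ.val < n then T.s (ι (j, ⟨ℓ.val, hl⟩)) ((x T.P.r).2 (j, ⟨ℓ.val, hl⟩))
          else (x T.P.r).1)) T.a (fun t => (b, fun _ => T.ω₀ t)) =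
      tv T (siteV (p := n + 1) h θ) ι + ∑ q, x0 T (ι q) := by
  refine (X_marg T.P (fun (ε : Bool) (y : Path (Fin k × Fin n → T.S)) =>
    (∑ q, T.H (ι q) fun t => y t q) + (h * spinVal ε + ∑ j, θ j fun ℓ =>
        if hl : ℓ.val < n then T.s (ι (j, ⟨ℓ.val, hl⟩)) (y T.P.r (j, ⟨ℓ.val, hl⟩)) else ε)) _ ha
        _).trans ?_
  rw [tv, Psi]
  erw [X_labels, sub_add_cancel]
  congr 1
  funext y
  simp only [Real.exp_add (∑ q, T.H (ι q) fun t => y t q), ← mul_expect]
  rw [Real.log_mul (Real.exp_pos _).ne' (expect_exp_pos _).ne', Real.log_exp, siteV,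
    Fintype.expect_eq_sum_div_card, Fintype.card_bool, div_eq_inv_mul, one_div]
  rfl

lemma V_site (ha : T.a ≤ T.P.r) {n : ℕ} (h : Fin N → ℝ) (e : Fin K → Ev T (n + 1) N)
    (nn : Fin N → ℕ) (φ : ∀ i, Fin (nn i) ≃ {k // (e k).2.1 (Fin.last n) = i}) :
    V T (fun _ => lastMask (n + 1)) h e univ = ∑ i, tv T (siteV (p := n + 1) (h i)
      fun j => (e (φ i j)).1) fun q : Fin (nn i) × Fin n => (e (φ i q.1)).2.2 q.2.castSucc := by
  let j : Fin K → Fin N := fun k => (e k).2.1 (Fin.last n)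
  let Φ : St T (n + 1) N K ≃ (∀ i, Bool × (Fin (nn i) × Fin n → T.S)) × (Fin K → T.S) :=
    { toFun := fun s => (fun i => (s.1 i, fun q => s.2 (φ i q.1) q.2.castSucc),
        fun k => s.2 k (Fin.last n))
      invFun := fun z => (fun i => (z.1 i).1, fun k => Fin.snoc (α := fun _ => T.S)
        (fun l => (z.1 (j k)).2 ((φ (j k)).symm ⟨k, rfl⟩, l)) (z.2 k))
      left_inv := fun s => by
        refine Prod.ext rfl (funext fun k => ?_)
        simp only [Equiv.apply_symm_apply]
        exact Fin.snoc_init_self _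
      right_inv := fun z => by
        refine Prod.ext (funext fun i => Prod.ext rfl (funext fun q => ?_)) (funext fun k => ?_)
        · obtain ⟨a, l⟩ := q
          simp only [Fin.snoc_castSucc]
          have key : ∀ (k : Fin K) (i : Fin N) (hk : j k = i),
              (z.1 (j k)).2 ((φ (j k)).symm ⟨k, rfl⟩, l) = (z.1 i).2 ((φ i).symm ⟨k, hk⟩, l) := by
            intro k i hk; subst hk; rfl
          rw [key _ i (φ i a).2]
          simp
        · simp }
  let G : ∀ i, Path (Bool × (Fin (nn i) × Fin n → T.S)) → ℝ := fun i x =>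
      (∑ q, T.H ((e (φ i q.1)).2.2 q.2.castSucc) fun t => (x t).2 q) +
        (h i * spinVal (x T.P.r).1 + ∑ a, (e (φ i a)).1 fun ℓ =>
        if hl : ℓ.val < n then T.s ((e (φ i a)).2.2 (Fin.castSucc ⟨ℓ.val, hl⟩))
          ((x T.P.r).2 (a, ⟨ℓ.val, hl⟩)) else (x T.P.r).1)
  have hsum : ∀ f : Fin K → ℝ, ∑ k, f k = ∑ i, ∑ a, f (φ i a) := by
    intro f
    rw [← Fintype.sum_fiberwise j]
    exact sum_congr rfl fun i _ => ((φ i).sum_comp fun k => f k).symm
  let F₁ : Path (∀ i, Bool × (Fin (nn i) × Fin n → T.S)) → ℝ := fun z =>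
    ∑ i, G i ((fun s => s i) ∘ z)
  let F₂ : Path (Fin K → T.S) → ℝ := fun z => ∑ k, T.H ((e k).2.2 (Fin.last n)) fun t => z t k
  let F : Path ((∀ i, Bool × (Fin (nn i) × Fin n → T.S)) × (Fin K → T.S)) → ℝ := fun y =>
    F₁ (Prod.fst ∘ y) + F₂ (Prod.snd ∘ y)
  have e1 : Hf T (fun _ => lastMask (n + 1)) h e univ = fun x => F (Φ ∘ x) := by
    funext x
    simp only [Hf, G, F, F₁, F₂, comp_apply, sum_add_distrib, Fin.sum_univ_castSucc, Φ, Equiv.coe_fn_mk,
      Fintype.sum_prod_type]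
    rw [hsum fun k => ∑ l : Fin n, T.H ((e k).2.2 l.castSucc) fun t => (x t).2 k l.castSucc,
      hsum fun k => (e k).1 (arg T (lastMask (n + 1)) (x T.P.r).1 (e k).2.1 (e k).2.2
        ((x T.P.r).2 k))]
    have : ∀ i a, arg T (lastMask (n + 1)) (x T.P.r).1 (e (φ i a)).2.1 (e (φ i a)).2.2
        ((x T.P.r).2 (φ i a)) = fun ℓ => if hl : ℓ.val < n then
          T.s ((e (φ i a)).2.2 (Fin.castSucc ⟨ℓ.val, hl⟩))
            ((x T.P.r).2 (φ i a) (Fin.castSucc ⟨ℓ.val, hl⟩)) else (x T.P.r).1 i := by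
      intro i a
      funext ℓ
      refine Fin.lastCases ?_ (fun l => ?_) ℓ
      · simp [arg, lastMask, (φ i a).2]
      · simp [arg, lastMask]
    simp only [this]
    ring
  rw [V, e1, X_unif T.P (unif_equiv Φ) F, X_prod T.P indep_prod F₁ F₂,
    X_pi T.P (indep_pi (T := fun i => Bool × (Fin (nn i) × Fin n → T.S))) G]
  erw [X_labels]
  erw [sum_congr rfl fun i _ => X_site T ha (h i) (fun a => (e (φ i a)).1)
    (fun q : Fin (nn i) × Fin n => (e (φ i q.1)).2.2 q.2.castSucc) true]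
  simp only [sum_add_distrib, Fin.sum_univ_castSucc, Fintype.sum_prod_type]
  rw [hsum fun k => ∑ l : Fin n, x0 T ((e k).2.2 l.castSucc)]
  ring

end Crest.Agent.R141.Up
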