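import Crest.Agent.R141.Up2
import Crest.Agent.R141.Stmts2

/-! Row 141, upper bound: interpolation and Poisson averaging. -/

set_option autoImplicit false
open Finset Function
open scoped BigOperators
open Crest.ProbabilityR.Diluted

namespace Crest.Agent.R141.Up

variable (T : Trial) {p : ℕ} (μ : FLaw (Inter p)) (ν : FLaw ℝ) (N : ℕ) [NeZero N]

/-- weights of one item -/
noncomputable def we (q : μ.Θ × (Fin p → Fin N) × (Fin p → T.I)) : ℝ :=
  μ.w q.1 * (fun q' : (Fin p → Fin N) × (Fin p → T.I) => uw _ q'.1 * uw _ q'.2) q.2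

/-- the item -/
def ev (q : μ.Θ × (Fin p → Fin N) × (Fin p → T.I)) : Ev T p N := (μ.val q.1, q.2)

omit [NeZero N] in
lemma wl_we (F : μ.Θ × (Fin p → Fin N) × (Fin p → T.I) → ℝ) :
    wl (we T μ N) F = wl μ.w fun x => 𝔼 i, 𝔼 ι, F (x, i, ι) := by
  simp only [← wl_uw, wl_apply, Fintype.sum_prod_type, we, mul_sum, mul_assoc]

lemma we_sum : ∑ q, we T μ N q = 1 := by
  have := wl_we T μ N fun _ => 1
  simpa [wl_apply, μ.w1] using this

omit [NeZero N] in
lemma we_nonneg (q : μ.Θ × (Fin p → Fin N) × (Fin p → T.I)) : 0 ≤ we T μ N q :=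
  mul_nonneg (μ.w0 _) (mul_nonneg (uw_nonneg _) (uw_nonneg _))

omit [NeZero N] in
lemma wl_pw_we {K : Type} [Fintype K] [DecidableEq K]
    (F : (K → μ.Θ × (Fin p → Fin N) × (Fin p → T.I)) → ℝ) :
    wl (pw (we T μ N) K) F = wl (pw μ.w K) fun a => 𝔼 i : K → Fin p → Fin N,
      𝔼 ι : K → Fin p → T.I, F fun k => (a k, i k, ι k) := by
  refine (wl_prod (w := μ.w)
    (fun q' : (Fin p → Fin N) × (Fin p → T.I) => uw _ q'.1 * uw _ q'.2) F).trans ?_
  simp only [wl_prod, pw_uw, wl_uw]

/-- averaged free energy of the interpolating system -/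
noncomputable def G {K : ℕ} (c : Fin K → Fin p → Bool) : ℝ :=
  wl (pw ν.w (Fin N)) fun b => wl (pw (we T μ N) (Fin K)) fun a =>
    V T c (fun i => ν.val (b i)) (fun k => ev T μ N (a k)) univ

lemma G_update {K : ℕ} (c : Fin K → Fin p → Bool) (k : Fin K) (c' : Fin p → Bool) :
    G T μ ν N (update c k c') = wl (pw ν.w (Fin N)) fun b => wl (pw (we T μ N) (Fin K)) fun a =>
      V T c (fun i => ν.val (b i)) (fun k => ev T μ N (a k)) (univ.erase k) +
        μ.ex (inc T (Hf T c (fun i => ν.val (b i)) (fun k => ev T μ N (a k)) (univ.erase k))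
          Prod.fst (w0 T p N K) c') := by
  rw [G]
  congr 1; funext b
  rw [wl_update (we_sum T μ N) k]
  congr 1; funext a
  have e : ∀ x, (fun j => ev T μ N (update a k x j)) =
      update (fun j => ev T μ N (a j)) k (ev T μ N x) := fun x => comp_update (ev T μ N) a k x
  simp only [e, V_update, lin_add, (wl_isP (we_nonneg T μ N) (we_sum T μ N)).const]
  rw [wl_we]
  rfl

lemma G_key {ε : ℝ} (hK : Key p μ.ex ε) (hp : 0 < p) {K : ℕ} (c : Fin K → Fin p → Bool)
    (k : Fin K) : (1 / (p : ℝ)) * G T μ ν N (update c k fun _ => true) +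
      (1 - 1 / (p : ℝ)) * G T μ ν N (update c k fun _ => false) ≤
      G T μ ν N (update c k (lastMask p)) + ε := by
  have h1 := pw_isP (K := Fin N) ν.w0 ν.w1
  have h2 := pw_isP (K := Fin K) (we_nonneg T μ N) (we_sum T μ N)
  have hp' : (p : ℝ) ≠ 0 := by positivity
  simp only [G_update, ← lin_mul, ← lin_add]
  rw [← h1.const ε, ← lin_add]
  refine h1.mono fun b => ?_
  rw [← h2.const ε, ← lin_add]
  refine h2.mono fun a => ?_
  have := hK T N (Nat.pos_of_neZero N) _ (Hf T c (fun i => ν.val (b i)) (fun k => ev T μ N (a k))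
    (univ.erase k)) Prod.fst (w0 T p N K)
  rw [show ((p : ℝ) - 1) / p = 1 - 1 / p by field_simp] at this
  linarith

/-- the free energy with `a` interactions -/
noncomputable def FF (a : ℕ) : ℝ :=
  μ.exPi (Fin a) fun θs => ν.exPi (Fin N) fun hs =>
    𝔼 idx : Fin a → Fin p → Fin N, logPartition N θs idx hs

/-- the site functional with `k` interactions -/
noncomputable def SS (k : ℕ) : ℝ :=
  μ.exPi (Fin k) fun θs => ν.ex fun h => TV T (Fin k × Fin (p - 1)) (siteV h θs)

lemma G_clause (ha : T.a ≤ T.P.r) {K : ℕ} (C : Finset (Fin K)) :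
    G T μ ν N (fun k _ => decide (k ∈ C)) = (FF μ ν N C.card - N * Real.log 2) +
      ((K : ℝ) - C.card) * μ.ex fun θ => TV T (Fin p) θ := by
  have h1 := pw_isP (K := Fin N) ν.w0 ν.w1
  have h2 := pw_isP (K := Fin K) (we_nonneg T μ N) (we_sum T μ N)
  let φ := C.orderEmbOfFin rfl
  have hφ : ∀ f : Fin K → ℝ, ∑ k ∈ C, f k = ∑ j, f (φ j) := by
    intro f
    rw [← C.sum_coe_sort, ← (C.orderIsoOfFin rfl).toEquiv.sum_comp]
    rfl
  have e : ∀ (h : Fin N → ℝ) (e : Fin K → Ev T p N), Real.log (𝔼 σ : Fin N → Bool,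
      Real.exp (∑ k ∈ C, (e k).1 (fun l => σ ((e k).2.1 l)) + ∑ i, h i * spinVal (σ i))) =
      logPartition N (fun j => (e (φ j)).1) (fun j => (e (φ j)).2.1) h - N * Real.log 2 := by
    intro h e
    rw [Fintype.expect_eq_sum_div_card, Real.log_div (sum_pos (fun _ _ => Real.exp_pos _)
      univ_nonempty).ne' (by positivity), logPartition]
    simp [hφ]
  simp only [G, V_clause T ha, e, lin_add, lin_sub, lin_sum, h1.const, h2.const]
  congr 1
  · congr 1
    have : ∀ b : Fin N → ν.Θ, wl (pw (we T μ N) (Fin K)) (fun a => logPartition N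
        (fun j => (ev T μ N (a (φ j))).1) (fun j => (ev T μ N (a (φ j))).2.1) fun i => ν.val (b i))
        = wl (pw μ.w (Fin C.card)) fun a => 𝔼 idx : Fin C.card → Fin p → Fin N,
          logPartition N (fun j => μ.val (a j)) idx fun i => ν.val (b i) := by
      intro b
      rw [wl_comp (we_sum T μ N) φ.injective fun a => logPartition N
        (fun j => (ev T μ N (a j)).1) (fun j => (ev T μ N (a j)).2.1) fun i => ν.val (b i),
        wl_pw_we]
      simp [ev]
    simp only [this]
    rw [wl_comm]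
    rfl
  · have : ∀ k, wl (pw (we T μ N) (Fin K)) (fun a => tv T (ev T μ N (a k)).1
        (ev T μ N (a k)).2.2) = μ.ex fun θ => TV T (Fin p) θ := by
      intro k
      rw [wl_eval (we_sum T μ N) k fun q => tv T (ev T μ N q).1 (ev T μ N q).2.2, wl_we]
      simp only [ev, Fintype.expect_const]
      rfl
    simp only [this, sum_const, card_compl, Fintype.card_fin, nsmul_eq_mul]
    rw [Nat.cast_sub (by simpa using card_le_univ C)]

lemma G_site (ha : T.a ≤ T.P.r) {n : ℕ} (μ : FLaw (Crest.ProbabilityR.Diluted.Inter (n + 1)))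
    (K : ℕ) :
    G T μ ν N (fun _ : Fin K => lastMask (n + 1)) = N * Bin (1 / N) K (SS T μ ν) := by
  let nn : (Fin K → Fin (n + 1) → Fin N) → Fin N → ℕ := fun idx i =>
    (univ.filter fun k => idx k (Fin.last n) = i).card
  let φ : ∀ (idx : Fin K → Fin (n + 1) → Fin N) i, Fin (nn idx i) ≃ {k // idx k (Fin.last n) = i} :=
    fun idx i => (Fintype.equivFinOfCardEq (Fintype.card_subtype _)).symm
  have e : ∀ (b : Fin N → ν.Θ) (a : Fin K → μ.Θ) (idx : Fin K → Fin (n + 1) → Fin N)
      (ι : Fin K → Fin (n + 1) → T.I), V T (fun _ => lastMask (n + 1)) (fun i => ν.val (b i))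
      (fun k => ev T μ N (a k, idx k, ι k)) univ = ∑ i, tv T (siteV (p := n + 1) (ν.val (b i))
        fun j => μ.val (a (φ idx i j))) fun q : Fin (nn idx i) × Fin n =>
          ι (φ idx i q.1) q.2.castSucc := fun b a idx ι =>
    V_site T ha _ (fun k => ev T μ N (a k, idx k, ι k)) (nn idx) (φ idx)
  have e2 : ∀ idx i (v : (Fin (nn idx i) × Fin n → Bool) → ℝ),
      𝔼 ι : Fin K → Fin (n + 1) → T.I, tv T v (fun q : Fin (nn idx i) × Fin n =>
        ι (φ idx i q.1) q.2.castSucc) = TV T _ v := by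
    intro idx i v
    rw [TV_eq, ← expect_comp (K := Fin K × Fin (n + 1))
      (e := fun q : Fin (nn idx i) × Fin n => ((φ idx i q.1 : Fin K), q.2.castSucc))
      (fun q q' h => by
        simp only [Prod.mk.injEq, Fin.castSucc_inj] at h
        exact Prod.ext ((φ idx i).injective (Subtype.ext h.1)) h.2)]
    exact Fintype.expect_equiv (Equiv.curry _ _ _).symm _ _ fun ι => rfl
  have e3 : ∀ idx i, (wl (pw ν.w (Fin N)) fun b => wl (pw μ.w (Fin K)) fun a =>
      TV T (Fin (nn idx i) × Fin n) (siteV (p := n + 1) (ν.val (b i))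
        fun j => μ.val (a (φ idx i j)))) = SS T μ ν (nn idx i) := by
    intro idx i
    rw [wl_eval ν.w1 i fun y => wl (pw μ.w (Fin K)) fun a =>
      TV T (Fin (nn idx i) × Fin n) (siteV (p := n + 1) (ν.val y)
        fun j => μ.val (a (φ idx i j))), wl_comm,
      wl_comp μ.w1 (e := fun j => (φ idx i j : Fin K))
        (Subtype.val_injective.comp (φ idx i).injective) fun a => wl ν.w fun y =>
          TV T (Fin (nn idx i) × Fin n) (siteV (p := n + 1) (ν.val y) fun j => μ.val (a j))]
    rfl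
  have e4 : ∀ i, 𝔼 idx, SS T μ ν (nn idx i) = Bin (1 / N) K (SS T μ ν) := by
    intro i
    have := expect_count (K := Fin K) (fun y : Fin (n + 1) → Fin N => y (Fin.last n) = i)
      (q := 1 / N) (by
        rw [expect_eval (Fin.last n) fun z : Fin N => if z = i then (1 : ℝ) else 0,
          Fintype.expect_eq_sum_div_card]
        simp) univ (SS T μ ν)
    simpa using this
  simp only [G, wl_pw_we]
  simp only [e, expect_sum_comm]
  simp only [e2]
  simp only [lin_sum, lin_expect, e3, e4]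
  simp

lemma hybrid (ha : T.a ≤ T.P.r) {ε : ℝ} (hK : Key p μ.ex ε) (hp : 0 < p) {K : ℕ}
    (S : Finset (Fin K)) : ∀ C : Finset (Fin K), Disjoint C S →
    Bin (1 / p) S.card (fun a => FF μ ν N (C.card + a) - N * Real.log 2) +
      ((K : ℝ) - C.card - S.card * (1 / p)) * (μ.ex fun θ => TV T (Fin p) θ) - S.card * ε ≤
      G T μ ν N fun k => if k ∈ S then lastMask p else fun _ => decide (k ∈ C) := by
  induction S using Finset.induction_on with
  | empty =>
    intro C _
    simp only [notMem_empty, if_false, G_clause T μ ν N ha]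
    simp [Bin_zero]
  | insert k S hk ih =>
    intro C hC
    rw [disjoint_insert_right] at hC
    have h1 := ih (insert k C) (disjoint_insert_left.2 ⟨hk, hC.2⟩)
    have h2 := ih C hC.2
    have h3 := G_key T μ ν N hK hp (fun j => if j ∈ S then lastMask p else fun _ => decide (j ∈ C)) k
    have e1 : (update (fun j => if j ∈ S then lastMask p else fun _ => decide (j ∈ C)) k
        fun _ => true) = fun j => if j ∈ S then lastMask p else fun _ => decide (j ∈ insert k C) := by
      funext j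
      by_cases hj : j = k
      · subst hj; simp [hk]
      · simp [hj]
    have e2 : (update (fun j => if j ∈ S then lastMask p else fun _ => decide (j ∈ C)) k
        fun _ => false) = fun j => if j ∈ S then lastMask p else fun _ => decide (j ∈ C) := by
      funext j
      by_cases hj : j = k
      · subst hj; simp [hk, hC.1]
      · simp [hj]
    have e3 : (update (fun j => if j ∈ S then lastMask p else fun _ => decide (j ∈ C)) k
        (lastMask p)) = fun j => if j ∈ insert k S then lastMask p else fun _ => decide (j ∈ C) := by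
      funext j
      by_cases hj : j = k
      · subst hj; simp
      · simp [hj]
    rw [e1, e2, e3] at h3
    rw [card_insert_of_notMem hC.1] at h1
    rw [card_insert_of_notMem hk, Bin_succ]
    simp only [← add_assoc, add_right_comm C.card _ 1] at h1 ⊢
    have hq0 : (0 : ℝ) ≤ 1 / p := by positivity
    have hq1 : (0 : ℝ) ≤ 1 - 1 / p := by
      have : (1 : ℝ) ≤ p := by exact_mod_cast hp
      rw [sub_nonneg, div_le_one (by linarith)]; exact this
    have h4 := mul_le_mul_of_nonneg_left h1 hq0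
    have h5 := mul_le_mul_of_nonneg_left h2 hq1
    push_cast at h4 ⊢
    nlinarith

lemma TV_abs {L : Type} [Fintype L] [DecidableEq L] {v : (L → Bool) → ℝ} {B : ℝ}
    (hv : ∀ s, |v s| ≤ B) : |TV T L v| ≤ B :=
  (avg_isP (L → T.I)).abs_le_of fun _ => Psi_abs T.P (fun _ => hv _) _ _

omit [NeZero N] in
lemma logPartition_abs {M : ℕ} {θs : Fin M → Inter p} {hs : Fin N → ℝ} {B : ℝ}
    (hθ : ∀ k s, |θs k s| ≤ B) (hh : ∀ i, |hs i| ≤ B) (idx : Fin M → Fin p → Fin N) :
    |logPartition N θs idx hs - N * Real.log 2| ≤ B * M + B * N := by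
  have h1 : ∀ σ : Fin N → Bool, |(∑ k : Fin M, θs k (fun ℓ => σ (idx k ℓ))) +
      ∑ i : Fin N, hs i * spinVal (σ i)| ≤ B * M + B * N := by
    intro σ
    refine (abs_add_le _ _).trans (add_le_add ?_ ?_)
    · refine (abs_sum_le_sum_abs _ _).trans ((sum_le_card_nsmul _ _ B fun k _ => hθ _ _).trans ?_)
      simp [mul_comm]
    · refine (abs_sum_le_sum_abs _ _).trans ((sum_le_card_nsmul _ _ B fun i _ => ?_).trans ?_)
      · rw [abs_mul, abs_spinVal, mul_one]; exact hh i
      · simp [mul_comm]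
  have h2 : logPartition N θs idx hs - N * Real.log 2 = Real.log (𝔼 σ : Fin N → Bool, Real.exp
      ((∑ k : Fin M, θs k (fun ℓ => σ (idx k ℓ))) + ∑ i : Fin N, hs i * spinVal (σ i))) := by
    rw [Fintype.expect_eq_sum_div_card, Real.log_div (sum_pos (fun _ _ => Real.exp_pos _)
      univ_nonempty).ne' (by positivity), logPartition]
    simp
  rw [h2, abs_le, Real.le_log_iff_exp_le (expect_exp_pos _),
    Real.log_le_iff_le_exp (expect_exp_pos _)]
  exact ⟨(avg_isP _).ge fun σ => Real.exp_le_exp.2 (abs_le.1 (h1 σ)).1,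
    (avg_isP _).le fun σ => Real.exp_le_exp.2 (abs_le.1 (h1 σ)).2⟩

theorem finUpper (ha : T.a ≤ T.P.r) (hp : 2 ≤ p) {α : ℝ} (hα : 0 < α) {ε : ℝ}
    (hK : Key p μ.ex ε) : finPressure p α μ ν N ≤ finTrial p α μ ν T + α * p * ε := by
  obtain ⟨n, rfl⟩ : ∃ n, p = n + 1 := ⟨p - 1, by omega⟩
  obtain ⟨B₁, hB₁⟩ : ∃ B, ∀ q : μ.Θ × (Fin (n + 1) → Bool), |μ.val q.1 q.2| ≤ B :=
    (Set.finite_range fun q : μ.Θ × (Fin (n + 1) → Bool) => |μ.val q.1 q.2|).bddAbove.imp
      fun _ h q => h ⟨q, rfl⟩
  obtain ⟨B₂, hB₂⟩ : ∃ B, ∀ x, |ν.val x| ≤ B :=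
    (Set.finite_range fun x => |ν.val x|).bddAbove.imp fun _ h q => h ⟨q, rfl⟩
  set B := max (max B₁ B₂) 0
  have hB : 0 ≤ B := le_max_right _ _
  have hμ : ∀ x s, |μ.val x s| ≤ B := fun x s =>
    (hB₁ (x, s)).trans ((le_max_left _ _).trans (le_max_left _ _))
  have hν : ∀ x, |ν.val x| ≤ B := fun x =>
    (hB₂ x).trans ((le_max_right _ _).trans (le_max_left _ _))
  have hN : (1 : ℝ) ≤ N := by exact_mod_cast Nat.pos_of_neZero N
  have hS : ∀ k : ℕ, |SS T μ ν k| ≤ Real.exp (B * (k + 1)) := fun k =>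
    (μ.exPi_abs fun a => ν.ex_abs fun x => TV_abs T fun s =>
      (siteV_abs (c := fun _ => B) (fun j s => hμ _ _) s).trans (by
        have := hν x
        simp only [Finset.sum_const, Finset.card_univ, Fintype.card_fin, nsmul_eq_mul]
        linarith)).trans (show B * (k + 1) ≤ _ by linarith [Real.add_one_le_exp (B * (k + 1))])
  have hF : ∀ a : ℕ, |FF μ ν N a - N * Real.log 2| ≤ Real.exp (B * N * (a + 1)) := by
    intro a
    have h1 := (pw_isP (K := Fin a) μ.w0 μ.w1).abs_sub_le
      (f := fun x => ν.exPi (Fin N) fun hs => 𝔼 idx : Fin a → Fin (n + 1) → Fin N,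
        logPartition N (fun k => μ.val (x k)) idx hs) (g := fun _ => N * Real.log 2)
      (c := B * a + B * N) fun x => by
        have h2 := (pw_isP (K := Fin N) ν.w0 ν.w1).abs_sub_le
          (f := fun y => 𝔼 idx : Fin a → Fin (n + 1) → Fin N,
            logPartition N (fun k => μ.val (x k)) idx fun i => ν.val (y i))
          (g := fun _ => N * Real.log 2) (c := B * a + B * N) fun y => by
            have h3 := (avg_isP (Fin a → Fin (n + 1) → Fin N)).abs_sub_le
              (g := fun _ => N * Real.log 2) fun idx =>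
              logPartition_abs N (fun k s => hμ (x k) s) (fun i => hν (y i)) idx
            rwa [(avg_isP _).const] at h3
        rwa [(pw_isP (K := Fin N) ν.w0 ν.w1).const] at h2
    rw [(pw_isP (K := Fin a) μ.w0 μ.w1).const] at h1
    refine le_trans h1 ?_
    have : (0 : ℝ) ≤ a := Nat.cast_nonneg a
    nlinarith [Real.add_one_le_exp (B * N * (a + 1)), mul_nonneg hB this]
  set lam := α * (n + 1 : ℕ) * N with hlam
  have hl : 0 ≤ lam := by positivity
  set e := μ.ex fun θ => TV T (Fin (n + 1)) θ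
  have s1 := hasSum_thin (q := 1 / (n + 1 : ℕ)) hl (by positivity) hF
  have s2 := (hasSum_thin (q := 1 / N) hl (by positivity) hS).mul_left (N : ℝ)
  have s3 := (hasSum_poi_mul lam).mul_right ((1 - 1 / (n + 1 : ℕ)) * e - ε)
  have h1 := hasSum_le (fun K => ?_) (s1.add s3) s2
  · rw [show 1 / ((n + 1 : ℕ) : ℝ) * lam = α * N by rw [hlam]; field_simp,
      show 1 / (N : ℝ) * lam = α * (n + 1 : ℕ) by rw [hlam]; field_simp] at h1
    have s4 := (summable_poi (lam := α * N) (by positivity) hF).hasSum.add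
      ((hasSum_poi (α * N)).mul_right (N * Real.log 2))
    simp only [← mul_add, sub_add_cancel] at s4
    have e1 : finPressure (n + 1) α μ ν N =
        1 / N * ∑' a, poissonWeight (α * N) a * FF μ ν N a := rfl
    have e2 : finTrial (n + 1) α μ ν T = Real.log 2 +
        ∑' k, poissonWeight (α * (n + 1 : ℕ)) k * SS T μ ν k - α * ((n + 1 : ℕ) - 1) * e := rfl
    rw [e1, e2, s4.tsum_eq, one_div, inv_mul_le_iff₀ (by linarith)]
    have e3 : lam * ((1 - 1 / (n + 1 : ℕ)) * e - ε) =
        N * (α * ((n + 1 : ℕ) - 1) * e) - N * (α * (n + 1 : ℕ) * ε) := by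
      rw [hlam]; field_simp
    rw [e3] at h1
    linarith
  · have h2 := hybrid T μ ν N ha hK (Nat.succ_pos n) (univ : Finset (Fin K)) ∅ (disjoint_empty_left _)
    simp only [mem_univ, if_true, G_site T ν N ha, card_univ, Fintype.card_fin, card_empty,
      zero_add, Nat.cast_zero, sub_zero] at h2
    have h3 := mul_le_mul_of_nonneg_left h2 (poi_nonneg hl K)
    show _ + _ ≤ _
    linarith

end Crest.Agent.R141.Up

namespace Crest.Agent.R141

theorem upperMeas : UpperMeasStmt := by
  intro p hp α hα μ ν ε hK r m X hm hX N hN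
  haveI : NeZero N := ⟨hN.ne'⟩
  refine le_of_forall_pos_le_add fun δ hδ => ?_
  obtain ⟨T, ha, hT⟩ := approx' p hp α hα μ ν r m X hm hX δ hδ
  have := Up.finUpper T μ ν N ha hp hα hK
  linarith [(abs_le.1 hT).1]

end Crest.Agent.R141
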