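import Crest.Agent.R141.Decor
import Crest.Agent.R141.Comb

/-! Row 141: variance of empirical tree overlaps under the replica laws. -/

set_option autoImplicit false
open Finset Function
open scoped BigOperators

namespace Crest.Agent.R141

open BT

namespace BT

/-- shift every level down by the size of the subtree -/
def sh : BT → BT
  | leaf => leaf
  | node k l r => node (k - (l.size + r.size)) l.sh r.sh

def shL : (A : BT) → A.sh.Lf → A.Lf
  | leaf => id
  | node _ l r => Sum.map l.shL r.shL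

lemma size_sh (A : BT) : A.sh.size = A.size := by
  induction A with
  | leaf => rfl
  | node k l r ih1 ih2 => simp only [sh, size, ih1, ih2]

lemma SW_sh {R k : ℕ} {A : BT} (h : WF R k A) (hk : A.size < k) : SW R A.sh := by
  induction A generalizing k with
  | leaf => trivial
  | node k' l r ih1 ih2 =>
    obtain ⟨h1, h2, h3, h4⟩ := h
    simp only [size] at hk
    have a1 := l.size_pos
    have a2 := r.size_pos
    refine ⟨by omega, by omega, ?_, ?_, ih1 h3 (by omega), ih2 h4 (by omega)⟩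
    · cases l with
      | leaf => simp only [sh, root]; omega
      | node k₁ l₁ r₁ => have := h3.1; simp only [sh, root, size] at *; omega
    · cases r with
      | leaf => simp only [sh, root]; omega
      | node k₁ l₁ r₁ => have := h4.1; simp only [sh, root, size] at *; omega

end BT

/-- variance -/
def Vr {A : Type*} (Λ : (A → ℝ) →ₗ[ℝ] ℝ) (f : A → ℝ) : ℝ := Λ (fun x => f x ^ 2) - Λ f ^ 2

lemma Vr_le_one {A : Type*} {Λ : (A → ℝ) →ₗ[ℝ] ℝ} (h : IsP Λ) {f : A → ℝ} (hf : ∀ x, |f x| ≤ 1) :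
    Vr Λ f ≤ 1 := by
  have := h.le (f := fun x => f x ^ 2) (c := 1) fun x => by
    rw [← sq_abs]; exact pow_le_one₀ (abs_nonneg _) (hf x)
  unfold Vr; nlinarith [sq_nonneg (Λ f)]

lemma abs_sq_sub_sq {a b : ℝ} (ha : |a| ≤ 1) (hb : |b| ≤ 1) : |a ^ 2 - b ^ 2| ≤ 2 * |a - b| := by
  have := abs_mul_sub_mul (a := a) (b := a) (a' := b) (b' := b) ha hb
  simp only [sq]; linarith

lemma Vr_le_add {A : Type*} {Λ : (A → ℝ) →ₗ[ℝ] ℝ} (h : IsP Λ) {f g d : A → ℝ}
    (hf : ∀ x, |f x| ≤ 1) (hg : ∀ x, |g x| ≤ 1) (hd : ∀ x, |f x - g x| ≤ d x) :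
    Vr Λ f ≤ Vr Λ g + 4 * Λ d := by
  have a1 : Λ (fun x => f x ^ 2) ≤ Λ fun x => g x ^ 2 + 2 * d x := h.mono fun x => by
    linarith [(abs_le.1 (abs_sq_sub_sq (hf x) (hg x))).2, hd x]
  have a2 : |Λ f - Λ g| ≤ Λ d := by
    rw [← lin_sub]; exact (h.abs_le _).trans (h.mono hd)
  have a3 := (abs_le.1 (abs_sq_sub_sq (h.abs_le_of hf) (h.abs_le_of hg))).1
  rw [lin_add, lin_mul] at a1
  unfold Vr; linarith

lemma abs_expect_le {I : Type} [Fintype I] (f : I → ℝ) : |𝔼 i, f i| ≤ 𝔼 i, |f i| := by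
  cases isEmpty_or_nonempty I
  · simp
  · exact (avg_isP I).abs_le f

lemma abs_expect_w {I : Type} [Fintype I] [Nonempty I] {w f : I → ℝ} (hw : ∀ i, |w i| ≤ 1)
    (hf : ∀ i, |f i| ≤ 1) : |𝔼 i, w i * f i| ≤ 1 :=
  (avg_isP I).abs_le_of (f := fun i => w i * f i) fun i => by
    rw [abs_mul]; exact mul_le_one₀ (hw i) (abs_nonneg _) (hf i)

section
variable {S : Type} [Fintype S] [Nonempty S] (P : Par) (H : Path S → ℝ) (ω₀ : Path S)
  {I : Type} [Fintype I] [Nonempty I]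

/-- averaged `L¹` norm -/
noncomputable def nrm (F : I → Path S → ℝ) : ℝ := E P H 0 ω₀ fun ω => 𝔼 i, |F i ω|

omit [Nonempty I] in
lemma nrm_le_add {F G G' : I → Path S → ℝ} (h : ∀ i ω, |F i ω| ≤ |G i ω| + |G' i ω|) :
    nrm P H ω₀ F ≤ nrm P H ω₀ G + nrm P H ω₀ G' := by
  rw [nrm, nrm, nrm, ← lin_add]
  refine (E_isP P H 0 ω₀).mono fun ω => ?_
  rw [← expect_add_distrib]
  exact expect_le_expect fun i _ => h i ω

omit [Nonempty I] in
lemma nrm_E (t : ℕ) (F : I → Path S → ℝ) :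
    nrm P H ω₀ (fun i ω => E P H t ω (F i)) ≤ nrm P H ω₀ F := by
  rw [nrm, nrm, ← E_E P H (Nat.zero_le t) fun ω => 𝔼 i, |F i ω|]
  refine (E_isP P H 0 ω₀).mono fun ω => ?_
  rw [lin_expect]
  exact expect_le_expect fun i _ => (E_isP P H t ω).abs_le _

/-- oscillation over a window of levels -/
noncomputable def os (s₀ k : ℕ) (F : I → Path S → ℝ) : ℝ :=
  nrm P H ω₀ fun i ω => E P H k ω (F i) - E P H (k - s₀) ω (F i)

omit [Nonempty I] in
lemma nrm_mid {s₀ k t : ℕ} (h1 : k - s₀ ≤ t) (h2 : t ≤ k) (F : I → Path S → ℝ) :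
    nrm P H ω₀ (fun i ω => E P H k ω (F i) - E P H t ω (F i)) ≤ 2 * os P H ω₀ s₀ k F := by
  have := nrm_E P H ω₀ t fun i ω => E P H k ω (F i) - E P H (k - s₀) ω (F i)
  rw [two_mul]
  refine le_trans (nrm_le_add P H ω₀ fun i ω => ?_) (add_le_add le_rfl this)
  rw [lin_sub, E_E P H h2, E_of_meas P H ((E_meas P H _ _).mono h1), abs_sub_comm (E P H t ω _)]
  exact abs_sub_le _ _ _

/-- squared oscillation -/
noncomputable def sqo (s₀ k : ℕ) (F : I → Path S → ℝ) : ℝ :=
  E P H 0 ω₀ fun ω => 𝔼 i, (E P H k ω (F i) - E P H (k - s₀) ω (F i)) ^ 2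

omit [Nonempty I] in
lemma sqo_nonneg (s₀ k : ℕ) (F : I → Path S → ℝ) : 0 ≤ sqo P H ω₀ s₀ k F :=
  (E_isP P H 0 ω₀).nonneg _ fun _ => expect_nonneg fun _ _ => sq_nonneg _

lemma abs_le_theta (x : ℝ) {θ : ℝ} (hθ : 0 < θ) : |x| ≤ θ + θ⁻¹ * x ^ 2 := by
  rw [← sq_abs, inv_mul_eq_div, add_div' _ _ _ hθ.ne', le_div_iff₀ hθ]
  nlinarith [sq_nonneg (|x| - θ), abs_nonneg x]

lemma os_le (s₀ k : ℕ) (F : I → Path S → ℝ) {θ : ℝ} (hθ : 0 < θ) :
    os P H ω₀ s₀ k F ≤ θ + θ⁻¹ * sqo P H ω₀ s₀ k F := by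
  rw [os, nrm, sqo, ← lin_mul, ← (E_isP P H 0 ω₀).const θ, ← lin_add, (E_isP P H 0 ω₀).const θ]
  refine (E_isP P H 0 ω₀).mono fun ω => ?_
  rw [mul_expect, ← Fintype.expect_const (ι := I) θ, ← expect_add_distrib, Fintype.expect_const]
  exact expect_le_expect fun i _ => abs_le_theta _ hθ

lemma E_sq_sub (f : Path S → ℝ) {a t k : ℕ} (h1 : a ≤ t) (h2 : t ≤ k) (ω : Path S) :
    E P H a ω (fun x => (E P H k x f - E P H t x f) ^ 2) =
      E P H a ω (fun x => E P H k x f ^ 2) - E P H a ω fun x => E P H t x f ^ 2 := by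
  have e := E_mul_E P H h1 (E_meas P H t f) (fun x => E P H k x f) ω
  simp only [E_E P H h2] at e
  have e2 : (fun x => (E P H k x f - E P H t x f) ^ 2) = fun x => E P H k x f ^ 2 -
      2 * (E P H t x f * E P H k x f) + E P H t x f * E P H t x f := by funext x; ring
  rw [e2, lin_add, lin_sub, lin_mul, ← e]
  simp only [sq]; ring

lemma sum_window {φ : ℕ → ℝ} (h0 : ∀ k, 0 ≤ φ k) (h1 : ∀ k, φ k ≤ 1) (s₀ n : ℕ) :
    ∑ k ∈ range n, (φ k - φ (k - s₀)) ≤ s₀ := by
  induction s₀ with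
  | zero => simp
  | succ s ih =>
    have e := sum_range_sub (fun k => φ (k - (s + 1))) n
    simp only [Nat.add_sub_add_right] at e
    have e2 : ∑ k ∈ range n, (φ k - φ (k - (s + 1))) = ∑ k ∈ range n, (φ k - φ (k - s)) +
        ∑ k ∈ range n, (φ (k - s) - φ (k - (s + 1))) := by
      rw [← sum_add_distrib]; exact sum_congr rfl fun k _ => by ring
    rw [e2, e]
    push_cast
    linarith [h0 (0 - s), h1 (n - (s + 1))]

lemma sum_sqo (s₀ n : ℕ) {F : I → Path S → ℝ} (hF : ∀ i ω, |F i ω| ≤ 1) :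
    ∑ k ∈ range n, sqo P H ω₀ s₀ k F ≤ s₀ := by
  simp only [sqo, lin_expect, E_sq_sub P H _ (Nat.zero_le _) (Nat.sub_le _ _), ← expect_sum_comm]
  refine expect_le univ_nonempty fun i _ => sum_window (φ := fun k => E P H 0 ω₀ fun x =>
    E P H k x (F i) ^ 2) (fun k => (E_isP P H 0 ω₀).nonneg _ fun _ => sq_nonneg _)
    (fun k => (E_isP P H 0 ω₀).le fun x => ?_) s₀ n
  rw [← sq_abs]
  exact pow_le_one₀ (abs_nonneg _) ((E_isP P H k x).abs_le_of (hF i))

variable (y : I → Bool → Path S → ℝ)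

/-- tree moment of the site `i` -/
noncomputable def mm (A : BT) (x : A.Lf → Bool) (i : I) : Path S → ℝ :=
  mom P H A fun l => y i (x l)

omit [Nonempty S] [Fintype I] [Nonempty I] in
lemma mm_node (k : ℕ) (l r : BT) (x : (node k l r).Lf → Bool) (i : I) (ω : Path S) :
    mm P H y (node k l r) x i ω = E P H k ω (mm P H y l (fun j => x (Sum.inl j)) i) *
      E P H k ω (mm P H y r (fun j => x (Sum.inr j)) i) := rfl

omit [Fintype I] [Nonempty I] in
lemma E_mm_node (k : ℕ) (l r : BT) (x : (node k l r).Lf → Bool) (i : I) (ω : Path S) :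
    E P H k ω (mm P H y (node k l r) x i) = mm P H y (node k l r) x i ω :=
  E_of_meas P H (mom_meas P H k l r _) ω

/-- weighted empirical overlap of the replicas -/
noncomputable def YY (A : BT) (x : A.Lf → Bool) (w : I → ℝ) (ξ : A.Lf → Path S) : ℝ :=
  𝔼 i, w i * ∏ l, y i (x l) (ξ l)

variable {y}

omit [Fintype I] [Nonempty I] in
lemma mm_abs (hy : ∀ i b ω, |y i b ω| ≤ 1) (A : BT) (x : A.Lf → Bool) (i : I) (ω : Path S) :
    |mm P H y A x i ω| ≤ 1 := by
  simpa [mm] using mom_abs P H A (fun l => y i (x l)) (c := 1) (fun l => hy i _) ω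

omit [Fintype I] [Nonempty I] in
lemma E_mm_abs (hy : ∀ i b ω, |y i b ω| ≤ 1) (A : BT) (x : A.Lf → Bool) (i : I) (t : ℕ)
    (ω : Path S) : |E P H t ω (mm P H y A x i)| ≤ 1 :=
  (E_isP P H t ω).abs_le_of (mm_abs P H hy A x i)

omit [Nonempty I] in
lemma os_tie (hy : ∀ i b ω, |y i b ω| ≤ 1) (s₀ k : ℕ) (l r : BT) (x : (node k l r).Lf → Bool) :
    os P H ω₀ s₀ k (mm P H y (node k l r) x) ≤
      2 * (os P H ω₀ s₀ k (mm P H y l fun j => x (Sum.inl j)) +
        os P H ω₀ s₀ k (mm P H y r fun j => x (Sum.inr j))) := by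
  obtain ⟨D, hD⟩ : ∃ D : I → Path S → ℝ, D = fun i ω => mm P H y (node k l r) x i ω -
    E P H (k - s₀) ω (mm P H y l (fun j => x (Sum.inl j)) i) *
      E P H (k - s₀) ω (mm P H y r (fun j => x (Sum.inr j)) i) := ⟨_, rfl⟩
  have a1 : nrm P H ω₀ D ≤ os P H ω₀ s₀ k (mm P H y l fun j => x (Sum.inl j)) +
      os P H ω₀ s₀ k (mm P H y r fun j => x (Sum.inr j)) := nrm_le_add P H ω₀ fun i ω => by
    rw [hD]
    exact abs_mul_sub_mul (E_mm_abs P H hy _ _ _ _ _) (E_mm_abs P H hy _ _ _ _ _)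
  have a2 := nrm_E P H ω₀ (k - s₀) D
  refine le_trans (nrm_le_add P H ω₀ (G := D) (G' := fun i ω => E P H (k - s₀) ω (D i))
    fun i ω => ?_) (by linarith)
  simp only [hD, E_mm_node, lin_sub]
  rw [E_of_meas P H (Meas.map₂ (· * ·) (E_meas P H _ _) (E_meas P H _ _)),
    abs_sub_comm (E P H (k - s₀) ω (mm P H y (node k l r) x i))]
  exact abs_sub_le _ _ _

/-- the part of `FF` below the root -/
noncomputable def FO (g : ℕ → BT → ℝ) : BT → ℝ
  | .leaf => 0
  | .node k l r => FF g k l + FF g k r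

lemma FO_le {g : ℕ → BT → ℝ} (hg : ∀ a A, 0 ≤ g a A) (a : ℕ) (A : BT) : FO g A ≤ FF g a A := by
  cases A with
  | leaf => exact hg _ _
  | node k l r =>
    simp only [FO, FF, add_assoc]
    refine le_add_of_nonneg_left ?_
    split_ifs
    · exact le_rfl
    · exact hg _ _

lemma FO_nonneg {g : ℕ → BT → ℝ} (hg : ∀ a A, 0 ≤ g a A) (A : BT) : 0 ≤ FO g A := by
  cases A with
  | leaf => exact le_rfl
  | node k l r => exact add_nonneg (FF_nonneg hg _ _) (FF_nonneg hg _ _)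

variable {g : ℕ → BT → ℝ} {s : ℕ}

omit [Nonempty I] in
lemma os_FF (hy : ∀ i b ω, |y i b ω| ≤ 1) (hg : ∀ a A, 0 ≤ g a A)
    (h1 : ∀ k A x, A.size ≤ s → os P H ω₀ (s + 1) k (mm P H y A x) ≤ g k A) (k : ℕ) (A : BT)
    (x : A.Lf → Bool) (hA : A.size ≤ s) :
    os P H ω₀ (s + 1) k (mm P H y A x) ≤ 2 ^ A.size * FF g k A := by
  induction A with
  | leaf => exact (h1 k _ x hA).trans (le_mul_of_one_le_left (hg _ _) (one_le_pow₀ one_le_two))
  | node k' l r ih1 ih2 =>
    have b1 := FF_nonneg hg k' l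
    have b2 := FF_nonneg hg k' r
    by_cases hk : k' = k
    · subst hk
      simp only [size] at hA
      refine (os_tie P H ω₀ hy _ _ l r x).trans ?_
      have a1 := ih1 (fun j => x (Sum.inl j)) (by omega)
      have a2 := ih2 (fun j => x (Sum.inr j)) (by omega)
      have a3 : (2 : ℝ) ^ (l.size + 1) ≤ 2 ^ (l.size + r.size) :=
        pow_le_pow_right₀ one_le_two (by have := r.size_pos; omega)
      have a4 : (2 : ℝ) ^ (r.size + 1) ≤ 2 ^ (l.size + r.size) :=
        pow_le_pow_right₀ one_le_two (by have := l.size_pos; omega)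
      simp only [FF, size, if_true, zero_add]
      rw [pow_succ] at a3 a4
      nlinarith [mul_le_mul_of_nonneg_right a3 b1, mul_le_mul_of_nonneg_right a4 b2]
    · refine (h1 k _ x hA).trans (le_trans ?_ (le_mul_of_one_le_left (FF_nonneg hg _ _)
        (one_le_pow₀ one_le_two)))
      simp only [FF, if_neg hk]
      linarith

omit [Nonempty I] in
lemma nrm_sh (hy : ∀ i b ω, |y i b ω| ≤ 1) (hg : ∀ a A, 0 ≤ g a A)
    (h1 : ∀ k A x, A.size ≤ s → os P H ω₀ (s + 1) k (mm P H y A x) ≤ 2 ^ s * FF g k A) (A : BT)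
    (x : A.Lf → Bool) (hA : A.size ≤ s) :
    nrm P H ω₀ (fun i ω => mm P H y A x i ω - mm P H y A.sh (fun j => x (A.shL j)) i ω) ≤
      2 * 2 ^ s * A.size * FO g A := by
  induction A with
  | leaf => simp [nrm, FO, mm, mom, sh, shL, lin_zero]
  | node k l r ih1 ih2 =>
    simp only [size] at hA
    have key : ∀ (c : BT) (z : c.Lf → Bool), c.size + 1 ≤ l.size + r.size →
        nrm P H ω₀ (fun i ω => mm P H y c z i ω - mm P H y c.sh (fun j => z (c.shL j)) i ω) ≤
          2 * 2 ^ s * c.size * FO g c →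
        nrm P H ω₀ (fun i ω => E P H k ω (mm P H y c z i) - E P H (k - (l.size + r.size)) ω
          (mm P H y c.sh (fun j => z (c.shL j)) i)) ≤
          2 * 2 ^ s * (l.size + r.size : ℕ) * FF g k c := by
      intro c z hc ih
      have a1 := nrm_mid P H ω₀ (s₀ := s + 1) (k := k) (t := k - (l.size + r.size)) (by omega)
        (Nat.sub_le _ _) (mm P H y c z)
      have a2 := (nrm_E P H ω₀ (k - (l.size + r.size)) _).trans ih
      have a3 := h1 k c z (by omega)
      refine le_trans (nrm_le_add P H ω₀ fun i ω => ?_) ((add_le_add a1 a2).trans ?_)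
      · rw [lin_sub]; exact abs_sub_le _ _ _
      · have b1 := FO_le hg k c
        have b2 := FF_nonneg hg k c
        have b3 : (c.size + 1 : ℝ) ≤ (l.size + r.size : ℕ) := by exact_mod_cast hc
        calc _ ≤ 2 * (2 ^ s * FF g k c) + 2 * 2 ^ s * c.size * FF g k c := by gcongr
          _ = 2 * 2 ^ s * (c.size + 1) * FF g k c := by ring
          _ ≤ _ := by gcongr
    have a1 := key l (fun j => x (Sum.inl j)) (by have := r.size_pos; omega) (ih1 _ (by omega))
    have a2 := key r (fun j => x (Sum.inr j)) (by have := l.size_pos; omega) (ih2 _ (by omega))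
    refine le_trans (nrm_le_add P H ω₀ fun i ω => ?_) ((add_le_add a1 a2).trans_eq ?_)
    · exact abs_mul_sub_mul (E_mm_abs P H hy _ _ _ _ _) (E_mm_abs P H hy _ _ _ _ _)
    · simp only [FO, size]; ring

omit [Nonempty I] in
lemma nrm_sh' (hy : ∀ i b ω, |y i b ω| ≤ 1) (hg : ∀ a A, 0 ≤ g a A)
    (h1 : ∀ k A x, A.size ≤ s → os P H ω₀ (s + 1) k (mm P H y A x) ≤ 2 ^ s * FF g k A) (A : BT)
    (x : A.Lf → Bool) (hA : A.size ≤ s) :
    nrm P H ω₀ (fun i ω => mm P H y A x i ω - E P H (A.sh.root P.r - 1) ω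
      (mm P H y A.sh (fun j => x (A.shL j)) i)) ≤ 2 * 2 ^ s * (s + 1) * FO g A := by
  have a0 := nrm_sh P H ω₀ hy hg h1 A x hA
  cases A with
  | leaf =>
    have e : (sh leaf).root P.r - 1 = P.r + 1 := rfl
    simp only [e, E_top P H (Nat.lt_succ_self _)]
    simpa [FO] using a0
  | node k l r =>
    have a1 := nrm_mid P H ω₀ (s₀ := s + 1) (k := k) (t := (node k l r).sh.root P.r - 1)
      (by simp only [sh, root, size] at *; omega) (by simp only [sh, root]; omega)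
      (mm P H y (node k l r) x)
    have a2 := (nrm_E P H ω₀ ((node k l r).sh.root P.r - 1) _).trans a0
    have a3 := h1 k _ x hA
    refine le_trans (nrm_le_add P H ω₀ fun i ω => ?_) ((add_le_add a1 a2).trans ?_)
    · rw [lin_sub, E_mm_node]; exact abs_sub_le _ _ _
    · have e : FF g k (node k l r) = FO g (node k l r) := by simp [FF, FO]
      rw [e] at a3
      have b2 := FO_nonneg hg (node k l r)
      have b3 : ((node k l r).size : ℝ) ≤ s := by exact_mod_cast hA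
      calc _ ≤ 2 * (2 ^ s * FO g (node k l r)) + 2 * 2 ^ s * s * FO g (node k l r) := by gcongr
        _ = _ := by ring

omit [Nonempty I] in
lemma var_node (hy : ∀ i b ω, |y i b ω| ≤ 1) (a k : ℕ) (l r : BT) (x : (node k l r).Lf → Bool)
    {V₁ V₂ : Path S → ℝ}
    (h1 : ∀ w : I → ℝ, (∀ i, |w i| ≤ 1) → ∀ ω,
      Vr (nuE P H k l ω) (YY y l (fun j => x (Sum.inl j)) w) ≤ V₁ ω)
    (h2 : ∀ w : I → ℝ, (∀ i, |w i| ≤ 1) → ∀ ω,
      Vr (nuE P H k r ω) (YY y r (fun j => x (Sum.inr j)) w) ≤ V₂ ω)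
    {w : I → ℝ} (hw : ∀ i, |w i| ≤ 1) (ω : Path S) :
    Vr (nuE P H a (node k l r) ω) (YY y (node k l r) x w) ≤
      Vr (E P H a ω) (fun z => 𝔼 i, w i * mm P H y (node k l r) x i z) +
        E P H a ω fun z => V₁ z + V₂ z := by
  have e1 : ∀ ξ ζ, YY y (node k l r) x w (Sum.elim ξ ζ) = YY y r (fun j => x (Sum.inr j))
      (fun i => w i * ∏ j, y i (x (Sum.inl j)) (ξ j)) ζ := fun ξ ζ => by
    simp only [YY, prod_Lf_node, Sum.elim_inl, Sum.elim_inr, mul_assoc]
  have e2 : ∀ (c : BT) (z : c.Lf → Bool) (w : I → ℝ) (ω : Path S), nuE P H k c ω (YY y c z w) =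
      𝔼 i, w i * E P H k ω (mm P H y c z i) := fun c z w ω => by
    unfold YY
    simp only [lin_expect, lin_mul]
    exact expect_congr rfl fun i _ => by rw [nuE_prod P H k c fun l => y i (z l)]; rfl
  have e3 : ∀ ω ξ, nuE P H k r ω (YY y r (fun j => x (Sum.inr j))
      (fun i => w i * ∏ j, y i (x (Sum.inl j)) (ξ j))) = YY y l (fun j => x (Sum.inl j))
      (fun i => w i * E P H k ω (mm P H y r (fun j => x (Sum.inr j)) i)) ξ := fun ω ξ => by
    rw [e2, YY]
    exact expect_congr rfl fun i _ => by ring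
  have e4 : ∀ ω, nuE P H k l ω (YY y l (fun j => x (Sum.inl j))
      (fun i => w i * E P H k ω (mm P H y r (fun j => x (Sum.inr j)) i))) =
      𝔼 i, w i * mm P H y (node k l r) x i ω := fun ω => by
    rw [e2]
    exact expect_congr rfl fun i _ => by rw [mm_node]; ring
  have hw1 : ∀ (ξ : l.Lf → Path S) i, |w i * ∏ j, y i (x (Sum.inl j)) (ξ j)| ≤ 1 := fun ξ i => by
    rw [abs_mul, abs_prod]
    exact mul_le_one₀ (hw i) (prod_nonneg fun _ _ => abs_nonneg _)
      (prod_le_one (fun _ _ => abs_nonneg _) fun _ _ => hy _ _ _)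
  have hw2 : ∀ ω i, |w i * E P H k ω (mm P H y r (fun j => x (Sum.inr j)) i)| ≤ 1 := fun ω i => by
    rw [abs_mul]
    exact mul_le_one₀ (hw i) (abs_nonneg _) (E_mm_abs P H hy _ _ _ _ _)
  simp only [Vr, nuE_apply P H a, nu_node, e1]
  simp only [e3]
  have e5 : ∀ ω, nuE P H k l ω (fun ξ => YY y l (fun j => x (Sum.inl j))
      (fun i => w i * E P H k ω (mm P H y r (fun j => x (Sum.inr j)) i)) ξ) =
      𝔼 i, w i * mm P H y (node k l r) x i ω := e4
  simp only [e5]
  rw [sub_add_eq_add_sub, ← lin_add]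
  refine sub_le_sub_right ((E_isP P H a ω).mono fun z => ?_) _
  have a1 := h1 _ (hw2 z) z
  rw [Vr, e4] at a1
  have a2 := (nuE_isP P H k l z).mono (f := fun ξ => nuE P H k r z fun ζ =>
      YY y r (fun j => x (Sum.inr j)) (fun i => w i * ∏ j, y i (x (Sum.inl j)) (ξ j)) ζ ^ 2)
    (g := fun ξ => YY y l (fun j => x (Sum.inl j))
      (fun i => w i * E P H k z (mm P H y r (fun j => x (Sum.inr j)) i)) ξ ^ 2 + V₂ z) fun ξ => by
      have := h2 _ (hw1 ξ) z
      rw [Vr, e3] at this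
      linarith
  rw [lin_add, (nuE_isP P H k l z).const] at a2
  linarith

lemma var_FF (hy : ∀ i b ω, |y i b ω| ≤ 1) (hg : ∀ a A, 0 ≤ g a A)
    (h1 : ∀ k A x, A.size ≤ s → os P H ω₀ (s + 1) k (mm P H y A x) ≤ g k A)
    (h2 : ∀ a (A : BT) (x : A.Lf → Bool), A.size ≤ s → WF P.r a A → a ≤ P.r →
      a + (s + 1) < A.root P.r →
      ∃ U : Path S → ℝ, (∀ w : I → ℝ, (∀ i, |w i| ≤ 1) → ∀ ω, Vr (E P H a ω) (fun z => 𝔼 i, w i *
        E P H (A.sh.root P.r - 1) z (mm P H y A.sh (fun j => x (A.shL j)) i)) ≤ U ω) ∧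
        E P H 0 ω₀ U ≤ g a A)
    (h3 : ∀ a A, a < A.root P.r → A.root P.r ≤ a + (s + 1) → 1 ≤ g a A)
    (A : BT) (a : ℕ) (x : A.Lf → Bool) (hA : A.size ≤ s) (hW : WF P.r a A) (ha : a ≤ P.r) :
    ∃ V : Path S → ℝ, (∀ w : I → ℝ, (∀ i, |w i| ≤ 1) → ∀ ω, Vr (nuE P H a A ω) (YY y A x w) ≤ V ω) ∧
      E P H 0 ω₀ V ≤ 8 * 2 ^ s * (s + 1) * A.size * FF g a A := by
  obtain ⟨K, hK⟩ : ∃ K : ℝ, K = 8 * 2 ^ s * (s + 1) := ⟨_, rfl⟩
  have hK1 : 1 ≤ K := by
    have : (1 : ℝ) ≤ 2 ^ s := one_le_pow₀ one_le_two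
    have : (0 : ℝ) ≤ s := Nat.cast_nonneg s
    rw [hK]; nlinarith
  have h1' : ∀ k A x, A.size ≤ s → os P H ω₀ (s + 1) k (mm P H y A x) ≤ 2 ^ s * FF g k A :=
    fun k A x hA => (os_FF P H ω₀ hy hg h1 k A x hA).trans (mul_le_mul_of_nonneg_right
      (pow_le_pow_right₀ one_le_two hA) (FF_nonneg hg _ _))
  have hU : ∀ a A x, A.size ≤ s → WF P.r a A → a ≤ P.r → a < A.root P.r →
      ∃ U : Path S → ℝ, (∀ w : I → ℝ, (∀ i, |w i| ≤ 1) → ∀ ω, Vr (E P H a ω) (fun z => 𝔼 i, w i *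
        mm P H y A x i z) ≤ U ω) ∧ E P H 0 ω₀ U ≤ g a A + K * FO g A := by
    intro a A x hA hW ha hr
    have b0 := FO_nonneg hg A
    by_cases hc : A.root P.r ≤ a + (s + 1)
    · refine ⟨fun _ => 1, fun w hw ω => Vr_le_one (E_isP P H a ω) fun z =>
        abs_expect_w hw fun i => mm_abs P H hy _ _ _ _, ?_⟩
      rw [(E_isP P H 0 ω₀).one]
      exact le_add_of_le_of_nonneg (h3 a A hr hc) (by positivity)
    · obtain ⟨U, hU1, hU2⟩ := h2 a A x hA hW ha (not_le.1 hc)
      refine ⟨fun ω => U ω + 4 * E P H a ω fun z => 𝔼 i, |mm P H y A x i z -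
        E P H (A.sh.root P.r - 1) z (mm P H y A.sh (fun j => x (A.shL j)) i)|,
        fun w hw ω => le_trans (Vr_le_add (E_isP P H a ω) (fun z =>
          abs_expect_w hw fun i => mm_abs P H hy _ _ _ _) (fun z =>
          abs_expect_w hw fun i => E_mm_abs P H hy _ _ _ _ _) fun z => ?_)
          (add_le_add (hU1 w hw ω) le_rfl), ?_⟩
      · rw [← expect_sub_distrib]
        refine (abs_expect_le _).trans (expect_le_expect fun i _ => ?_)
        rw [← mul_sub, abs_mul]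
        exact mul_le_of_le_one_left (abs_nonneg _) (hw i)
      · have := nrm_sh' P H ω₀ hy hg h1' A x hA
        rw [lin_add, lin_mul, E_E P H (Nat.zero_le a), hK]
        rw [nrm] at this
        linarith
  rw [← hK]
  induction A generalizing a with
  | leaf =>
    obtain ⟨U, hU1, hU2⟩ := hU a leaf x hA hW ha (by simp only [root]; omega)
    refine ⟨U, fun w hw ω => le_of_eq_of_le ?_ (hU1 w hw ω), hU2.trans ?_⟩
    · simp only [Vr, nuE_apply, nu_leaf, YY, prod_Lf_leaf]; rfl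
    · have := hg a leaf
      simp only [FO, FF, size]
      push_cast
      nlinarith
  | node k l r ih1 ih2 =>
    obtain ⟨w1, w2, w3, w4⟩ := hW
    have hA' := hA
    simp only [size] at hA'
    obtain ⟨V₁, a1, a2⟩ := ih1 k (fun j => x (Sum.inl j)) (by omega) w3 w2
    obtain ⟨V₂, b1, b2⟩ := ih2 k (fun j => x (Sum.inr j)) (by omega) w4 w2
    have c1 := FF_nonneg hg k l
    have c2 := FF_nonneg hg k r
    have c3 : (1 : ℝ) ≤ l.size := by exact_mod_cast l.size_pos
    have c4 : (1 : ℝ) ≤ r.size := by exact_mod_cast r.size_pos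
    have c5 : K * FF g k l ≤ K * r.size * FF g k l := by gcongr; nlinarith
    have c6 : K * FF g k r ≤ K * l.size * FF g k r := by gcongr; nlinarith
    obtain ⟨U, hU1, hU2⟩ : ∃ U : Path S → ℝ, (∀ w : I → ℝ, (∀ i, |w i| ≤ 1) → ∀ ω,
        Vr (E P H a ω) (fun z => 𝔼 i, w i * mm P H y (node k l r) x i z) ≤ U ω) ∧
        E P H 0 ω₀ U ≤ (if k = a then 0 else g a (node k l r)) + K * FO g (node k l r) := by
      split_ifs with hk
      · subst hk
        refine ⟨fun _ => 0, fun w hw ω => le_of_eq ?_, ?_⟩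
        · have hm : Meas P k fun z => 𝔼 i, w i * mm P H y (node k l r) x i z := by
            intro u h1 h2 ω s
            simp only [mm, mom_meas P H k l r _ u h1 h2]
          rw [Vr, E_of_meas P H hm, E_of_meas P H (hm.map (· ^ 2)), sub_self]
        · have := FO_nonneg hg (node k l r)
          rw [lin_zero]; positivity
      · exact hU a _ x hA ⟨w1, w2, w3, w4⟩ ha (by simp only [root]; omega)
    refine ⟨fun ω => U ω + E P H a ω fun z => V₁ z + V₂ z, fun w hw ω =>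
      (var_node P H hy a k l r x a1 b1 hw ω).trans (add_le_add (hU1 w hw ω) le_rfl), ?_⟩
    rw [lin_add, E_E P H (Nat.zero_le a), lin_add]
    simp only [FO, FF, size] at hU2 ⊢
    have c7 : 0 ≤ if k = a then 0 else g a (node k l r) := by
      split_ifs
      · exact le_rfl
      · exact hg _ _
    generalize (if k = a then 0 else g a (node k l r)) = u at *
    have c8 : u ≤ K * (l.size + r.size) * u := le_mul_of_one_le_left c7 (by nlinarith)
    push_cast
    nlinarith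

end

end Crest.Agent.R141
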