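import Crest.Agent.R141.Var
import Crest.Agent.R141.Stmts3

/-! Row 141: the perturbed system has small overlap variances at typical levels. -/

set_option autoImplicit false
open Finset Function
open scoped BigOperators

namespace Crest.Agent.R141

open BT

section
variable {S : Type} [Fintype S] [Nonempty S] (P : Par) (H : Path S → ℝ) (ω₀ : Path S)
  {I : Type} [Fintype I] [Nonempty I] (y : I → Bool → Path S → ℝ)

/-- decorrelation of the moments of one strict tree -/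
def Dec1 (β ε : ℝ) (B : BT) (x : B.Lf → Bool) : Prop :=
  ∃ Inc : ℕ → Path S → ℝ, (∀ a ω, 0 ≤ Inc a ω) ∧
    ∑ a ∈ range (P.r + 1), E P H 0 ω₀ (Inc a) ≤ β ∧
    ∀ a ≤ P.r, a ≤ B.root P.r - 1 → ∀ w : I → ℝ, (∀ i, |w i| ≤ 1) → ∀ ω,
      Vr (E P H a ω) (fun z => 𝔼 i, w i * E P H (B.root P.r - 1) z (mm P H y B x i)) ≤ Inc a ω + ε

end

lemma sum_pat_le {A : BT} {s : ℕ} (hA : A.size ≤ s) {f : (A.Lf → Bool) → ℝ} {c : ℝ} (hc : 0 ≤ c)
    (hf : ∀ x, f x ≤ c) : ∑ x, f x ≤ 2 ^ s * c := by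
  refine (sum_le_card_nsmul _ _ c fun x _ => hf x).trans ?_
  rw [card_univ, Fintype.card_fun, card_Lf, Fintype.card_bool, nsmul_eq_mul]
  push_cast
  exact mul_le_mul_of_nonneg_right (pow_le_pow_right₀ one_le_two hA) hc

theorem var_small (n s : ℕ) (hn : n + 1 ≤ s) : ∃ C : ℝ, 0 ≤ C ∧ ∀ P : Par,
    (∀ k, pw P k ≤ 1 / (P.r + 1)) → ∀ (S : Type) [Fintype S] [Nonempty S] (H : Path S → ℝ)
    (ω₀ : Path S) (I : Type) [Fintype I] [Nonempty I] (y : I → Bool → Path S → ℝ),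
    (∀ i b ω, |y i b ω| ≤ 1) → ∀ θ ε β : ℝ, 0 < θ → 0 ≤ ε → 0 ≤ β →
    (∀ B x, SW P.r B → B.size ≤ s → Dec1 P H ω₀ y β ε B x) → ∀ J ≤ P.r + 1,
    ∑ a ∈ range J, Q P a n (fun A => ∑ x, E P H 0 ω₀ fun ω =>
      Vr (nuE P H a A ω) (YY y A x fun _ => 1)) ≤ C * (J * (θ + ε) + (β + θ⁻¹ + 1)) := by
  classical
  obtain ⟨C, hC, hQ⟩ := Q_FF n
  refine ⟨2 ^ s * (8 * 2 ^ s * (s + 1) * s) * (C * (2 ^ s * (s + 1))), by positivity, ?_⟩
  intro P hp S _ _ H ω₀ I _ _ y hy θ ε β hθ hε hβ hD J hJ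
  choose Inc hI0 hI1 hI2 using hD
  have hE := E_isP P H 0 ω₀
  obtain ⟨g₁, hg₁⟩ : ∃ g : ℕ → BT → ℝ, g = fun a A => if A.size ≤ s then
    ∑ x, θ⁻¹ * sqo P H ω₀ (s + 1) a (mm P H y A x) else 0 := ⟨_, rfl⟩
  obtain ⟨g₂, hg₂⟩ : ∃ g : ℕ → BT → ℝ, g = fun a A =>
    if a < A.root P.r ∧ A.root P.r ≤ a + (s + 1) then 1 else 0 := ⟨_, rfl⟩
  obtain ⟨g₃, hg₃⟩ : ∃ g : ℕ → BT → ℝ, g = fun a A => if h : SW P.r A.sh ∧ A.sh.size ≤ s then
    ∑ x : A.Lf → Bool, E P H 0 ω₀ (Inc A.sh (fun j => x (A.shL j)) h.1 h.2 a) else 0 := ⟨_, rfl⟩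
  have p1 : ∀ a A, 0 ≤ g₁ a A := fun a A => by
    simp only [hg₁]; split_ifs
    · exact sum_nonneg fun x _ => mul_nonneg (by positivity) (sqo_nonneg P H ω₀ _ _ _)
    · exact le_rfl
  have p2 : ∀ a A, 0 ≤ g₂ a A := fun a A => by simp only [hg₂]; split_ifs <;> norm_num
  have p3 : ∀ a A, 0 ≤ g₃ a A := fun a A => by
    simp only [hg₃]; split_ifs
    · exact sum_nonneg fun x _ => hE.nonneg _ (hI0 _ _ _ _ _)
    · exact le_rfl
  have s1 : ∀ A, ∑ a ∈ range (P.r + 1), g₁ a A ≤ 2 ^ s * (θ⁻¹ * (s + 1 : ℕ)) := fun A => by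
    simp only [hg₁]; split_ifs with h
    · rw [sum_comm]
      refine sum_pat_le h (by positivity) fun x => ?_
      rw [← mul_sum]
      exact mul_le_mul_of_nonneg_left (sum_sqo P H ω₀ _ _ (mm_abs P H hy A x)) (by positivity)
    · rw [sum_const_zero]; positivity
  have s2 : ∀ A, ∑ a ∈ range (P.r + 1), g₂ a A ≤ (s + 1 : ℕ) := fun A => by
    simp only [hg₂, sum_boole]
    have : #{a ∈ range (P.r + 1) | a < A.root P.r ∧ A.root P.r ≤ a + (s + 1)} ≤
        #(Ico (A.root P.r - (s + 1)) (A.root P.r)) := card_le_card fun a ha => by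
      simp only [mem_filter, mem_Ico] at ha ⊢; omega
    rw [Nat.card_Ico] at this
    exact_mod_cast this.trans (by omega)
  have s3 : ∀ A, ∑ a ∈ range (P.r + 1), g₃ a A ≤ 2 ^ s * β := fun A => by
    simp only [hg₃]; split_ifs with h
    · rw [sum_comm]
      exact sum_pat_le (A.size_sh ▸ h.2) hβ fun x => hI1 _ _ _ _
    · rw [sum_const_zero]; positivity
  obtain ⟨g, hg⟩ : ∃ g : ℕ → BT → ℝ, g = fun a A => θ + ε + (g₁ a A + g₂ a A + g₃ a A) := ⟨_, rfl⟩
  have p0 : ∀ a A, 0 ≤ g a A := fun a A => by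
    have := p1 a A; have := p2 a A; have := p3 a A
    simp only [hg]; positivity
  have h2s : (1 : ℝ) ≤ 2 ^ s := one_le_pow₀ one_le_two
  have hs0 : (0 : ℝ) ≤ s := Nat.cast_nonneg s
  have hθ' : 0 < θ⁻¹ := inv_pos.2 hθ
  have key := hQ P hp g (θ + ε) (2 ^ s * (s + 1) * (β + θ⁻¹ + 1)) (by positivity) (by positivity)
    p0 (fun A I hI => by
      simp only [hg]
      rw [sum_add_distrib, sum_const, nsmul_eq_mul]
      refine add_le_add le_rfl ((sum_le_sum_of_subset_of_nonneg hI fun a _ _ =>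
        add_nonneg (add_nonneg (p1 a A) (p2 a A)) (p3 a A)).trans ?_)
      rw [sum_add_distrib, sum_add_distrib]
      have a1 := s1 A
      have a2 := s2 A
      have a3 := s3 A
      push_cast at a1 a2
      have a4 : 0 ≤ 2 ^ s * s * β := by positivity
      nlinarith) (range J) (range_subset_range.2 hJ)
  rw [card_range] at key
  have hV := var_FF P H ω₀ (s := s) hy p0 (fun k A x hA => (os_le P H ω₀ _ _ _ hθ).trans (by
      have a1 : θ⁻¹ * sqo P H ω₀ (s + 1) k (mm P H y A x) ≤ g₁ k A := by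
        simp only [hg₁, if_pos hA]
        exact single_le_sum (f := fun x => θ⁻¹ * sqo P H ω₀ (s + 1) k (mm P H y A x))
          (fun x _ => mul_nonneg hθ'.le (sqo_nonneg P H ω₀ _ _ _)) (mem_univ x)
      simp only [hg]
      linarith [p2 k A, p3 k A]))
    (fun a A x hA hW ha hr => by
      have hS : SW P.r A.sh := by
        cases A with
        | leaf => trivial
        | node k l r => exact SW_sh (k := k) ⟨le_rfl, hW.2⟩ (by simp only [root] at hr; omega)
      have hA' : A.sh.size ≤ s := A.size_sh.symm ▸ hA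
      refine ⟨fun ω => Inc A.sh (fun j => x (A.shL j)) hS hA' a ω + ε,
        hI2 _ _ hS hA' a ha ?_, ?_⟩
      · cases A with
        | leaf => simp only [sh, root]; omega
        | node k l r => simp only [sh, root, size] at *; omega
      · have a1 : E P H 0 ω₀ (Inc A.sh (fun j => x (A.shL j)) hS hA' a) ≤ g₃ a A := by
          simp only [hg₃, dif_pos (And.intro hS hA')]
          exact single_le_sum (f := fun x : A.Lf → Bool =>
            E P H 0 ω₀ (Inc A.sh (fun j => x (A.shL j)) hS hA' a))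
            (fun x _ => hE.nonneg _ (hI0 _ _ _ _ _)) (mem_univ x)
        rw [lin_add, hE.const]
        simp only [hg]
        linarith [p1 a A, p2 a A])
    (fun a A h1 h2 => by
      have a1 : g₂ a A = 1 := by simp only [hg₂, if_pos (And.intro h1 h2)]
      simp only [hg]
      linarith [p1 a A, p3 a A])
  calc _ ≤ ∑ a ∈ range J, Q P a n fun A => 2 ^ s * (8 * 2 ^ s * (s + 1) * s) * FF g a A := by
        refine sum_le_sum fun a ha => ?_
        have ha' : a ≤ P.r := by have := mem_range.1 ha; omega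
        refine Q_mono P ha' n fun A hW hs => ?_
        have hA : A.size ≤ s := hs ▸ hn
        have hF := FF_nonneg p0 a A
        rw [mul_assoc]
        refine sum_pat_le hA (by positivity) fun x => ?_
        obtain ⟨V, hV1, hV2⟩ := hV A a x hA hW ha'
        refine (hE.mono fun ω => hV1 _ (fun _ => abs_one.le) ω).trans (hV2.trans ?_)
        have : (A.size : ℝ) ≤ s := by exact_mod_cast hA
        gcongr
    _ ≤ 2 ^ s * (8 * 2 ^ s * (s + 1) * s) * (C * (J * (θ + ε) +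
          2 ^ s * (s + 1) * (β + θ⁻¹ + 1))) := by
        simp only [lin_mul, ← mul_sum]
        exact mul_le_mul_of_nonneg_left key (by positivity)
    _ ≤ _ := by
        rw [mul_assoc _ (C * _), mul_assoc C]
        gcongr
        have : (1 : ℝ) ≤ 2 ^ s * (s + 1) := by nlinarith
        have : 0 ≤ J * (θ + ε) := by positivity
        nlinarith

lemma Vr_le_add' {A : Type*} {Λ : (A → ℝ) →ₗ[ℝ] ℝ} (h : IsP Λ) {f g : A → ℝ} {d : ℝ}
    (hf : ∀ x, |f x| ≤ 1) (hd : ∀ x, |f x - g x| ≤ d) (hd1 : d ≤ 1) : Vr Λ f ≤ Vr Λ g + 6 * d := by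
  have key : ∀ a b : ℝ, |a| ≤ 1 → |a - b| ≤ d → |a ^ 2 - b ^ 2| ≤ 3 * d := by
    intro a b ha hab
    rw [show a ^ 2 - b ^ 2 = (2 * a - (a - b)) * (a - b) by ring, abs_mul]
    refine mul_le_mul ((abs_sub _ _).trans ?_) hab (abs_nonneg _) (by norm_num)
    rw [abs_mul, abs_two]; linarith
  have a1 := (abs_le.1 (h.abs_sub_le (f := fun x => f x ^ 2) (g := fun x => g x ^ 2)
    fun x => key _ _ (hf x) (hd x))).2
  have a2 := (abs_le.1 (key _ _ (h.abs_le_of hf) (h.abs_sub_le hd))).1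
  unfold Vr; linarith

section
variable {Λ : Type} [DecidableEq Λ] (P : Par)

lemma dec_one {S : Type} [Fintype S] [Nonempty S] {I : Type} [Fintype I] [Nonempty I]
    {π : I → S → Z Λ} {φ : I → Λ → S → S} (hφ : ∀ i v, Unif (φ i v))
    (hπ : ∀ i v s, π i (φ i v s) = flipZ v (π i s))
    (hπ' : ∀ i i', i' ≠ i → ∀ v s, π i' (φ i v s) = π i' s)
    {B : BT} (hB : SW P.r B) {x : B.Lf → Bool} {U : Set Λ} {h δ : Path (Z Λ) → ℝ} {c ε η : ℝ}
    (G : GOK P B x U h δ c ε) {v₀ : Λ} (hv : v₀ ∉ U) {H : Path S → ℝ}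
    (iH : ∀ i v, v ∈ U ∨ v = v₀ → ∀ u, Inv (φ i v) u fun ω => H ω - (δ (π i ∘ ω) +
      ∑ t ∈ range (P.r + 1), η * sgnZ v₀ (π i (ω t)) * h (π i ∘ ω)))
    (hη : 0 < η) (h1 : kap P ^ 2 * η ≤ c * ε) (h2 : kap P * η ≤ ε)
    (h3 : 58 * kap P ^ 3 * η ≤ c ^ 2 * ε) {s : ℕ} (hs : B.size ≤ s)
    (h4 : (2 + 8 * kap P * s) * ε ≤ 1) (hm : ∀ a, 1 ≤ kap P * P.m a)
    (hN : 17 ≤ η ^ 4 * Fintype.card I) (ω₀ : Path S) :
    Dec1 P H ω₀ (fun i b ω => ind P.r b (π i ∘ ω)) 4 ((13 + 48 * kap P * s) * ε) B x := by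
  have hκ := one_le_kap P
  have hc := G.cpos
  have hε : 0 < ε := lt_of_lt_of_le (by positivity) h2
  have hs1 : (1 : ℝ) ≤ s := by exact_mod_cast B.size_pos.trans_le hs
  have hκε : 8 * (kap P * ε) ≤ 1 := by nlinarith [mul_le_mul_of_nonneg_left hs1 (by positivity : 0 ≤ kap P * ε)]
  have hε1 : ε ≤ kap P * ε := le_mul_of_one_le_left hε.le hκ
  obtain ⟨t, ht⟩ : ∃ t, t = B.root P.r - 1 := ⟨_, rfl⟩
  have ht1 : t < B.root P.r ∧ t ≤ P.r + 1 := by
    cases B with
    | leaf => simp only [root] at ht ⊢; omega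
    | node k l r => have := hB.1; have := hB.2.1; simp only [root] at ht ⊢; omega
  have hρ : ∀ i (ω : Path S), |∑ t ∈ range (P.r + 1), η * sgnZ v₀ (π i (ω t)) * h (π i ∘ ω)| ≤
      kap P * η / 2 := fun i ω => by
    refine (abs_sum_le_sum_abs _ _).trans ((sum_le_card_nsmul _ _ η fun t _ => ?_).trans_eq ?_)
    · rw [abs_mul, abs_mul, sgnZ_abs, abs_of_pos hη, mul_one]
      exact mul_le_of_le_one_right hη.le (G.hh _)
    · rw [card_range, nsmul_eq_mul, kap]; push_cast; ring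
  have happ : ∀ i ω, |E P H t ω (mm P H (fun i b ω => ind P.r b (π i ∘ ω)) B x i) -
      c⁻¹ * E P H t ω fun y => h (π i ∘ y)| ≤ (2 + 8 * kap P * s) * ε := by
    intro i ω
    obtain ⟨ρ, hρ'⟩ : ∃ ρ : Path S → ℝ, ρ = fun ω =>
      ∑ t ∈ range (P.r + 1), η * sgnZ v₀ (π i (ω t)) * h (π i ∘ ω) := ⟨_, rfl⟩
    obtain ⟨H₀, hH₀⟩ : ∃ H₀ : Path S → ℝ, H₀ = fun ω => H ω - (δ (π i ∘ ω) + ρ ω) := ⟨_, rfl⟩
    have aρ : ∀ ω, |ρ ω| ≤ kap P * η / 2 := fun ω => hρ' ▸ hρ i ω
    have b1 := G.main S (π i) (φ i) (hφ i) (hπ i) H₀ (fun v hv u => by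
      rw [hH₀, hρ']; exact iH i v (Or.inl hv) u) t ht1.1 ω
    have b2 := E_stab' P (H := fun y => H₀ y + δ (π i ∘ y)) aρ (by nlinarith) t
      (fun y => G.hh (π i ∘ y)) ω
    have b3 := mom_stab P (H := H₀) (δ := fun y => δ (π i ∘ y) + ρ y) (η := 2 * ε)
      (fun y => (abs_add_le _ _).trans (by linarith [G.hδ (π i ∘ y), aρ y])) (by linarith) B
      (f := fun l y => ind P.r (x l) (π i ∘ y)) (fun _ _ => ind_abs _ _ _) t ω
    have e1 : (fun y => H₀ y + δ (π i ∘ y) + ρ y) = H := by funext y; simp only [hH₀]; ring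
    have e2 : (fun y => H₀ y + (δ (π i ∘ y) + ρ y)) = H := by funext y; simp only [hH₀]; ring
    rw [e1] at b2
    rw [e2] at b3
    unfold mm
    generalize E P H t ω (mom P H B fun l y => ind P.r (x l) (π i ∘ y)) = m at *
    generalize E P H₀ t ω (mom P H₀ B fun l y => ind P.r (x l) (π i ∘ y)) = m₀ at *
    generalize E P H t ω (fun y => h (π i ∘ y)) = a at *
    generalize E P (fun y => H₀ y + δ (π i ∘ y)) t ω (fun y => h (π i ∘ y)) = a₀ at *
    have e : m - c⁻¹ * a = (m - m₀) + -(c⁻¹ * (a₀ - c * m₀)) + -(c⁻¹ * (a - a₀)) := by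
      field_simp; ring
    rw [e]
    refine (abs_add_three _ _ _).trans ?_
    rw [abs_neg, abs_neg, abs_mul, abs_mul, abs_of_pos (inv_pos.2 hc)]
    have b4 : c⁻¹ * |a₀ - c * m₀| ≤ ε := by rw [inv_mul_le_iff₀ hc]; linarith
    have b5 : c⁻¹ * |a - a₀| ≤ ε := by rw [inv_mul_le_iff₀ hc]; nlinarith
    have b6 : (B.size : ℝ) ≤ s := by exact_mod_cast hs
    have b7 : 2 * kap P * (2 * ε) * (2 * B.size - 1) ≤ 2 * kap P * (2 * ε) * (2 * s) := by
      gcongr; linarith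
    linarith
  have hmm : ∀ i ω, |E P H t ω (mm P H (fun i b ω => ind P.r b (π i ∘ ω)) B x i)| ≤ 1 :=
    fun i ω => E_mm_abs P H (fun _ _ _ => ind_abs _ _ _) B x i t ω
  refine ⟨fun a ω => if a < t then (c ^ 2)⁻¹ * E P H a ω fun z => 𝔼 i,
    (E P H (a + 1) z (fun y => h (π i ∘ y)) - E P H a z fun y => h (π i ∘ y)) ^ 2 else 0,
    fun a ω => ?_, ?_, ?_⟩
  · beta_reduce
    split_ifs
    · exact mul_nonneg (by positivity) ((E_isP P H a ω).nonneg _ fun _ =>
        expect_nonneg fun _ _ => sq_nonneg _)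
    · exact le_rfl
  · rw [← sum_range_add_sum_Ico _ ht1.2, sum_eq_zero (s := Ico t (P.r + 1)) fun a ha => by
      simp only [if_neg (not_lt.2 (mem_Ico.1 ha).1), lin_zero], add_zero,
      sum_congr rfl (g := fun a => (c ^ 2)⁻¹ * 𝔼 i, (E P H 0 ω₀ (fun z => E P H (a + 1) z
        (fun y => h (π i ∘ y)) ^ 2) - E P H 0 ω₀ fun z => E P H a z (fun y => h (π i ∘ y)) ^ 2))
        fun a ha => by
          simp only [if_pos (mem_range.1 ha), lin_mul, E_E P H (Nat.zero_le a)]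
          simp only [lin_expect, E_sq_sub P H _ (Nat.zero_le a) (Nat.le_succ a)],
      ← mul_sum, ← expect_sum_comm, inv_mul_le_iff₀ (by positivity)]
    refine expect_le univ_nonempty fun i _ => ?_
    rw [sum_range_sub fun a => E P H 0 ω₀ fun z => E P H a z (fun y => h (π i ∘ y)) ^ 2]
    refine (sub_le_self _ ((E_isP P H 0 ω₀).nonneg _ fun _ => sq_nonneg _)).trans
      ((E_isP P H 0 ω₀).le fun z => ?_)
    have a1 : |c⁻¹ * E P H t z fun y => h (π i ∘ y)| ≤ 2 := by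
      have := abs_sub_abs_le_abs_sub (c⁻¹ * E P H t z fun y => h (π i ∘ y))
        (E P H t z (mm P H (fun i b ω => ind P.r b (π i ∘ ω)) B x i))
      rw [abs_sub_comm] at this
      linarith [happ i z, hmm i z]
    rw [abs_mul, abs_of_pos (inv_pos.2 hc), inv_mul_le_iff₀ hc] at a1
    rw [← sq_abs]
    exact (pow_le_pow_left₀ (abs_nonneg _) a1 2).trans_eq (by ring)
  · intro a ha hat w hw ω
    rw [← ht] at hat ⊢
    beta_reduce
    rcases hat.eq_or_lt with rfl | hat'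
    · have hm : Meas P a fun z => 𝔼 i, w i * E P H a z
          (mm P H (fun i b ω => ind P.r b (π i ∘ ω)) B x i) := by
        intro u h1 h2 ω s
        exact expect_congr rfl fun i _ => congrArg _ (E_meas P H a _ u h1 h2 ω s)
      rw [Vr, E_of_meas P H hm, E_of_meas P H (hm.map (· ^ 2)), sub_self, if_neg (lt_irrefl _)]
      positivity
    rw [if_pos hat']
    refine (Vr_le_add' (E_isP P H a ω) (g := fun z => 𝔼 i, w i * (c⁻¹ * E P H t z
      fun y => h (π i ∘ y))) (fun z => abs_expect_w hw fun i => hmm i z) (fun z => ?_) h4).trans ?_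
    · rw [← expect_sub_distrib]
      refine (avg_isP I).abs_le_of (f := fun i => _ - _) fun i => ?_
      rw [← mul_sub, abs_mul]
      exact (mul_le_of_le_one_left (abs_nonneg _) (hw i)).trans (happ i z)
    have ih : ∀ i i', Inv (φ i v₀) a fun y => h (π i' ∘ y) := by
      intro i i'
      by_cases hi : i' = i
      · subst hi; exact (G.invh v₀ hv a).lift (hπ i' v₀)
      · intro y
        show h (π i' ∘ fl (φ i v₀) a y) = h (π i' ∘ y)
        simp only [fl, comp_update, hπ' i i' hi]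
        exact congrArg h (update_eq_self a (π i' ∘ y))
    have hd := decor P (φ := fun i => φ i v₀) (fun i => hφ i v₀) (z := fun i s => sgnZ v₀ (π i s))
      (fun i s => by simp only [hπ, sgnZ_flip]) (fun i i' hi s => by simp only [hπ' i i' hi])
      (fun i s => sgnZ_sq _ _) ha (H := H) (h := fun i y => h (π i ∘ y)) hη (by linarith) hN
      (fun i y => G.hh _) ih (fun i => by
        have e : (fun y => H y - η * sgnZ v₀ (π i (y a)) * h (π i ∘ y)) = fun y =>
            (H y - (δ (π i ∘ y) + ∑ t ∈ range (P.r + 1), η * sgnZ v₀ (π i (y t)) * h (π i ∘ y))) +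
            (δ (π i ∘ y) + ∑ t ∈ (range (P.r + 1)).erase a,
              η * sgnZ v₀ (π i (y t)) * h (π i ∘ y)) := by
          funext y
          rw [← add_sum_erase _ _ (mem_range.2 (Nat.lt_succ_of_le ha))]
          ring
        rw [e]
        refine (iH i v₀ (Or.inr rfl) a).add (((G.invδ v₀ hv a).lift (hπ i v₀)).add
          (Inv.sum _ fun u hu => Inv.mul (fun y => ?_) (ih i i)))
        simp only [fl_apply_ne (ne_of_mem_erase hu)]) hw hat ht1.2 ω
    have hn : (0 : ℝ) < Fintype.card I := by exact_mod_cast Fintype.card_pos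
    simp only [Vr, Fintype.expect_eq_sum_div_card, mul_left_comm (w _), ← mul_sum, mul_pow,
      div_eq_mul_inv, lin_mul, lin_mul', lin_sum, E_E P H hat]
    simp only [lin_sum] at hd
    generalize E P H a ω (fun z => (∑ i, w i * E P H t z fun y => h (π i ∘ y)) ^ 2) = V at *
    generalize (∑ i, w i * E P H a ω fun y => h (π i ∘ y)) = M at *
    generalize (∑ i, E P H a ω fun z => (E P H (a + 1) z (fun y => h (π i ∘ y)) -
      E P H a z fun y => h (π i ∘ y)) ^ 2) = D at *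
    generalize (Fintype.card I : ℝ) = n at *
    have hma := P.pos a
    have b1 : V - M ^ 2 ≤ n * D + c ^ 2 * ε * n ^ 2 := by
      refine le_of_mul_le_mul_left (hd.trans ?_) hma
      have b2 : 58 * kap P ^ 2 * η ≤ P.m a * (c ^ 2 * ε) := by
        calc _ ≤ 58 * kap P ^ 2 * η * (kap P * P.m a) :=
              le_mul_of_one_le_right (by positivity) (hm a)
          _ = P.m a * (58 * kap P ^ 3 * η) := by ring
          _ ≤ _ := by gcongr
      nlinarith [mul_le_mul_of_nonneg_right b2 (sq_nonneg n)]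
    have b3 : c⁻¹ ^ 2 * V * n⁻¹ ^ 2 - c⁻¹ ^ 2 * M ^ 2 * n⁻¹ ^ 2 ≤ (c ^ 2)⁻¹ * (D * n⁻¹) + ε := by
      calc _ = c⁻¹ ^ 2 * n⁻¹ ^ 2 * (V - M ^ 2) := by ring
        _ ≤ c⁻¹ ^ 2 * n⁻¹ ^ 2 * (n * D + c ^ 2 * ε * n ^ 2) := by gcongr
        _ = _ := by field_simp
    linarith

end

end Crest.Agent.R141
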